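import Mathlib.MeasureTheory.Integral.Bochner.Basic
import Mathlib.MeasureTheory.Measure.Real
import Mathlib.Dynamics.Ergodic.MeasurePreserving
import Mathlib.Analysis.Complex.Basic
import Mathlib.MeasureTheory.Constructions.BorelSpace.Complex
import Mathlib.Topology.Compactness.Compact

/-!
# P102: mixing and multiple mixing for actions of abelian groups
-/

namespace Vale.Agent.N102G

open MeasureTheory Filter Topology
open scoped symmDiff

variable {G Ω : Type*} [MeasurableSpace Ω]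

/-- `T` is a measure preserving action of the abelian group `G` on `(Ω, μ)`: every `T g` is
measurable and preserves `μ`, `T 0 = id` almost everywhere, and `T (g + h) = T g ∘ T h` almost
everywhere for all `g` and `h`. -/
structure IsAction [AddCommGroup G] (μ : Measure Ω) (T : G → Ω → Ω) : Prop where
  mp : ∀ g, MeasurePreserving (T g) μ μ
  zero : ∀ᵐ x ∂μ, T 0 x = x
  add : ∀ g h, ∀ᵐ x ∂μ, T (g + h) x = T g (T h x)

/-- continuity in measure: `μ ((T g)⁻¹ A ∆ A) → 0` as `g → 0`, for every measurable `A` -/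
def ContInMeasure [Zero G] [TopologicalSpace G] (μ : Measure Ω) (T : G → Ω → Ω) : Prop :=
  ∀ A : Set Ω, MeasurableSet A → Tendsto (fun g => μ ((T g ⁻¹' A) ∆ A)) (𝓝 0) (𝓝 0)

/-- mixing: `μ (A ∩ (T g)⁻¹ B) → μ A * μ B` as `g` leaves every compact set -/
def Mixing [TopologicalSpace G] (μ : Measure Ω) (T : G → Ω → Ω) : Prop :=
  ∀ A B : Set Ω, MeasurableSet A → MeasurableSet B →
    Tendsto (fun g => μ.real (A ∩ T g ⁻¹' B)) (cocompact G) (𝓝 (μ.real A * μ.real B))

/-- mixing of all orders: `μ (⋂ i, (T (t i))⁻¹ A_i) → ∏ i, μ A_i` as all differences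
`t i - t j`, `i ≠ j`, leave every compact set -/
def MixingAllOrders [Sub G] [TopologicalSpace G] (μ : Measure Ω) (T : G → Ω → Ω) : Prop :=
  ∀ (k : ℕ) (A : Fin k → Set Ω), (∀ i, MeasurableSet (A i)) → ∀ ε : ℝ, 0 < ε →
    ∃ K : Set G, IsCompact K ∧ ∀ t : Fin k → G, (∀ i j, i ≠ j → t i - t j ∉ K) →
      |μ.real (⋂ i, T (t i) ⁻¹' A i) - ∏ i, μ.real (A i)| < ε

/-- pairwise asymptotic independence along a filter `l` of `k`-tuples of times -/
def PairIndep (μ : Measure Ω) (T : G → Ω → Ω) {k : ℕ} (l : Filter (Fin k → G)) : Prop :=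
  ∀ i j, i ≠ j → ∀ A B : Set Ω, MeasurableSet A → MeasurableSet B →
    Tendsto (fun t => μ.real (T (t i) ⁻¹' A ∩ T (t j) ⁻¹' B)) l (𝓝 (μ.real A * μ.real B))

/-- joint asymptotic independence along a filter `l` of `k`-tuples of times -/
def JointIndep (μ : Measure Ω) (T : G → Ω → Ω) {k : ℕ} (l : Filter (Fin k → G)) : Prop :=
  ∀ A : Fin k → Set Ω, (∀ i, MeasurableSet (A i)) →
    Tendsto (fun t => μ.real (⋂ i, T (t i) ⁻¹' A i)) l (𝓝 (∏ i, μ.real (A i)))

/-- `f` is a bounded measurable function of mean zero, not almost everywhere zero, which is an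
eigenfunction of every `T h`, `h ∈ H`, and whose translates by elements of pairwise different
cosets of `H` satisfy Bessel's inequality -/
def BesselVector [AddCommGroup G] (μ : Measure Ω) (T : G → Ω → Ω) (H : AddSubgroup G)
    (f : Ω → ℂ) : Prop :=
  Measurable f ∧ (∃ C : ℝ, ∀ x, ‖f x‖ ≤ C) ∧ ∫ x, f x ∂μ = 0 ∧ ¬ (∀ᵐ x ∂μ, f x = 0) ∧
    (∀ h ∈ H, ∃ c : ℂ, ∀ᵐ x ∂μ, f (T h x) = c * f x) ∧
    ∀ (n : ℕ) (g : Fin n → G) (z : Fin n → ℂ), (∀ i j, i ≠ j → g i - g j ∉ H) →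
      ∫ x, ‖∑ i, z i * f (T (g i) x)‖ ^ 2 ∂μ ≤ ∑ i, ‖z i‖ ^ 2

end Vale.Agent.N102G
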