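import Vale.Agent.P102.H787.Local

set_option linter.all false

section
/-!
P102 (Rokhlin multiple mixing), campaign RM. Definitions shared by all blocks.
DO NOT EDIT without telling helper4.
-/

namespace Vale.Agent.N102G

open Vale.Agent.P102.RM
variable {Γ : Type} [AddCommGroup Γ]

open MeasureTheory Filter Topology ProbabilityTheory

/-! ### Systems and factor maps -/

/-- an action of the abelian group `Γ` by measurable maps -/
structure Act (Γ : Type) [AddCommGroup Γ] (Ω : Type*) [MeasurableSpace Ω] where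
  t : Γ → Ω → Ω
  meas : ∀ g, Measurable (t g)
  zero : ∀ x, t 0 x = x
  add : ∀ g h x, t (g + h) x = t g (t h x)

/-- the map given by the group element `g` -/
def iter {Ω : Type*} [MeasurableSpace Ω] (T : Act Γ Ω) (g : Γ) : Ω → Ω := T.t g

theorem iter_zero {Ω : Type*} [MeasurableSpace Ω] (T : Act Γ Ω) (a : Ω) : iter T 0 a = a :=
  T.zero a

theorem iter_add {Ω : Type*} [MeasurableSpace Ω] (T : Act Γ Ω) (m n : Γ) (a : Ω) :
    iter T (m + n) a = iter T m (iter T n a) := T.add m n a

theorem measurable_iter {Ω : Type*} [MeasurableSpace Ω] (T : Act Γ Ω) (n : Γ) :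
    Measurable (iter T n) := T.meas n

theorem iter_mp {Ω : Type*} [MeasurableSpace Ω] {μ : Measure Ω} (T : Act Γ Ω)
    (hT : ∀ g, MeasurePreserving (iter T g) μ μ) (n : Γ) : MeasurePreserving (iter T n) μ μ :=
  hT n

theorem iter_comm {Ω : Type*} [MeasurableSpace Ω] (T : Act Γ Ω) (m n : Γ) (a : Ω) :
    iter T m (iter T n a) = iter T n (iter T m a) := by
  rw [← iter_add, ← iter_add, add_comm]

/-- the map given by `g` as a measurable equivalence -/
def Act.e {Ω : Type*} [MeasurableSpace Ω] (T : Act Γ Ω) (g : Γ) : Ω ≃ᵐ Ω where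
  toFun := iter T g
  invFun := iter T (-g)
  left_inv a := by rw [← iter_add, neg_add_cancel, iter_zero]
  right_inv a := by rw [← iter_add, add_neg_cancel, iter_zero]
  measurable_toFun := measurable_iter T g
  measurable_invFun := measurable_iter T (-g)

@[simp] theorem Act.e_apply {Ω : Type*} [MeasurableSpace Ω] (T : Act Γ Ω) (g : Γ) (a : Ω) :
    T.e g a = iter T g a := rfl

theorem Act.coe_e {Ω : Type*} [MeasurableSpace Ω] (T : Act Γ Ω) (g : Γ) :
    (T.e g : Ω → Ω) = iter T g := rfl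

/-- products of actions -/
def Act.pi {I : Type*} {V : I → Type*} [∀ i, MeasurableSpace (V i)] (T : ∀ i, Act Γ (V i)) :
    Act Γ (∀ i, V i) where
  t g d i := iter (T i) g (d i)
  meas g := measurable_pi_lambda _ fun i => (measurable_iter (T i) g).comp (measurable_pi_apply i)
  zero d := funext fun i => iter_zero (T i) (d i)
  add g h d := funext fun i => iter_add (T i) g h (d i)

def Act.prod {V W : Type*} [MeasurableSpace V] [MeasurableSpace W] (T : Act Γ V) (R : Act Γ W) :
    Act Γ (V × W) where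
  t g p := (iter T g p.1, iter R g p.2)
  meas g := ((measurable_iter T g).comp measurable_fst).prodMk
    ((measurable_iter R g).comp measurable_snd)
  zero p := Prod.ext (iter_zero T p.1) (iter_zero R p.2)
  add g h p := Prod.ext (iter_add T g h p.1) (iter_add R g h p.2)

@[simp] theorem iter_pi {I : Type*} {V : I → Type*} [∀ i, MeasurableSpace (V i)]
    (T : ∀ i, Act Γ (V i)) (g : Γ) (d : ∀ i, V i) (i : I) :
    iter (Act.pi T) g d i = iter (T i) g (d i) := rfl

/-- a probability preserving action on a standard Borel space (in `Type`) -/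
structure Sys (Γ : Type) [AddCommGroup Γ] where
  C : Type
  [mC : MeasurableSpace C]
  [sC : StandardBorelSpace C]
  μ : Measure C
  [pμ : IsProbabilityMeasure μ]
  S : Act Γ C
  mp : ∀ g, MeasurePreserving (iter S g) μ μ

attribute [instance] Sys.mC Sys.sC Sys.pμ

instance Sys.instNonempty (A : Sys Γ) : Nonempty A.C := nonempty_of_isProbabilityMeasure A.μ

/-- factor maps (equivariant everywhere) -/
structure Fac (A B : Sys Γ) where
  f : A.C → B.C
  mp : MeasurePreserving f A.μ B.μ
  eqv : ∀ g a, f (iter A.S g a) = iter B.S g (f a)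

theorem Fac.meas {A B : Sys Γ} (p : Fac A B) : Measurable p.f := p.mp.measurable

theorem Fac.iter {A B : Sys Γ} (p : Fac A B) (n : Γ) (a : A.C) :
    p.f (N102G.iter A.S n a) = N102G.iter B.S n (p.f a) := p.eqv n a

/-- identity and composition -/
def Fac.id (A : Sys Γ) : Fac A A := ⟨_root_.id, MeasurePreserving.id A.μ, fun _ _ => rfl⟩

def Fac.comp {A B C : Sys Γ} (q : Fac B C) (p : Fac A B) : Fac A C :=
  ⟨q.f ∘ p.f, q.mp.comp p.mp, fun g a => by simp [p.eqv, q.eqv]⟩

/-- the image of a system under an equivariant measurable map -/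
@[reducible] noncomputable def Sys.image (A : Sys Γ) (B : Type) [MeasurableSpace B]
    [StandardBorelSpace B] (β : A.C → B)
    (hβ : Measurable β) (R : Act Γ B) (h : ∀ g a, β (iter A.S g a) = iter R g (β a)) : Sys Γ where
  C := B
  μ := A.μ.map β
  pμ := Measure.isProbabilityMeasure_map hβ.aemeasurable
  S := R
  mp := fun g => by
    refine ⟨measurable_iter R g, ?_⟩
    rw [Measure.map_map (measurable_iter R g) hβ]
    have : (iter R g ∘ β) = β ∘ iter A.S g := by funext a; simp [h]
    rw [this, ← Measure.map_map hβ (measurable_iter A.S g), (A.mp g).map_eq]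

noncomputable def Sys.imageFac (A : Sys Γ) (B : Type) [MeasurableSpace B] [StandardBorelSpace B]
    (β : A.C → B) (hβ : Measurable β) (R : Act Γ B)
    (h : ∀ g a, β (iter A.S g a) = iter R g (β a)) :
    Fac A (A.image B β hβ R h) where
  f := β
  mp := ⟨hβ, rfl⟩
  eqv := h

/-! ### Limit joinings -/

section lim
variable {ι : Type} [Fintype ι]

/-- `L` is the limit law of `(S^{t i} a)_i` along the ultrafilter `r` of times -/
def IsLim (r : Ultrafilter (ι → Γ)) (A : Sys Γ) (L : Measure (ι → A.C)) : Prop :=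
  IsProbabilityMeasure L ∧ ∀ s : ι → Set A.C, (∀ i, MeasurableSet (s i)) →
    Tendsto (fun t : ι → Γ => A.μ (⋂ i, iter A.S (t i) ⁻¹' s i)) r (𝓝 (L (Set.univ.pi s)))

open Classical in
/-- the limit joining (junk value: the product measure, never used) -/
noncomputable def limM (r : Ultrafilter (ι → Γ)) (A : Sys Γ) : Measure (ι → A.C) :=
  if h : ∃ L, IsLim r A L then h.choose else Measure.pi fun _ => A.μ

theorem limM_isLim {r : Ultrafilter (ι → Γ)} {A : Sys Γ} (h : ∃ L, IsLim r A L) :
    IsLim r A (limM r A) := by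
  unfold limM; rw [dif_pos h]; exact h.choose_spec

instance limM_prob (r : Ultrafilter (ι → Γ)) (A : Sys Γ) : IsProbabilityMeasure (limM r A) := by
  unfold limM
  split_ifs with h
  · exact h.choose_spec.1
  · infer_instance

/-- the diagonal action on `ι → A.C` -/
def diag (ι : Type) (A : Sys Γ) : Act Γ (ι → A.C) := Act.pi fun _ => A.S

omit [Fintype ι] in
@[simp] theorem diag_apply (A : Sys Γ) (g : Γ) (d : ι → A.C) (i : ι) :
    iter (diag ι A) g d i = iter A.S g (d i) := rfl

theorem limM_inv (r : Ultrafilter (ι → Γ)) (A : Sys Γ) (g : Γ) :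
    MeasurePreserving (iter (diag ι A) g) (limM r A) (limM r A) := by
  have hd := measurable_iter (diag ι A) g
  refine ⟨hd, ?_⟩
  by_cases h : ∃ L, IsLim r A L
  · have hL := limM_isLim h
    have hp : IsProbabilityMeasure ((limM r A).map (iter (diag ι A) g)) :=
      Measure.isProbabilityMeasure_map hd.aemeasurable
    refine (ext_of_generate_finite _ generateFrom_pi.symm isPiSystem_pi ?_ ?_)
    · rintro _ ⟨s, hs, rfl⟩
      have hs' : ∀ i, MeasurableSet (s i) := fun i => hs i (Set.mem_univ i)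
      rw [Measure.map_apply hd (MeasurableSet.univ_pi hs')]
      have h1 : (iter (diag ι A) g) ⁻¹' (Set.univ.pi s) =
          Set.univ.pi fun i => iter A.S g ⁻¹' s i := by
        ext d; simp [Set.mem_pi]
      rw [h1]
      have h2 := hL.2 (fun i => iter A.S g ⁻¹' s i) (fun i => measurable_iter A.S g (hs' i))
      have h3 := hL.2 s hs'
      refine tendsto_nhds_unique h2 ?_
      convert h3 using 2
      rename_i t
      have h4 : (⋂ i, iter A.S (t i) ⁻¹' (iter A.S g ⁻¹' s i)) =
          iter A.S g ⁻¹' (⋂ i, iter A.S (t i) ⁻¹' s i) := by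
        ext a
        simp only [Set.mem_iInter, Set.mem_preimage, iter_comm A.S g]
      rw [h4]
      have hm : MeasurableSet (⋂ i, iter A.S (t i) ⁻¹' s i) :=
        MeasurableSet.iInter fun i => measurable_iter A.S (t i) (hs' i)
      exact (A.mp g).measure_preimage hm.nullMeasurableSet
    · simp
  · unfold limM
    rw [dif_neg h]
    exact (measurePreserving_pi (fun _ => A.μ) (fun _ => A.μ) (fun _ => A.mp g)).map_eq

/-- `D r A`: the limit self-joining of the system `A` along `r` -/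
@[reducible] noncomputable def D (r : Ultrafilter (ι → Γ)) (A : Sys Γ) : Sys Γ where
  C := ι → A.C
  μ := limM r A
  S := diag ι A
  mp := limM_inv r A

end lim

/-! ### Admissible pairs -/

/-- admissible pair over `X`: `W → X`, `W → Y` with `X` and `Y` independent inside `W` -/
structure Adm (X : Sys Γ) where
  W : Sys Γ
  Y : Sys Γ
  x : Fac W X
  y : Fac W Y
  ind : IndepFun x.f y.f W.μ

/-- extensions of admissible pairs (compatibility with `X` only almost everywhere) -/
structure Ext {X : Sys Γ} (P' P : Adm X) where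
  w : Fac P'.W P.W
  v : Fac P'.Y P.Y
  hx : ∀ᵐ a ∂P'.W.μ, P.x.f (w.f a) = P'.x.f a
  hy : ∀ a, P.y.f (w.f a) = v.f (P'.y.f a)

def Ext.refl {X : Sys Γ} (P : Adm X) : Ext P P :=
  ⟨Fac.id _, Fac.id _, ae_of_all _ fun _ => rfl, fun _ => rfl⟩

def Ext.comp {X : Sys Γ} {P'' P' P : Adm X} (e : Ext P' P) (e' : Ext P'' P') : Ext P'' P :=
  ⟨e.w.comp e'.w, e.v.comp e'.v, by
      filter_upwards [e'.hx, e'.w.mp.quasiMeasurePreserving.ae e.hx] with a h1 h2
      rw [← h1, ← h2]; rfl,
    fun a => by simp [Fac.comp, e.hy, e'.hy]⟩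

/-- the fibre measures of `A` over `B` -/
noncomputable def Fac.om {A B : Sys Γ} (p : Fac A B) : Kernel B.C A.C :=
  condDistrib _root_.id p.f A.μ

instance {A B : Sys Γ} (p : Fac A B) : IsMarkovKernel p.om := by unfold Fac.om; infer_instance

/-- `E[f | B]` as a function on `B` -/
noncomputable def Fac.ce {A B : Sys Γ} (p : Fac A B) (f : A.C → ℂ) : B.C → ℂ :=
  fun y => ∫ w, f w ∂(p.om y)

variable {X : Sys Γ}

/-- the functional `M` -/
noncomputable def Adm.M (P : Adm X) (f : P.W.C → ℂ) : ℝ := sqN P.W.μ P.y.f f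

/-- `M`-sated -/
def SatM (P : Adm X) : Prop :=
  ∀ (P' : Adm X) (e : Ext P' P) (f : P.W.C → ℂ), Bdd f → P'.M (f ∘ e.w.f) ≤ P.M f

section slots
variable {ι : Type} [Fintype ι] [DecidableEq ι]

/-- the point of `D r W` outside slot `s`, together with `y` at slot `s` -/
def Fac.side {V Y : Sys Γ} (y : Fac V Y) (s : ι) (d : ι → V.C) : ({j : ι // j ≠ s} → V.C) × Y.C :=
  (fun j => d j, y.f (d s))

/-- the functional `N^s` -/
noncomputable def Adm.N (P : Adm X) (r : Ultrafilter (ι → Γ)) (s : ι) (f : P.W.C → ℂ) : ℝ :=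
  sqN (D r P.W).μ (P.y.side s) (fun d : ι → P.W.C => f (d s))

/-- `N^s`-sated -/
def SatN (P : Adm X) (r : Ultrafilter (ι → Γ)) (s : ι) : Prop :=
  ∀ (P' : Adm X) (e : Ext P' P) (f : P.W.C → ℂ), Bdd f → P'.N r s (f ∘ e.w.f) ≤ P.N r s f

/-- the algebra of functions which are exact in slot `s` -/
def Exa (P : Adm X) (r : Ultrafilter (ι → Γ)) (s : ι) : Set (P.W.C → ℂ) :=
  {Φ | Bdd Φ ∧ ∃ g : ({j : ι // j ≠ s} → P.W.C) × P.Y.C → ℂ, Measurable g ∧
    ∀ᵐ d ∂(D r P.W).μ, Φ (d s) = g (P.y.side s d)}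

/-- conditional expectation in `D r A` given slot `t`, as a function on `A` -/
noncomputable def cl (r : Ultrafilter (ι → Γ)) (A : Sys Γ) (t : ι) (F : (ι → A.C) → ℂ) : A.C → ℂ :=
  cE (Ω := (D r A).C) (D r A).μ (fun d : ι → A.C => d t) F

/-- any `|ι| - 1` coordinates of `D r X` are independent -/
def KInd (r : Ultrafilter (ι → Γ)) (X : Sys Γ) : Prop :=
  ∀ (i0 : ι) (φ : ι → X.C → ℂ), (∀ i, Bdd (φ i)) →
    ∫ d, ∏ i ∈ Finset.univ.erase i0, φ i (d i) ∂(D r X).μ
      = ∏ i ∈ Finset.univ.erase i0, ∫ x, φ i x ∂X.μ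

/-- in `D r V` the points outside slot `s` are independent given all base points, with the own
fibre laws -/
def LineInd (r : Ultrafilter (ι → Γ)) {V Y : Sys Γ} (y : Fac V Y) (s : ι) : Prop :=
  ∀ (f : ι → V.C → ℂ) (h : (ι → Y.C) → ℂ), (∀ i, Bdd (f i)) → Bdd h →
    ∫ d, h (fun i => y.f (d i)) * ∏ j ∈ Finset.univ.erase s, f j (d j) ∂(D r V).μ
      = ∫ d, h (fun i => y.f (d i)) * ∏ j ∈ Finset.univ.erase s, y.ce (f j) (y.f (d j)) ∂(D r V).μ

/-- in `D r (D r V)` the points outside row `s` and column `s'` are independent given all base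
points, with the own fibre laws -/
def GridInd (r : Ultrafilter (ι → Γ)) {V Y : Sys Γ} (y : Fac V Y) (s s' : ι) : Prop :=
  ∀ (f : ι → ι → V.C → ℂ) (h : (ι → ι → Y.C) → ℂ), (∀ i j, Bdd (f i j)) → Bdd h →
    ∫ d, h (fun i j => y.f (d i j)) * ∏ i ∈ Finset.univ.erase s, ∏ j ∈ Finset.univ.erase s',
        f i j (d i j) ∂(D r (D r V)).μ
      = ∫ d, h (fun i j => y.f (d i j)) * ∏ i ∈ Finset.univ.erase s, ∏ j ∈ Finset.univ.erase s',
        y.ce (f i j) (y.f (d i j)) ∂(D r (D r V)).μ

/-- a self-contained exact pair `V → Y` (exact in slots `p` and `q`) -/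
structure EP (r : Ultrafilter (ι → Γ)) (p q : ι) (Y : Sys Γ) where
  V : Sys Γ
  y : Fac V Y
  Rp : ({j : ι // j ≠ p} → V.C) × Y.C → V.C
  Rq : ({j : ι // j ≠ q} → V.C) × Y.C → V.C
  mRp : Measurable Rp
  mRq : Measurable Rq
  hRp : ∀ᵐ d ∂(D r V).μ, d p = Rp (y.side p d)
  hRq : ∀ᵐ d ∂(D r V).μ, d q = Rq (y.side q d)
  line : ∀ s, LineInd r y s
  grid : ∀ s s', GridInd r y s s'

/-- the conditional law of a line `(v_i)_i` of `D r V` given its base line `(y_i)_i` -/
noncomputable def Fac.lineK (r : Ultrafilter (ι → Γ)) {V Y : Sys Γ} (y : Fac V Y) :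
    Kernel (ι → Y.C) (ι → V.C) :=
  condDistrib (_root_.id : (D r V).C → (ι → V.C)) (fun (d : (D r V).C) (i : ι) => y.f (d i))
    (D r V).μ

/-- an exact factor of an admissible pair, together with the exact part of `X` and a witness that
the limit joining of the exact part of `X` is not the product -/
structure ExF {X : Sys Γ} (P : Adm X) (r : Ultrafilter (ι → Γ)) (p q : ι) where
  E : EP r p q P.Y
  e : Fac P.W E.V
  hy : ∀ w, E.y.f (e.f w) = P.y.f w
  Xe : Sys Γ
  ax : Fac X Xe
  xi : Fac E.V Xe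
  hxi : ∀ᵐ w ∂P.W.μ, xi.f (e.f w) = ax.f (P.x.f w)
  nt : ∃ φ : ι → Xe.C → ℂ, (∀ i, Bdd (φ i)) ∧ (∀ i, ∫ x, φ i x ∂Xe.μ = 0) ∧
    ∫ d, ∏ i, φ i (d i) ∂(D r Xe).μ ≠ 0

/-- two copies of an exact pair inside a second (sated) pair -/
structure PD {X : Sys Γ} {P : Adm X} {r : Ultrafilter (ι → Γ)} {p q : ι} (F : ExF P r p q) where
  Z : Sys Γ
  Y0 : Sys Γ
  y0 : Fac Z Y0
  f1 : Fac Z F.E.V
  f2 : Fac Z F.E.V
  v1 : Fac Y0 P.Y
  v2 : Fac Y0 P.Y
  h1 : ∀ z, F.E.y.f (f1.f z) = v1.f (y0.f z)
  h2 : ∀ z, F.E.y.f (f2.f z) = v2.f (y0.f z)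
  hx : ∀ᵐ z ∂Z.μ, F.xi.f (f1.f z) = F.xi.f (f2.f z)
  indY : IndepFun v1.f v2.f Y0.μ
  ki : ∀ᵐ η ∂(D r Y0).μ, KI (y0.lineK r η)
  m1 : ∀ᵐ η ∂(D r Y0).μ, (y0.lineK r η).map (fun z i => f1.f (z i))
    = F.E.y.lineK r (fun i => v1.f (η i))
  m2 : ∀ᵐ η ∂(D r Y0).μ, (y0.lineK r η).map (fun z i => f2.f (z i))
    = F.E.y.lineK r (fun i => v2.f (η i))

end slots

end Vale.Agent.N102G

end

section
/-!
P102 (Rokhlin), campaign RM. The statements of all blocks, as Props. Each block `B_x` is to be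
proved as a theorem `b_x : B_x` in its own file. The assembly is in `Assembly.lean`.
-/

namespace Vale.Agent.N102G

open Vale.Agent.P102.RM
variable {Γ : Type} [AddCommGroup Γ]

open MeasureTheory Filter Topology ProbabilityTheory

/-! ### Limit joinings: existence and calculus -/

def B_LJ (Γ : Type) [AddCommGroup Γ] : Prop := ∀ (ι : Type) [Fintype ι] (r : Ultrafilter (ι → Γ)) (A : Sys Γ), ∃ L, IsLim r A L

/-- convergence of integrals of products -/
def B_D1 (Γ : Type) [AddCommGroup Γ] : Prop := ∀ (ι : Type) [Fintype ι] (r : Ultrafilter (ι → Γ)) (A : Sys Γ)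
  (f : ι → A.C → ℂ), (∀ i, Bdd (f i)) →
  Tendsto (fun t : ι → Γ => ∫ a, ∏ i, f i (iter A.S (t i) a) ∂A.μ) r
    (𝓝 (∫ d, ∏ i, f i (d i) ∂(D r A).μ))

/-- marginals -/
def B_D2 (Γ : Type) [AddCommGroup Γ] : Prop := ∀ (ι : Type) [Fintype ι] (r : Ultrafilter (ι → Γ)) (A : Sys Γ) (i : ι),
  MeasurePreserving (fun d : (D r A).C => d i) (D r A).μ A.μ

/-- functoriality -/
def B_D3 (Γ : Type) [AddCommGroup Γ] : Prop := ∀ (ι : Type) [Fintype ι] (r : Ultrafilter (ι → Γ)) (A B : Sys Γ) (p : Fac A B),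
  MeasurePreserving (fun (d : (D r A).C) => ((fun i => p.f (d i)) : (D r B).C))
    (D r A).μ (D r B).μ

/-- independent factors stay independent -/
def B_D4 (Γ : Type) [AddCommGroup Γ] : Prop := ∀ (ι : Type) [Fintype ι] (r : Ultrafilter (ι → Γ)) (A B B' : Sys Γ)
  (p : Fac A B) (p' : Fac A B'), IndepFun p.f p'.f A.μ →
  IndepFun (fun (d : (D r A).C) (i : ι) => p.f (d i)) (fun (d : (D r A).C) (i : ι) => p'.f (d i))
    (D r A).μ

/-- weak limits -/
def B_D6 (Γ : Type) [AddCommGroup Γ] : Prop := ∀ (ι : Type) [Fintype ι] [DecidableEq ι] (r : Ultrafilter (ι → Γ)) (A : Sys Γ)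
  (s : ι) (f : ι → A.C → ℂ) (F : A.C → ℂ), (∀ i, Bdd (f i)) → Bdd F →
  Tendsto (fun t : ι → Γ => ∫ a, F a * ∏ i ∈ Finset.univ.erase s, f i (iter A.S (t i - t s) a) ∂A.μ)
    r (𝓝 (∫ a, F a * cl r A s (fun d => ∏ i ∈ Finset.univ.erase s, f i (d i)) a ∂A.μ))

/-- row `s` and column `t` of the grid are conditionally independent given the corner -/
def B_D7 (Γ : Type) [AddCommGroup Γ] : Prop := ∀ (ι : Type) [Fintype ι] [DecidableEq ι] (r : Ultrafilter (ι → Γ)) (A : Sys Γ)
  (s t : ι) (f : ι → A.C → ℂ) (F : (ι → A.C) → ℂ), (∀ i, Bdd (f i)) → Bdd F →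
  ∫ d : (D r (D r A)).C, F (d s) * ∏ o ∈ Finset.univ.erase s, f o (d o t) ∂(D r (D r A)).μ
    = ∫ d : (D r A).C, F d * cl r A s (fun d => ∏ o ∈ Finset.univ.erase s, f o (d o)) (d t)
      ∂(D r A).μ

/-! ### Satedness -/

def B_SAT (Γ : Type) [AddCommGroup Γ] : Prop := ∀ (X : Sys Γ) (P : Adm X) (ι : Type) [Fintype ι] [DecidableEq ι]
  (r : Ultrafilter (ι → Γ)), ∃ (P' : Adm X) (_ : Ext P' P), SatM P' ∧ ∀ s, SatN P' r s

/-- Upgrade Lemma -/
def B_UP (Γ : Type) [AddCommGroup Γ] : Prop := ∀ (X : Sys Γ) (P : Adm X), SatM P →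
  ∀ (Z B : Sys Γ) (β : Fac Z B) (κ : Type) [Fintype κ] [DecidableEq κ] (w : κ → Fac Z P.W)
    (η : κ → B.C → P.Y.C), (∀ c, Measurable (η c)) →
    (∀ c z, P.y.f ((w c).f z) = η c (β.f z)) →
    (∀ (φ : κ → X.C → ℂ) (h : B.C → ℂ), (∀ c, Bdd (φ c)) → Bdd h →
      ∫ z, h (β.f z) * ∏ c, φ c (P.x.f ((w c).f z)) ∂Z.μ
        = (∫ z, h (β.f z) ∂Z.μ) * ∏ c, ∫ x, φ c x ∂X.μ) →
    ∀ (f : κ → P.W.C → ℂ) (h : B.C → ℂ), (∀ c, Bdd (f c)) → Bdd h →
      ∫ z, h (β.f z) * ∏ c, f c ((w c).f z) ∂Z.μ
        = ∫ z, h (β.f z) * ∏ c, P.y.ce (f c) (η c (β.f z)) ∂Z.μ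

/-- any `|ι| - 1` points of a line are independent given the base line -/
def B_LINE (Γ : Type) [AddCommGroup Γ] : Prop := ∀ (X : Sys Γ) (P : Adm X) (ι : Type) [Fintype ι] [DecidableEq ι]
  (r : Ultrafilter (ι → Γ)), SatM P → KInd r X → ∀ s, LineInd r P.y s

/-- the same for `(|ι|-1) × (|ι|-1)` blocks of the grid -/
def B_GRID (Γ : Type) [AddCommGroup Γ] : Prop := ∀ (X : Sys Γ) (P : Adm X) (ι : Type) [Fintype ι] [DecidableEq ι]
  (r : Ultrafilter (ι → Γ)), SatM P → KInd r X → ∀ s s', GridInd r P.y s s'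

/-! ### Theorem E and the ideal property -/

/-- Theorem E (helper219) -/
def B_THE (Γ : Type) [AddCommGroup Γ] : Prop := ∀ (X : Sys Γ) (P : Adm X) (ι : Type) [Fintype ι] [DecidableEq ι]
  (r : Ultrafilter (ι → Γ)), 3 ≤ Fintype.card ι → KInd r X → SatM P → (∀ s, SatN P r s) →
  ∀ (s t b : ι), t ≠ b → ∀ (f : ι → P.W.C → ℂ) (g : ι → X.C → ℂ), (∀ i, Bdd (f i)) →
    (∀ i, Bdd (g i)) →
    cl r P.W t (fun d => (∏ a ∈ (Finset.univ.erase t).erase b, f a (d a)) *
      cl r X s (fun d => ∏ o ∈ Finset.univ.erase s, g o (d o)) (P.x.f (d b))) ∈ Exa P r s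

/-- the ideal (closure) property -/
def B_IDEAL (Γ : Type) [AddCommGroup Γ] : Prop := ∀ (X : Sys Γ) (P : Adm X) (ι : Type) [Fintype ι] [DecidableEq ι]
  (r : Ultrafilter (ι → Γ)), 3 ≤ Fintype.card ι → KInd r X → SatM P → (∀ s, SatN P r s) →
  ∀ (s t b : ι), t ≠ b → ∀ (f : ι → P.W.C → ℂ), (∀ i, Bdd (f i)) → ∀ Φ ∈ Exa P r s,
    cl r P.W t (fun d => (∏ a ∈ (Finset.univ.erase t).erase b, f a (d a)) * Φ (d b)) ∈ Exa P r s

/-- the limit joining is not the product on the functions which are exact in the slots `p`, `q` -/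
def B_XE (Γ : Type) [AddCommGroup Γ] : Prop := ∀ (X : Sys Γ) (P : Adm X) (ι : Type) [Fintype ι] [DecidableEq ι]
  (r : Ultrafilter (ι → Γ)), 3 ≤ Fintype.card ι → KInd r X → SatM P → (∀ s, SatN P r s) →
  (∃ φ : ι → X.C → ℂ, (∀ i, Bdd (φ i)) ∧
    ∫ d, ∏ i, φ i (d i) ∂(D r X).μ ≠ ∏ i, ∫ x, φ i x ∂X.μ) →
  ∀ p q : ι, p ≠ q → ∃ φ : ι → X.C → ℂ, (∀ i, Bdd (φ i)) ∧
    (∀ i, (fun w => φ i (P.x.f w)) ∈ Exa P r p ∩ Exa P r q) ∧ (∀ i, ∫ x, φ i x ∂X.μ = 0) ∧
    ∫ d, ∏ i, φ i (d i) ∂(D r X).μ ≠ 0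

/-- the exact factor -/
def B_EXF (Γ : Type) [AddCommGroup Γ] : Prop := ∀ (X : Sys Γ) (P : Adm X) (ι : Type) [Fintype ι] [DecidableEq ι]
  (r : Ultrafilter (ι → Γ)), 3 ≤ Fintype.card ι → KInd r X → SatM P → (∀ s, SatN P r s) →
  ∀ p q : ι, p ≠ q → (∃ φ : ι → X.C → ℂ, (∀ i, Bdd (φ i)) ∧
    (∀ i, (fun w => φ i (P.x.f w)) ∈ Exa P r p ∩ Exa P r q) ∧ (∀ i, ∫ x, φ i x ∂X.μ = 0) ∧
    ∫ d, ∏ i, φ i (d i) ∂(D r X).μ ≠ 0) → Nonempty (ExF P r p q)

/-! ### Characters -/

/-- an exact pair has a total family of characters over almost every base line -/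
def B_TOT (Γ : Type) [AddCommGroup Γ] : Prop := ∀ (ι : Type) [Fintype ι] [DecidableEq ι] (r : Ultrafilter (ι → Γ))
  (p q : ι), p ≠ q → 3 ≤ Fintype.card ι → ∀ (Y : Sys Γ) (E : EP r p q Y),
    ∀ᵐ η ∂(D r Y).μ, Total (E.y.lineK r η) p q

/-! ### Constancy -/

/-- two rel. independent copies of an exact pair inside a second `M`-sated pair -/
def B_PD (Γ : Type) [AddCommGroup Γ] : Prop := ∀ (X : Sys Γ) (P : Adm X) (ι : Type) [Fintype ι] [DecidableEq ι]
  (r : Ultrafilter (ι → Γ)), 3 ≤ Fintype.card ι → KInd r X → SatM P →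
  ∀ (p q : ι), p ≠ q → ∀ F : ExF P r p q, Nonempty (PD F)

end Vale.Agent.N102G

end

section
/-!
P102, block GRID, part 1: the functor `D r`.  Existence and uniqueness of the limit joinings,
marginals, functoriality, rows and columns of the grid `D r (D r A)`, and
`D r (A × B) = D r A × D r B` in the form `indep_D`.
-/

namespace Vale.Agent.N102G

open Vale.Agent.P102.RM
variable {Γ : Type} [AddCommGroup Γ]

open MeasureTheory Filter Topology ProbabilityTheory

/-! ### Existence, integral form and uniqueness of the limit joinings -/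

section lim
variable {ι : Type} [Fintype ι]

/-- the limit joining in the integral form -/
theorem exists_isLim_integral (r : Ultrafilter (ι → Γ)) (A : Sys Γ) :
    ∃ L : Measure (ι → A.C), IsProbabilityMeasure L ∧ ∀ f : ι → A.C → ℂ, (∀ i, Bdd (f i)) →
      Tendsto (fun t : ι → Γ => ∫ a, ∏ i, f i (iter A.S (t i) a) ∂A.μ) r
        (𝓝 (∫ d, ∏ i, f i (d i) ∂L)) := by
  classical
  let m : (ι → Γ) → A.C → (ι → A.C) := fun t a i => iter A.S (t i) a
  have hm : ∀ t, Measurable (m t) := fun t =>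
    measurable_pi_lambda _ fun i => measurable_iter A.S (t i)
  let P : (ι → Γ) → Measure (ι → A.C) := fun t => A.μ.map (m t)
  have hPp : ∀ t, IsProbabilityMeasure (P t) := fun t =>
    Measure.isProbabilityMeasure_map (hm t).aemeasurable
  obtain ⟨L, hL, -, hL3⟩ := LJ.exists_limJoin (fun _ : ι => A.C) r (fun _ => A.μ) P
    (hPp := hPp) (by
      intro i
      refine Eventually.of_forall fun t => ?_
      rw [Measure.map_map (measurable_pi_apply i) (hm t)]
      exact (iter_mp A.S A.mp (t i)).map_eq)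
  refine ⟨L, hL, fun f hf => ?_⟩
  have h1 := hL3 Finset.univ f (fun i => hf i)
  refine h1.congr fun t => ?_
  have h2 : ∫ ω, ∏ i, f i (ω i) ∂(P t) = ∫ a, ∏ i, f i (m t a i) ∂A.μ := by
    simp only [P]
    rw [integral_map (hm t).aemeasurable]
    exact (Bdd.prod Finset.univ (f := fun i (ω : ι → A.C) => f i (ω i))
      (fun i _ => (hf i).comp (measurable_pi_apply i))).1.aestronglyMeasurable
  exact h2

theorem isLim_of_integral {r : Ultrafilter (ι → Γ)} {A : Sys Γ} {L : Measure (ι → A.C)}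
    (hL : IsProbabilityMeasure L) (h : ∀ f : ι → A.C → ℂ, (∀ i, Bdd (f i)) →
      Tendsto (fun t : ι → Γ => ∫ a, ∏ i, f i (iter A.S (t i) a) ∂A.μ) r
        (𝓝 (∫ d, ∏ i, f i (d i) ∂L))) : IsLim r A L := by
  refine ⟨hL, fun s hs => ?_⟩
  have h1 := h (fun i => (s i).indicator 1) (fun i => Bdd.indicator (hs i))
  have h2 : ∀ t : ι → Γ, ∫ a, ∏ i, (s i).indicator (1 : A.C → ℂ) (iter A.S (t i) a) ∂A.μ
      = ((A.μ.real (⋂ i, iter A.S (t i) ⁻¹' s i) : ℝ) : ℂ) := by
    intro t
    exact integral_prod_indicator A.μ (fun i => iter A.S (t i) ⁻¹' s i)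
      (fun i => measurable_iter A.S (t i) (hs i))
  have h3 : ∫ d, ∏ i, (s i).indicator (1 : A.C → ℂ) (d i) ∂L
      = ((L.real (Set.univ.pi s) : ℝ) : ℂ) := by
    have := integral_prod_indicator L (fun i => (fun d : ι → A.C => d i) ⁻¹' s i)
      (fun i => measurable_pi_apply i (hs i))
    rw [show (Set.univ.pi s) = ⋂ i, (fun d : ι → A.C => d i) ⁻¹' s i by
      ext d; simp [Set.mem_pi]]
    exact this
  rw [h3] at h1
  simp only [h2] at h1
  have h4 : Tendsto (fun t : ι → Γ => A.μ.real (⋂ i, iter A.S (t i) ⁻¹' s i)) r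
      (𝓝 (L.real (Set.univ.pi s))) := by
    have h6 := (Complex.continuous_re.tendsto _).comp h1
    rw [Complex.ofReal_re] at h6
    refine h6.congr fun t => ?_
    exact Complex.ofReal_re _
  have h5 := ENNReal.tendsto_ofReal h4
  simpa [Measure.real, ENNReal.ofReal_toReal (measure_ne_top _ _)] using h5

theorem exists_isLim (r : Ultrafilter (ι → Γ)) (A : Sys Γ) : ∃ L, IsLim r A L := by
  obtain ⟨L, hL, h⟩ := exists_isLim_integral r A
  exact ⟨L, isLim_of_integral hL h⟩

theorem isLim_limM (r : Ultrafilter (ι → Γ)) (A : Sys Γ) : IsLim r A (limM r A) :=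
  limM_isLim (exists_isLim r A)

theorem IsLim.unique {r : Ultrafilter (ι → Γ)} {A : Sys Γ} {L L' : Measure (ι → A.C)}
    (h : IsLim r A L) (h' : IsLim r A L') : L = L' := by
  have := h.1
  have := h'.1
  exact ext_pi_box fun s hs => tendsto_nhds_unique (h.2 s hs) (h'.2 s hs)

/-- **Integral form** of the limit joining. -/
theorem tendsto_limM (r : Ultrafilter (ι → Γ)) (A : Sys Γ) (f : ι → A.C → ℂ)
    (hf : ∀ i, Bdd (f i)) :
    Tendsto (fun t : ι → Γ => ∫ a, ∏ i, f i (iter A.S (t i) a) ∂A.μ) r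
      (𝓝 (∫ d, ∏ i, f i (d i) ∂(D r A).μ)) := by
  obtain ⟨L, hL, h⟩ := exists_isLim_integral r A
  have h1 : L = limM r A := (isLim_of_integral hL h).unique (isLim_limM r A)
  rw [h1] at h
  exact h f hf

/-- integral form with a finite set of slots -/
theorem tendsto_limM_finset (r : Ultrafilter (ι → Γ)) (A : Sys Γ) (s : Finset ι) (f : ι → A.C → ℂ)
    (hf : ∀ i ∈ s, Bdd (f i)) :
    Tendsto (fun t : ι → Γ => ∫ a, ∏ i ∈ s, f i (iter A.S (t i) a) ∂A.μ) r
      (𝓝 (∫ d, ∏ i ∈ s, f i (d i) ∂(D r A).μ)) := by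
  classical
  have h1 := tendsto_limM r A (fun i => if i ∈ s then f i else fun _ => 1) (by
    intro i
    by_cases hi : i ∈ s
    · simpa [hi] using hf i hi
    · simpa [hi] using Bdd.const (1 : ℂ))
  have h2 : ∀ g : ι → A.C, ∏ i, (if i ∈ s then f i else fun _ => 1) (g i) = ∏ i ∈ s, f i (g i) := by
    intro g
    rw [← Finset.prod_filter_mul_prod_filter_not Finset.univ (fun i => i ∈ s)]
    rw [Finset.prod_congr rfl (g := fun i => f i (g i)) (by
      intro i hi
      rw [Finset.mem_filter] at hi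
      rw [if_pos hi.2])]
    rw [Finset.prod_eq_one (s := Finset.univ.filter fun i => ¬ i ∈ s) (by
      intro i hi
      rw [Finset.mem_filter] at hi
      rw [if_neg hi.2])]
    rw [mul_one]
    congr 1
    ext i; simp
  simp only [h2] at h1
  exact h1

/-! ### Marginals, functoriality, rows and columns -/

theorem limM_map_eval (r : Ultrafilter (ι → Γ)) (A : Sys Γ) (i : ι) :
    (limM r A).map (fun d => d i) = A.μ := by
  classical
  ext s hs
  rw [Measure.map_apply (measurable_pi_apply i) hs]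
  have h := (isLim_limM r A).2 (fun j => if j = i then s else Set.univ) (by
    intro j; split_ifs
    · exact hs
    · exact MeasurableSet.univ)
  have h1 : (Set.univ.pi fun j => if j = i then s else Set.univ) = (fun d : ι → A.C => d i) ⁻¹' s := by
    ext d
    simp only [Set.mem_pi, Set.mem_univ, true_implies, Set.mem_preimage]
    constructor
    · intro h; simpa using h i
    · intro h j; by_cases hj : j = i
      · subst hj; simpa using h
      · simp [hj]
  rw [h1] at h
  have h2 : ∀ t : ι → Γ, A.μ (⋂ j, iter A.S (t j) ⁻¹' (if j = i then s else Set.univ)) = A.μ s := by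
    intro t
    have h3 : (⋂ j, iter A.S (t j) ⁻¹' (if j = i then s else Set.univ)) = iter A.S (t i) ⁻¹' s := by
      ext a
      simp only [Set.mem_iInter, Set.mem_preimage]
      constructor
      · intro h; simpa using h i
      · intro h j; by_cases hj : j = i
        · subst hj; simpa using h
        · simp [hj]
    rw [h3]
    exact (iter_mp A.S A.mp (t i)).measure_preimage hs.nullMeasurableSet
  simp only [h2] at h
  exact (tendsto_nhds_unique h tendsto_const_nhds)

/-- the coordinate maps `D r A → A` -/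
noncomputable def evF (r : Ultrafilter (ι → Γ)) (A : Sys Γ) (i : ι) : Fac (D r A) A where
  f := fun d => d i
  mp := ⟨measurable_pi_apply i, limM_map_eval r A i⟩
  eqv := fun _ _ => rfl

/-- the law of `(p (d i))_i` -/
theorem limM_map (r : Ultrafilter (ι → Γ)) {A B : Sys Γ} (p : Fac A B) :
    (limM r A).map (fun d i => p.f (d i)) = limM r B := by
  have hm : Measurable (fun (d : ι → A.C) i => p.f (d i)) :=
    measurable_pi_lambda _ fun i => p.meas.comp (measurable_pi_apply i)
  have hp : IsProbabilityMeasure ((limM r A).map (fun d i => p.f (d i))) :=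
    Measure.isProbabilityMeasure_map hm.aemeasurable
  refine IsLim.unique (r := r) (A := B) ⟨hp, fun s hs => ?_⟩ (isLim_limM r B)
  rw [Measure.map_apply hm (MeasurableSet.univ_pi hs)]
  have h1 : (fun (d : ι → A.C) i => p.f (d i)) ⁻¹' Set.univ.pi s
      = Set.univ.pi fun i => p.f ⁻¹' s i := by
    ext d; simp [Set.mem_pi]
  rw [h1]
  refine ((isLim_limM r A).2 (fun i => p.f ⁻¹' s i) (fun i => p.meas (hs i))).congr fun t => ?_
  rw [← p.mp.measure_preimage (MeasurableSet.iInter fun i =>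
    measurable_iter B.S (t i) (hs i)).nullMeasurableSet]
  congr 1
  ext a
  simp only [Set.mem_iInter, Set.mem_preimage, Fac.iter]

/-- functoriality of `D r` -/
noncomputable def Fac.D {A B : Sys Γ} (p : Fac A B) (r : Ultrafilter (ι → Γ)) : Fac (N102G.D r A) (N102G.D r B) where
  f := fun d i => p.f (d i)
  mp := ⟨measurable_pi_lambda _ fun i => p.meas.comp (measurable_pi_apply i), limM_map r p⟩
  eqv := fun g d => by
    funext i
    exact p.eqv g (d i)

@[simp] theorem Fac.D_apply {A B : Sys Γ} (p : Fac A B) (r : Ultrafilter (ι → Γ)) (d : ι → A.C)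
    (i : ι) : (p.D r).f d i = p.f (d i) := rfl

@[simp] theorem evF_apply (r : Ultrafilter (ι → Γ)) (A : Sys Γ) (i : ι) (d : ι → A.C) :
    (evF r A i).f d = d i := rfl

/-- row `o` of the grid `D r (D r A)` (points `d o j`, `o` outer, `j` inner) -/
noncomputable def rowF (r : Ultrafilter (ι → Γ)) (A : Sys Γ) (o : ι) : Fac (D r (D r A)) (D r A) :=
  evF r (D r A) o

/-- column `j` of the grid `D r (D r A)` -/
noncomputable def colF (r : Ultrafilter (ι → Γ)) (A : Sys Γ) (j : ι) : Fac (D r (D r A)) (D r A) :=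
  (evF r A j).D r

@[simp] theorem rowF_apply (r : Ultrafilter (ι → Γ)) (A : Sys Γ) (o : ι) (d : ι → ι → A.C) (j : ι) :
    (rowF r A o).f d j = d o j := rfl

@[simp] theorem colF_apply (r : Ultrafilter (ι → Γ)) (A : Sys Γ) (j : ι) (d : ι → ι → A.C) (o : ι) :
    (colF r A j).f d o = d o j := rfl

/-! ### Products -/

/-- `D r (A × B) = D r A × D r B`: lines of independent factors are independent. -/
theorem indep_D (r : Ultrafilter (ι → Γ)) {Z A B : Sys Γ} (x : Fac Z A) (y : Fac Z B)
    (h : IndepFun x.f y.f Z.μ) : IndepFun (x.D r).f (y.D r).f (D r Z).μ := by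
  have hx := (x.D r).meas
  have hy := (y.D r).meas
  rw [indepFun_iff_map_prod_eq_prod_map_map hx.aemeasurable hy.aemeasurable, (x.D r).mp.map_eq,
    (y.D r).mp.map_eq]
  -- compare on products of boxes
  have hp : IsProbabilityMeasure ((D r Z).μ.map fun d => ((x.D r).f d, (y.D r).f d)) :=
    Measure.isProbabilityMeasure_map (hx.prodMk hy).aemeasurable
  have hgA : (inferInstance : MeasurableSpace (ι → A.C)) = MeasurableSpace.generateFrom
      (Set.pi Set.univ '' Set.pi Set.univ fun _ => {s : Set A.C | MeasurableSet s}) :=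
    generateFrom_pi.symm
  have hgB : (inferInstance : MeasurableSpace (ι → B.C)) = MeasurableSpace.generateFrom
      (Set.pi Set.univ '' Set.pi Set.univ fun _ => {s : Set B.C | MeasurableSet s}) :=
    generateFrom_pi.symm
  symm
  refine Measure.prod_eq_generateFrom (C := Set.pi Set.univ '' Set.pi Set.univ fun _ => {s : Set A.C | MeasurableSet s})
    (D := Set.pi Set.univ '' Set.pi Set.univ fun _ => {s : Set B.C | MeasurableSet s})
    generateFrom_pi generateFrom_pi isPiSystem_pi isPiSystem_pi ?_ ?_ ?_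
  · refine ⟨fun _ => Set.univ, ?_, fun _ => measure_lt_top _ _, Set.iUnion_const _⟩
    intro _
    exact ⟨fun _ => Set.univ, by simp, by simp⟩
  · refine ⟨fun _ => Set.univ, ?_, fun _ => measure_lt_top _ _, Set.iUnion_const _⟩
    intro _
    exact ⟨fun _ => Set.univ, by simp, by simp⟩
  · rintro _ ⟨s, hs, rfl⟩ _ ⟨u, hu, rfl⟩
    have hs' : ∀ i, MeasurableSet (s i) := fun i => hs i (Set.mem_univ i)
    have hu' : ∀ i, MeasurableSet (u i) := fun i => hu i (Set.mem_univ i)
    rw [Measure.map_apply (hx.prodMk hy) ((MeasurableSet.univ_pi hs').prod (MeasurableSet.univ_pi hu'))]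
    have h1 : (fun d : ι → Z.C => ((x.D r).f d, (y.D r).f d)) ⁻¹' (Set.univ.pi s ×ˢ Set.univ.pi u)
        = Set.univ.pi fun i => x.f ⁻¹' s i ∩ y.f ⁻¹' u i := by
      ext d
      simp only [Set.mem_preimage, Set.mem_prod, Set.mem_pi, Set.mem_univ, true_implies,
        Fac.D_apply, Set.mem_inter_iff]
      exact ⟨fun h i => ⟨h.1 i, h.2 i⟩, fun h => ⟨fun i => (h i).1, fun i => (h i).2⟩⟩
    rw [h1]
    have hz := (isLim_limM r Z).2 (fun i => x.f ⁻¹' s i ∩ y.f ⁻¹' u i)
      (fun i => (x.meas (hs' i)).inter (y.meas (hu' i)))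
    have ha := (isLim_limM r A).2 s hs'
    have hb := (isLim_limM r B).2 u hu'
    have hab := ENNReal.Tendsto.mul ha (Or.inr (measure_ne_top _ _)) hb (Or.inr (measure_ne_top _ _))
    refine tendsto_nhds_unique hz (hab.congr fun t => ?_)
    have h2 : (⋂ i, iter Z.S (t i) ⁻¹' (x.f ⁻¹' s i ∩ y.f ⁻¹' u i))
        = x.f ⁻¹' (⋂ i, iter A.S (t i) ⁻¹' s i) ∩ y.f ⁻¹' (⋂ i, iter B.S (t i) ⁻¹' u i) := by
      ext a
      simp only [Set.mem_iInter, Set.mem_preimage, Set.mem_inter_iff, Fac.iter]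
      exact ⟨fun h => ⟨fun i => (h i).1, fun i => (h i).2⟩, fun h i => ⟨h.1 i, h.2 i⟩⟩
    have hmA : MeasurableSet (⋂ i, iter A.S (t i) ⁻¹' s i) :=
      MeasurableSet.iInter fun i => measurable_iter A.S (t i) (hs' i)
    have hmB : MeasurableSet (⋂ i, iter B.S (t i) ⁻¹' u i) :=
      MeasurableSet.iInter fun i => measurable_iter B.S (t i) (hu' i)
    rw [h2, h.measure_inter_preimage_eq_mul _ _ hmA hmB,
      x.mp.measure_preimage hmA.nullMeasurableSet, y.mp.measure_preimage hmB.nullMeasurableSet]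

/-- the grids of independent factors are independent -/
theorem indep_DD (r : Ultrafilter (ι → Γ)) {Z A B : Sys Γ} (x : Fac Z A) (y : Fac Z B)
    (h : IndepFun x.f y.f Z.μ) :
    IndepFun ((x.D r).D r).f ((y.D r).D r).f (D r (D r Z)).μ :=
  indep_D r _ _ (indep_D r x y h)

end lim

end Vale.Agent.N102G

end

section
/-!
P102, block WL: API for the conditional expectations `cE`, `Fac.ce`, `cl` as functions on the
target, and the test function criterion on finite products.
-/

namespace Vale.Agent.N102G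

open Vale.Agent.P102.RM
variable {Γ : Type} [AddCommGroup Γ]

open MeasureTheory Filter Topology ProbabilityTheory

/-! ### Factor maps -/

section fac

variable {A B : Sys Γ}

theorem _root_.Vale.Agent.P102.RM.Bdd.ceG (p : Fac A B) {F : A.C → ℂ} (hF : Bdd F) : Bdd (p.ce F) :=
  hF.cE (μ := A.μ) (g := p.f)

theorem Fac.ce_eq_cE (p : Fac A B) (F : A.C → ℂ) : p.ce F = cE A.μ p.f F := rfl

theorem Fac.ce_comp_ae_eq (p : Fac A B) {F : A.C → ℂ} (hF : Bdd F) :
    (fun a => p.ce F (p.f a)) =ᵐ[A.μ] A.μ[F|MeasurableSpace.comap p.f inferInstance] :=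
  cE_comp_ae_eq p.meas (hF.integrable _)

theorem Fac.integral_mul_ce (p : Fac A B) {F : A.C → ℂ} (hF : Bdd F) {H : B.C → ℂ}
    (hH : Bdd H) : ∫ a, H (p.f a) * F a ∂A.μ = ∫ b, H b * p.ce F b ∂B.μ := by
  have h1 := integral_comp_mul_cE_map (μ := A.μ) p.meas hF hH
  rw [p.mp.map_eq] at h1
  exact h1

theorem Fac.integral_comp (p : Fac A B) {H : B.C → ℂ} (hH : Bdd H) :
    ∫ a, H (p.f a) ∂A.μ = ∫ b, H b ∂B.μ := by
  rw [← p.mp.map_eq, integral_map p.meas.aemeasurable]
  exact hH.1.aestronglyMeasurable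

theorem Fac.integral_mul_ce' (p : Fac A B) {F : A.C → ℂ} (hF : Bdd F) {H : B.C → ℂ}
    (hH : Bdd H) : ∫ a, H (p.f a) * F a ∂A.μ = ∫ a, H (p.f a) * p.ce F (p.f a) ∂A.μ := by
  rw [p.integral_mul_ce hF hH]
  exact (p.integral_comp (hH.mul (hF.ceG p))).symm

theorem Fac.ce_ae_eq_of_test (p : Fac A B) {F : A.C → ℂ} (hF : Bdd F) {h : B.C → ℂ}
    (hh : Bdd h) (H : ∀ u : B.C → ℂ, Bdd u → ∫ a, u (p.f a) * F a ∂A.μ = ∫ b, u b * h b ∂B.μ) :
    p.ce F =ᵐ[B.μ] h := by
  refine ae_eq_of_forall_test ((hF.ceG p).integrable _) (hh.integrable _) fun u hu => ?_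
  rw [← p.integral_mul_ce hF hu, H u hu]

end fac

end Vale.Agent.N102G

end

section
/-!
# The relative square `W ×_X W` of an admissible pair
-/

namespace Vale.Agent.N102G

open Vale.Agent.P102.RM
variable {Γ : Type} [AddCommGroup Γ]

open MeasureTheory Filter Topology ProbabilityTheory

/-- product system -/
@[reducible] noncomputable def Sys.prod (A B : Sys Γ) : Sys Γ where
  C := A.C × B.C
  μ := A.μ.prod B.μ
  S := A.S.prod B.S
  mp := fun g => (A.mp g).prod (B.mp g)

/-- the two projections of a product system -/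
noncomputable def Sys.prodFst (A B : Sys Γ) : Fac (A.prod B) A where
  f := Prod.fst
  mp := measurePreserving_fst
  eqv := fun _ _ => rfl

noncomputable def Sys.prodSnd (A B : Sys Γ) : Fac (A.prod B) B where
  f := Prod.snd
  mp := measurePreserving_snd
  eqv := fun _ _ => rfl

/-- the set of pairs over the same base point -/
def Fac.eqSet {A B : Sys Γ} (x : Fac A B) : Set (A.C × A.C) := {p | x.f p.1 = x.f p.2}

theorem Fac.measurableSet_eqSet {A B : Sys Γ} (x : Fac A B) : MeasurableSet x.eqSet :=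
  measurableSet_eq_fun (x.meas.comp measurable_fst) (x.meas.comp measurable_snd)

/-- the relatively independent square of the measure, on all pairs -/
noncomputable def Fac.rp {A B : Sys Γ} (x : Fac A B) : Measure (A.C × A.C) :=
  relProd A.μ x.f A.μ x.f

instance {A B : Sys Γ} (x : Fac A B) : IsProbabilityMeasure x.rp :=
  isProbabilityMeasure_relProd x.meas

theorem Fac.rp_inv {A B : Sys Γ} (x : Fac A B) (g : Γ) :
    MeasurePreserving (Prod.map (N102G.iter A.S g) (N102G.iter A.S g)) x.rp x.rp :=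
  relProd_invariant (A.mp g) (A.mp g) x.meas x.meas (B.S.e g)
    (Eventually.of_forall (x.eqv g)) (Eventually.of_forall (x.eqv g)) rfl

theorem Fac.rp_ae {A B : Sys Γ} (x : Fac A B) : ∀ᵐ p ∂x.rp, p ∈ x.eqSet :=
  relProd_ae_eq x.meas x.meas rfl

/-- the action on the set of pairs -/
def Fac.sqS {A B : Sys Γ} (x : Fac A B) : Act Γ x.eqSet where
  t g p := ⟨(N102G.iter A.S g p.1.1, N102G.iter A.S g p.1.2), by
    have := p.2
    simp only [Fac.eqSet, Set.mem_ofPred_eq] at this ⊢
    rw [x.eqv, x.eqv, this]⟩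
  meas g := by
    apply Measurable.subtype_mk
    exact ((measurable_iter A.S g).comp (measurable_fst.comp measurable_subtype_coe)).prodMk
      ((measurable_iter A.S g).comp (measurable_snd.comp measurable_subtype_coe))
  zero p := Subtype.ext (Prod.ext (iter_zero A.S _) (iter_zero A.S _))
  add g h p := Subtype.ext (Prod.ext (iter_add A.S g h _) (iter_add A.S g h _))

/-- the relatively independent square as a measure on the set of pairs -/
noncomputable def Fac.sqM {A B : Sys Γ} (x : Fac A B) : Measure x.eqSet :=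
  Measure.comap Subtype.val x.rp

theorem Fac.sqM_map {A B : Sys Γ} (x : Fac A B) : x.sqM.map Subtype.val = x.rp := by
  rw [Fac.sqM, map_comap_subtype_coe x.measurableSet_eqSet]
  exact Measure.restrict_eq_self_of_ae_mem x.rp_ae

instance {A B : Sys Γ} (x : Fac A B) : IsProbabilityMeasure x.sqM := by
  refine ⟨?_⟩
  have h := congrArg (fun m : Measure (A.C × A.C) => m Set.univ) x.sqM_map
  simp only [measure_univ] at h
  rwa [Measure.map_apply measurable_subtype_coe MeasurableSet.univ, Set.preimage_univ] at h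

theorem Fac.sqM_inv {A B : Sys Γ} (x : Fac A B) (g : Γ) :
    MeasurePreserving (N102G.iter x.sqS g) x.sqM x.sqM := by
  have hm := measurable_iter x.sqS g
  refine ⟨hm, ?_⟩
  have hemb : MeasurableEmbedding (Subtype.val : x.eqSet → A.C × A.C) :=
    MeasurableEmbedding.subtype_coe x.measurableSet_eqSet
  have h1 : (x.sqM.map (N102G.iter x.sqS g)).map Subtype.val = x.sqM.map Subtype.val := by
    rw [Measure.map_map measurable_subtype_coe hm]
    have h2 : (Subtype.val ∘ N102G.iter x.sqS g : x.eqSet → A.C × A.C) =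
      Prod.map (N102G.iter A.S g) (N102G.iter A.S g) ∘ Subtype.val := rfl
    rw [h2, ← Measure.map_map (x.rp_inv g).measurable measurable_subtype_coe, x.sqM_map]
    exact (x.rp_inv g).map_eq
  have h3 := congrArg (fun m : Measure (A.C × A.C) => m.comap (Subtype.val : x.eqSet → _)) h1
  simpa [hemb.comap_map] using h3

/-- the relatively independent square system -/
@[reducible] noncomputable def Fac.sq {A B : Sys Γ} (x : Fac A B) : Sys Γ where
  C := x.eqSet
  sC := x.measurableSet_eqSet.standardBorel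
  μ := x.sqM
  S := x.sqS
  mp := x.sqM_inv

/-- first projection -/
noncomputable def Fac.sq1 {A B : Sys Γ} (x : Fac A B) : Fac x.sq A where
  f := fun p => p.1.1
  mp := by
    refine ⟨measurable_fst.comp measurable_subtype_coe, ?_⟩
    have : (fun p : x.eqSet => p.1.1) = Prod.fst ∘ Subtype.val := rfl
    rw [this, ← Measure.map_map measurable_fst measurable_subtype_coe]
    exact (congrArg (Measure.map Prod.fst) x.sqM_map).trans (relProd_fst x.meas)
  eqv := fun _ _ => rfl

/-- second projection -/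
noncomputable def Fac.sq2 {A B : Sys Γ} (x : Fac A B) : Fac x.sq A where
  f := fun p => p.1.2
  mp := by
    refine ⟨measurable_snd.comp measurable_subtype_coe, ?_⟩
    have : (fun p : x.eqSet => p.1.2) = Prod.snd ∘ Subtype.val := rfl
    rw [this, ← Measure.map_map measurable_snd measurable_subtype_coe]
    exact (congrArg (Measure.map Prod.snd) x.sqM_map).trans (relProd_snd x.meas rfl)
  eqv := fun _ _ => rfl

theorem Fac.sq_fiber {A B : Sys Γ} (x : Fac A B) (p : x.sq.C) :
    x.f (x.sq1.f p) = x.f (x.sq2.f p) := p.2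

/-- the joint law of `x`, `y`, `y*` in the relative square of an admissible pair -/
theorem Adm.sq_law {X : Sys Γ} (P : Adm X) :
    P.x.sqM.map (fun p : P.x.eqSet => (P.x.f p.1.1, (P.y.f p.1.1, P.y.f p.1.2))) =
      X.μ.prod (P.Y.μ.prod P.Y.μ) := by
  have hx := P.x.meas
  have hy := P.y.meas
  have hi : P.W.μ.map (fun w => (P.x.f w, P.y.f w)) = (P.W.μ.map P.x.f).prod (P.W.μ.map P.y.f) :=
    (indepFun_iff_map_prod_eq_prod_map_map hx.aemeasurable hy.aemeasurable).1 P.ind
  have h1 := relProd_map_indep (ρ := P.W.μ) (σ := P.W.μ) hx hx rfl hy hy hi hi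
  rw [P.x.mp.map_eq, P.y.mp.map_eq] at h1
  rw [← h1]
  have h2 : (fun p : P.x.eqSet => (P.x.f p.1.1, (P.y.f p.1.1, P.y.f p.1.2))) =
    (fun p : P.W.C × P.W.C => (P.x.f p.1, (P.y.f p.1, P.y.f p.2))) ∘ Subtype.val := rfl
  rw [h2, ← Measure.map_map (by fun_prop) measurable_subtype_coe, P.x.sqM_map]
  rfl

/-- the relative square of an admissible pair -/
@[reducible] noncomputable def Adm.sq {X : Sys Γ} (P : Adm X) : Adm X where
  W := P.x.sq
  Y := P.Y.prod P.Y
  x := P.x.comp P.x.sq1
  y :=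
    { f := fun p => (P.y.f p.1.1, P.y.f p.1.2)
      mp := by
        have hx := P.x.meas
        have hy := P.y.meas
        have hm : Measurable (fun p : P.x.eqSet => (P.y.f p.1.1, P.y.f p.1.2)) := by
          exact (hy.comp (measurable_fst.comp measurable_subtype_coe)).prodMk
            (hy.comp (measurable_snd.comp measurable_subtype_coe))
        refine ⟨hm, ?_⟩
        have h := congrArg (fun m : Measure (X.C × P.Y.C × P.Y.C) => m.map Prod.snd) P.sq_law
        beta_reduce at h
        rw [Measure.map_map measurable_snd (by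
          exact (hx.comp (measurable_fst.comp measurable_subtype_coe)).prodMk hm),
          Measure.map_snd_prod, measure_univ, one_smul] at h
        exact h
      eqv := fun g p => by
        show (P.y.f (iter P.W.S g p.1.1), P.y.f (iter P.W.S g p.1.2)) =
          (iter P.Y.S g _, iter P.Y.S g _)
        rw [P.y.eqv, P.y.eqv] }
  ind := by
    have hx := P.x.meas
    have hy := P.y.meas
    have hm : Measurable (fun p : P.x.eqSet => (P.y.f p.1.1, P.y.f p.1.2)) := by
      exact (hy.comp (measurable_fst.comp measurable_subtype_coe)).prodMk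
        (hy.comp (measurable_snd.comp measurable_subtype_coe))
    have hm1 : Measurable (fun p : P.x.eqSet => P.x.f p.1.1) :=
      hx.comp (measurable_fst.comp measurable_subtype_coe)
    show IndepFun (fun p : P.x.eqSet => P.x.f p.1.1)
      (fun p : P.x.eqSet => (P.y.f p.1.1, P.y.f p.1.2)) P.x.sqM
    rw [indepFun_iff_map_prod_eq_prod_map_map hm1.aemeasurable hm.aemeasurable]
    have h := P.sq_law
    have ha := congrArg (fun m : Measure (X.C × P.Y.C × P.Y.C) => m.map Prod.fst) h
    have hb := congrArg (fun m : Measure (X.C × P.Y.C × P.Y.C) => m.map Prod.snd) h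
    beta_reduce at ha hb
    rw [Measure.map_map measurable_fst (hm1.prodMk hm), Measure.map_fst_prod, measure_univ,
      one_smul] at ha
    rw [Measure.map_map measurable_snd (hm1.prodMk hm), Measure.map_snd_prod, measure_univ,
      one_smul] at hb
    have ha' : P.x.sqM.map (fun p : P.x.eqSet => P.x.f p.1.1) = X.μ := ha
    have hb' : P.x.sqM.map (fun p : P.x.eqSet => (P.y.f p.1.1, P.y.f p.1.2)) =
      P.Y.μ.prod P.Y.μ := hb
    rw [ha', hb']
    exact h

/-- the first projection as an extension -/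
noncomputable def Adm.sqE1 {X : Sys Γ} (P : Adm X) : Ext P.sq P where
  w := P.x.sq1
  v := P.Y.prodFst P.Y
  hx := ae_of_all _ fun _ => rfl
  hy := fun _ => rfl

/-- the second projection as an extension -/
noncomputable def Adm.sqE2 {X : Sys Γ} (P : Adm X) : Ext P.sq P where
  w := P.x.sq2
  v := P.Y.prodSnd P.Y
  hx := ae_of_all _ fun p => (P.x.sq_fiber p).symm
  hy := fun _ => rfl

theorem Adm.sq_indY {X : Sys Γ} (P : Adm X) {P0 : Adm X} (e : Ext P0 P.sq) :
    IndepFun (P.sqE1.comp e).v.f (P.sqE2.comp e).v.f P0.Y.μ := by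
  have hv := e.v.meas
  have h1 : Measurable (P.sqE1.comp e).v.f := (P.sqE1.comp e).v.meas
  have h2 : Measurable (P.sqE2.comp e).v.f := (P.sqE2.comp e).v.meas
  rw [indepFun_iff_map_prod_eq_prod_map_map h1.aemeasurable h2.aemeasurable,
    (P.sqE1.comp e).v.mp.map_eq, (P.sqE2.comp e).v.mp.map_eq]
  have h3 : (fun a => ((P.sqE1.comp e).v.f a, (P.sqE2.comp e).v.f a)) = e.v.f := rfl
  rw [h3]
  exact e.v.mp.map_eq

/-- the two points of `P.W` over `X` coincide -/
theorem Adm.sq_x {X : Sys Γ} (P : Adm X) {P0 : Adm X} (e : Ext P0 P.sq) (a : P0.W.C) :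
    P.x.f ((P.sqE1.comp e).w.f a) = P.x.f ((P.sqE2.comp e).w.f a) :=
  P.x.sq_fiber (e.w.f a)

end Vale.Agent.N102G

end

section
/-!
P102, block WL (weak limit calculus) on the level of systems and factor maps: `b_D6`, `b_D7` and
their general forms (an arbitrary bounded function of the whole column; two independent factors).
-/

namespace Vale.Agent.N102G

open Vale.Agent.P102.RM
variable {Γ : Type} [AddCommGroup Γ]

open MeasureTheory Filter Topology ProbabilityTheory

section

variable {ι : Type} [Fintype ι]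

/-- conditional expectation given slot `s`: defining property -/
theorem integral_mul_cl (r : Ultrafilter (ι → Γ)) (A : Sys Γ) (s : ι) {G : (ι → A.C) → ℂ}
    (hG : Bdd G) {F : A.C → ℂ} (hF : Bdd F) :
    ∫ d, F (d s) * G d ∂(D r A).μ = ∫ a, F a * cl r A s G a ∂A.μ :=
  (evF r A s).integral_mul_ce (F := G) hG hF

theorem _root_.Vale.Agent.P102.RM.Bdd.clG (r : Ultrafilter (ι → Γ)) (A : Sys Γ) (s : ι) {G : (ι → A.C) → ℂ} (hG : Bdd G) :
    Bdd (cl r A s G) :=
  Bdd.ceG (evF r A s) (F := G) hG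

/-- uniqueness of `cl` -/
theorem cl_ae_eq_of_test (r : Ultrafilter (ι → Γ)) (A : Sys Γ) (s : ι) {G : (ι → A.C) → ℂ}
    (hG : Bdd G) {h : A.C → ℂ} (hh : Bdd h)
    (H : ∀ u : A.C → ℂ, Bdd u → ∫ d, u (d s) * G d ∂(D r A).μ = ∫ a, u a * h a ∂A.μ) :
    N102G.cl r A s G =ᵐ[A.μ] h :=
  (evF r A s).ce_ae_eq_of_test (F := G) hG hh H

theorem iter_symm_comp (A : Sys Γ) (m n : Γ) (a : A.C) :
    iter A.S m a = iter A.S (m - n) (iter A.S n a) := by
  rw [← iter_add, sub_add_cancel]

/-- change of variables by a power -/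
theorem integral_iter (A : Sys Γ) (n : Γ) (F : A.C → ℂ) :
    ∫ a, F (iter A.S n a) ∂A.μ = ∫ a, F a ∂A.μ := by
  have hmp := iter_mp A.S A.mp n
  exact hmp.integral_comp' (f := A.S.e n) F

variable [DecidableEq ι]

/-- the finite level: shifting by `-t s` -/
theorem integral_shift (A : Sys Γ) (s : ι) (t : ι → Γ) (f : ι → A.C → ℂ) (F : A.C → ℂ) :
    ∫ a, F (iter A.S (t s) a) * ∏ i ∈ Finset.univ.erase s, f i (iter A.S (t i) a) ∂A.μ
      = ∫ a, F a * ∏ i ∈ Finset.univ.erase s, f i (iter A.S (t i - t s) a) ∂A.μ := by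
  rw [← integral_iter A (t s) (fun a => F a * ∏ i ∈ Finset.univ.erase s,
    f i (iter A.S (t i - t s) a))]
  refine integral_congr_ae (Eventually.of_forall fun a => ?_)
  simp only
  congr 1
  refine Finset.prod_congr rfl fun i _ => ?_
  rw [← iter_symm_comp]

/-- the limit of the correlations with slot `s` singled out -/
theorem tendsto_limM_slot (r : Ultrafilter (ι → Γ)) (A : Sys Γ) (s : ι) (f : ι → A.C → ℂ)
    (F : A.C → ℂ) (hf : ∀ i, Bdd (f i)) (hF : Bdd F) :
    Tendsto (fun t : ι → Γ => ∫ a, F (iter A.S (t s) a) *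
        ∏ i ∈ Finset.univ.erase s, f i (iter A.S (t i) a) ∂A.μ) r
      (𝓝 (∫ d, F (d s) * ∏ i ∈ Finset.univ.erase s, f i (d i) ∂(D r A).μ)) := by
  have h1 := tendsto_limM r A (Function.update f s F) (by
    intro i
    by_cases hi : i = s
    · subst hi; rw [Function.update_self]; exact hF
    · rw [Function.update_of_ne hi]; exact hf i)
  have h2 : ∀ g : ι → A.C, ∏ i, (Function.update f s F) i (g i)
      = F (g s) * ∏ i ∈ Finset.univ.erase s, f i (g i) := by
    intro g
    rw [← Finset.mul_prod_erase _ _ (Finset.mem_univ s), Function.update_self]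
    congr 1
    refine Finset.prod_congr rfl fun i hi => ?_
    rw [Function.update_of_ne (Finset.ne_of_mem_erase hi)]
  simp only [h2] at h1
  exact h1

omit [Fintype ι] [DecidableEq ι] in
theorem bdd_prod_coord {A : Sys Γ} (s : Finset ι) {f : ι → A.C → ℂ} (hf : ∀ i, Bdd (f i)) :
    Bdd (fun d : ι → A.C => ∏ i ∈ s, f i (d i)) :=
  Bdd.prod s fun i _ => (hf i).comp (measurable_pi_apply i)

/-- weak limits -/
theorem tendsto_weak (r : Ultrafilter (ι → Γ)) (A : Sys Γ) (s : ι) (f : ι → A.C → ℂ)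
    (F : A.C → ℂ) (hf : ∀ i, Bdd (f i)) (hF : Bdd F) :
    Tendsto (fun t : ι → Γ => ∫ a, F a *
        ∏ i ∈ Finset.univ.erase s, f i (iter A.S (t i - t s) a) ∂A.μ) r
      (𝓝 (∫ a, F a * cl r A s (fun d => ∏ i ∈ Finset.univ.erase s, f i (d i)) a ∂A.μ)) := by
  have h1 := tendsto_limM_slot r A s f F hf hF
  rw [integral_mul_cl r A s (bdd_prod_coord _ hf) hF] at h1
  exact h1.congr fun t => integral_shift A s t f F

theorem b_D6 : B_D6 Γ := by
  intro ι _ _ r A s f F hf hF
  exact tendsto_weak r A s f F hf hF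

/-- in `D r Z`, a function of slot `s` tested against a product of functions of the `p`-parts of
the other slots -/
theorem integral_row_prod (r : Ultrafilter (ι → Γ)) {Z A : Sys Γ} (p : Fac Z A) (s : ι)
    (f : ι → A.C → ℂ) (F : Z.C → ℂ) (hf : ∀ i, Bdd (f i)) (hF : Bdd F) :
    ∫ z, F (z s) * ∏ o ∈ Finset.univ.erase s, f o (p.f (z o)) ∂(D r Z).μ
      = ∫ a, p.ce F (a s) * ∏ o ∈ Finset.univ.erase s, f o (a o) ∂(D r A).μ := by
  have h1 := tendsto_limM_slot r Z s (fun o z => f o (p.f z)) F (fun o => (hf o).comp p.meas) hF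
  have h2 := tendsto_limM_slot r A s f (p.ce F) hf (hF.ceG p)
  refine tendsto_nhds_unique h1 (h2.congr fun t => ?_)
  rw [integral_shift A s t f (p.ce F), integral_shift Z s t (fun o z => f o (p.f z)) F]
  have hb : Bdd (fun a => ∏ i ∈ Finset.univ.erase s, f i (iter A.S (t i - t s) a)) :=
    Bdd.prod _ fun i _ => (hf i).comp (measurable_iter A.S _)
  have h3 := p.integral_mul_ce hF hb
  calc ∫ a, p.ce F a * ∏ i ∈ Finset.univ.erase s, f i (iter A.S (t i - t s) a) ∂A.μ
      = ∫ a, (∏ i ∈ Finset.univ.erase s, f i (iter A.S (t i - t s) a)) * p.ce F a ∂A.μ := by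
        simp only [mul_comm]
    _ = ∫ z, (∏ i ∈ Finset.univ.erase s, f i (iter A.S (t i - t s) (p.f z))) * F z ∂Z.μ := h3.symm
    _ = ∫ z, F z * ∏ i ∈ Finset.univ.erase s, f i (p.f (iter Z.S (t i - t s) z)) ∂Z.μ := by
        refine integral_congr_ae (Eventually.of_forall fun z => ?_)
        simp only [Fac.iter]
        rw [mul_comm]

/-- **WL3, column form**: the conditional expectation of a function of slot `s` given the
`p`-column is `p.ce F` of the corner. -/
theorem cE_col (r : Ultrafilter (ι → Γ)) {Z A : Sys Γ} (p : Fac Z A) (s : ι)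
    (F : Z.C → ℂ) (hF : Bdd F) :
    (p.D r).ce (fun z : ι → Z.C => F (z s)) =ᵐ[(D r A).μ] fun a : ι → A.C => p.ce F (a s) := by
  have hFs : Bdd (fun z : (D r Z).C => F (z s)) := hF.comp (measurable_pi_apply s)
  have hb : Bdd (fun a : (D r A).C => p.ce F (a s)) := (hF.ceG p).comp (measurable_pi_apply s)
  refine ae_eq_of_forall_prod ((hFs.ceG (p.D r)).integrable _) (hb.integrable _) fun f hf => ?_
  have h1 := (p.D r).integral_mul_ce hFs (H := fun a : ι → A.C => ∏ i, f i (a i))
    (bdd_prod_coord _ hf)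
  have hfs : Bdd (fun z : Z.C => f s (p.f z) * F z) := ((hf s).comp p.meas).mul hF
  have h2 := integral_row_prod r p s f (fun z => f s (p.f z) * F z) hf hfs
  have h3 : p.ce (fun z => f s (p.f z) * F z) =ᵐ[A.μ] fun a => f s a * p.ce F a := by
    refine p.ce_ae_eq_of_test hfs ((hf s).mul (hF.ceG p)) fun u hu => ?_
    have h4 := p.integral_mul_ce hF (hu.mul (hf s))
    calc ∫ a, u (p.f a) * (f s (p.f a) * F a) ∂Z.μ
        = ∫ a, u (p.f a) * f s (p.f a) * F a ∂Z.μ := by simp only [mul_assoc]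
      _ = ∫ b, u b * f s b * p.ce F b ∂A.μ := h4
      _ = _ := by simp only [mul_assoc]
  have h5 : ∀ᵐ a ∂(D r A).μ, p.ce (fun z => f s (p.f z) * F z) (a s)
      = f s (a s) * p.ce F (a s) := (evF r A s).mp.quasiMeasurePreserving.ae h3
  calc ∫ a, (∏ i, f i (a i)) * (p.D r).ce (fun z : ι → Z.C => F (z s)) a ∂(D r A).μ
      = ∫ z, (∏ i, f i (p.f (z i))) * F (z s) ∂(D r Z).μ := h1.symm
    _ = ∫ z, (f s (p.f (z s)) * F (z s)) * ∏ o ∈ Finset.univ.erase s, f o (p.f (z o))
          ∂(D r Z).μ := by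
        refine integral_congr_ae (Eventually.of_forall fun z => ?_)
        simp only
        rw [← Finset.mul_prod_erase _ _ (Finset.mem_univ s)]
        ring
    _ = _ := h2
    _ = ∫ a, (∏ i, f i (a i)) * p.ce F (a s) ∂(D r A).μ := integral_congr_ae (by
        filter_upwards [h5] with a ha
        rw [ha, ← Finset.mul_prod_erase _ _ (Finset.mem_univ s)]
        ring)

/-- **WL3 (general column functions)**. -/
theorem integral_row_col' (r : Ultrafilter (ι → Γ)) {Z A : Sys Γ} (p : Fac Z A) (s : ι)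
    (F : Z.C → ℂ) (hF : Bdd F) (G : (ι → A.C) → ℂ) (hG : Bdd G) :
    ∫ z : ι → Z.C, F (z s) * G (fun o => p.f (z o)) ∂(D r Z).μ
      = ∫ a, p.ce F (a s) * G a ∂(D r A).μ := by
  have hFs : Bdd (fun z : (D r Z).C => F (z s)) := hF.comp (measurable_pi_apply s)
  have h1 := (p.D r).integral_mul_ce hFs (H := G) hG
  calc ∫ z : ι → Z.C, F (z s) * G (fun o => p.f (z o)) ∂(D r Z).μ
      = ∫ z : ι → Z.C, G (fun o => p.f (z o)) * F (z s) ∂(D r Z).μ := by simp only [mul_comm]
    _ = _ := h1
    _ = ∫ a, p.ce F (a s) * G a ∂(D r A).μ := integral_congr_ae (by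
        filter_upwards [cE_col r p s F hF] with a ha
        rw [ha, mul_comm])

/-- **Row and column are conditionally independent given the corner**: `F` a function of slot `s`,
`G` a function of the `p`-parts of all slots. -/
theorem integral_row_col (r : Ultrafilter (ι → Γ)) {Z A : Sys Γ} (p : Fac Z A) (s : ι)
    (F : Z.C → ℂ) (hF : Bdd F) (G : (ι → A.C) → ℂ) (hG : Bdd G) :
    ∫ z : ι → Z.C, F (z s) * G (fun o => p.f (z o)) ∂(D r Z).μ
      = ∫ z, F z * cl r A s G (p.f z) ∂Z.μ := by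
  rw [integral_row_col' r p s F hF G hG]
  have h1 := integral_mul_cl r A s hG (hF.ceG p)
  have h2 := p.integral_mul_ce hF (hG.clG r A s)
  calc ∫ a, p.ce F (a s) * G a ∂(D r A).μ = ∫ a, p.ce F a * cl r A s G a ∂A.μ := h1
    _ = ∫ a, cl r A s G a * p.ce F a ∂A.μ := by simp only [mul_comm]
    _ = ∫ z, cl r A s G (p.f z) * F z ∂Z.μ := h2.symm
    _ = _ := by simp only [mul_comm]

theorem b_D7 : B_D7 Γ := by
  intro ι _ _ r A s t f F hf hF
  exact integral_row_col r (evF r A t) s F hF (fun a => ∏ o ∈ Finset.univ.erase s, f o (a o))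
    (bdd_prod_coord _ hf)

end

end Vale.Agent.N102G

end

section
/-!
P102, block WL: two independent factors (base case of Theorem E).
-/

namespace Vale.Agent.N102G

open Vale.Agent.P102.RM
variable {Γ : Type} [AddCommGroup Γ]

open MeasureTheory Filter Topology ProbabilityTheory

/-- the factor map into the product of two independent factors -/
noncomputable def Fac.pair {Z A B : Sys Γ} (w : Fac Z A) (x : Fac Z B)
    (hI : IndepFun w.f x.f Z.μ) : Fac Z (A.prod B) where
  f := fun z => (w.f z, x.f z)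
  mp := ⟨w.meas.prodMk x.meas, by
    have h := (indepFun_iff_map_prod_eq_prod_map_map w.meas.aemeasurable x.meas.aemeasurable).1 hI
    rw [w.mp.map_eq, x.mp.map_eq] at h
    exact h⟩
  eqv := fun g z => Prod.ext (w.eqv g z) (x.eqv g z)

section

variable {ι : Type} [Fintype ι]

theorem indep_prod_fst_snd (A B : Sys Γ) :
    IndepFun (Sys.prodFst A B).f (Sys.prodSnd A B).f (A.prod B).μ := by
  show IndepFun Prod.fst Prod.snd (A.μ.prod B.μ)
  rw [indepFun_iff_map_prod_eq_prod_map_map measurable_fst.aemeasurable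
    measurable_snd.aemeasurable]
  simp

/-- `cl` of a product of functions of two independent factors -/
theorem cl_prod (r : Ultrafilter (ι → Γ)) (A B : Sys Γ) (s : ι) {G : (ι → A.C) → ℂ}
    {H : (ι → B.C) → ℂ} (hG : Bdd G) (hH : Bdd H) :
    cl r (A.prod B) s (fun d => G (fun o => (d o).1) * H (fun o => (d o).2))
      =ᵐ[(A.prod B).μ] fun v => cl r A s G v.1 * cl r B s H v.2 := by
  have m1 : Measurable (fun (d : ι → A.C × B.C) (o : ι) => (d o).1) :=
    measurable_pi_lambda _ fun o => measurable_fst.comp (measurable_pi_apply o)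
  have m2 : Measurable (fun (d : ι → A.C × B.C) (o : ι) => (d o).2) :=
    measurable_pi_lambda _ fun o => measurable_snd.comp (measurable_pi_apply o)
  have hGH : Bdd (fun d : ι → A.C × B.C => G (fun o => (d o).1) * H (fun o => (d o).2)) :=
    (hG.comp m1).mul (hH.comp m2)
  have hcl : Bdd (fun v : A.C × B.C => cl r A s G v.1 * cl r B s H v.2) :=
    ((hG.clG r A s).comp measurable_fst).mul ((hH.clG r B s).comp measurable_snd)
  refine ae_eq_of_forall_prod2 ((hGH.clG r (A.prod B) s).integrable _) (hcl.integrable _) ?_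
  intro f g hf hg
  have hfg : Bdd (fun v : (A.prod B).C => f v.1 * g v.2) :=
    (hf.comp measurable_fst).mul (hg.comp measurable_snd)
  have h1 := integral_mul_cl r (A.prod B) s hGH hfg
  have hI := indep_D r _ _ (indep_prod_fst_snd A B)
  have hb1 : Bdd (fun a : ι → A.C => f (a s) * G a) := (hf.comp (measurable_pi_apply s)).mul hG
  have hb2 : Bdd (fun b : ι → B.C => g (b s) * H b) := (hg.comp (measurable_pi_apply s)).mul hH
  have h2 := integral_mul_of_indep (((Sys.prodFst A B).D r).meas) (((Sys.prodSnd A B).D r).meas)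
    hI hb1 hb2
  have h3 := ((Sys.prodFst A B).D r).integral_comp hb1
  have h4 := ((Sys.prodSnd A B).D r).integral_comp hb2
  rw [h3, h4, integral_mul_cl r A s hG hf, integral_mul_cl r B s hH hg] at h2
  have hc1 : Bdd (fun a : A.C => f a * cl r A s G a) := hf.mul (hG.clG r A s)
  have hc2 : Bdd (fun a : B.C => g a * cl r B s H a) := hg.mul (hH.clG r B s)
  have h5 := integral_mul_of_indep (Sys.prodFst A B).meas (Sys.prodSnd A B).meas
    (indep_prod_fst_snd A B) hc1 hc2
  rw [(Sys.prodFst A B).integral_comp hc1, (Sys.prodSnd A B).integral_comp hc2] at h5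
  rw [← h1]
  refine Eq.trans ?_ (h2.trans (h5.symm.trans ?_))
  · refine integral_congr_ae (Eventually.of_forall fun d => ?_)
    simp only [Fac.D_apply, Sys.prodFst, Sys.prodSnd]
    have e1 : ((Sys.prodFst A B).D r).f d = fun o => (d o).1 := rfl
    have e2 : ((Sys.prodSnd A B).D r).f d = fun o => (d o).2 := rfl
    ring_nf
    rfl
  · refine integral_congr_ae (Eventually.of_forall fun v => ?_)
    simp only [Sys.prodFst, Sys.prodSnd]
    ring

/-- **WL6** (base case of Theorem E): two independent factors. -/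
theorem integral_row_two (r : Ultrafilter (ι → Γ)) [DecidableEq ι] {Z A B : Sys Γ} (w : Fac Z A)
    (x : Fac Z B) (hI : IndepFun w.f x.f Z.μ) (s : ι) (F : Z.C → ℂ) (hF : Bdd F)
    (G : (ι → A.C) → ℂ) (hG : Bdd G) (H : (ι → B.C) → ℂ) (hH : Bdd H) :
    ∫ z : ι → Z.C, F (z s) * (G (fun o => w.f (z o)) * H (fun o => x.f (z o))) ∂(D r Z).μ
      = ∫ z, F z * (cl r A s G (w.f z) * cl r B s H (x.f z)) ∂Z.μ := by
  have m1 : Measurable (fun (d : ι → A.C × B.C) (o : ι) => (d o).1) :=
    measurable_pi_lambda _ fun o => measurable_fst.comp (measurable_pi_apply o)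
  have m2 : Measurable (fun (d : ι → A.C × B.C) (o : ι) => (d o).2) :=
    measurable_pi_lambda _ fun o => measurable_snd.comp (measurable_pi_apply o)
  have hGH : Bdd (fun d : ι → (A.prod B).C => G (fun o => (d o).1) * H (fun o => (d o).2)) :=
    (hG.comp m1).mul (hH.comp m2)
  have h1 := integral_row_col r (w.pair x hI) s F hF _ hGH
  refine Eq.trans ?_ (h1.trans ?_)
  · rfl
  · have h2 := (w.pair x hI).mp.quasiMeasurePreserving.ae (cl_prod r A B s hG hH)
    refine integral_congr_ae ?_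
    filter_upwards [h2] with z hz
    rw [hz]
    rfl

end

end Vale.Agent.N102G

end

section
/-!
# Inverse limits of systems and of admissible pairs
-/

namespace Vale.Agent.N102G

open Vale.Agent.P102.RM
variable {Γ : Type} [AddCommGroup Γ]

open MeasureTheory Filter Topology ProbabilityTheory
open Vale.Agent.P102.RM.InvLim

section sys

variable (A : ℕ → Sys Γ) (p : ∀ n, Fac (A (n + 1)) (A n))

/-- the carriers of a sequence of systems -/
abbrev Sq (n : ℕ) : Type := (A n).C

/-- the underlying maps of a tower -/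
abbrev pf : ∀ n, Sq A (n + 1) → Sq A n := fun n => (p n).f

theorem exists_limMeas : ∃ ν : Measure (Lim (Ω := Sq A) (pf A p)), IsProbabilityMeasure ν ∧
    ∀ n, MeasurePreserving (Lim.proj (Ω := Sq A) (pf A p) n) ν (A n).μ :=
  Lim.exists_measure (Ω := Sq A) (f := pf A p) (fun n => (A n).μ) (fun n => (p n).mp)

/-- the measure of the inverse limit -/
noncomputable def limMeas : Measure (Lim (Ω := Sq A) (pf A p)) := (exists_limMeas A p).choose

instance limMeas_prob : IsProbabilityMeasure (limMeas A p) := (exists_limMeas A p).choose_spec.1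

theorem limMeas_proj (n : ℕ) :
    MeasurePreserving (Lim.proj (Ω := Sq A) (pf A p) n) (limMeas A p) (A n).μ :=
  (exists_limMeas A p).choose_spec.2 n

/-- the action on the inverse limit -/
def limAct : Act Γ (Lim (Ω := Sq A) (pf A p)) where
  t g := Lim.limT (Ω := Sq A) (f := pf A p) (fun n => (A n).S.e g) (fun n w => (p n).eqv g w)
  meas g := (Lim.limT (Ω := Sq A) (f := pf A p) (fun n => (A n).S.e g)
    (fun n w => (p n).eqv g w)).measurable
  zero w := by
    apply Lim.ext' (Ω := Sq A)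
    intro n
    exact iter_zero (A n).S _
  add g h w := by
    apply Lim.ext' (Ω := Sq A)
    intro n
    exact iter_add (A n).S g h _

/-- the inverse limit of a tower of systems -/
@[reducible] noncomputable def limSys : Sys Γ where
  C := Lim (Ω := Sq A) (pf A p)
  mC := inferInstance
  sC := Lim.standardBorel (Ω := Sq A) fun n => (p n).meas
  μ := limMeas A p
  pμ := inferInstance
  S := limAct A p
  mp := fun g => Lim.measurePreserving_limT (Ω := Sq A) (fun n => (p n).meas)
    (fun n => (A n).S.e g) (fun n w => (p n).eqv g w)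
    (limMeas_proj A p) (fun n => (A n).mp g)

/-- the factor maps of the inverse limit -/
noncomputable def limFac (n : ℕ) : Fac (limSys A p) (A n) where
  f := Lim.proj (Ω := Sq A) (pf A p) n
  mp := limMeas_proj A p n
  eqv _ _ := rfl

theorem limFac_step (n : ℕ) (a : (limSys A p).C) :
    (limFac A p n).f a = (p n).f ((limFac A p (n + 1)).f a) :=
  (Lim.f_proj (Ω := Sq A) (pf A p) n a).symm

theorem limSys_mC : (limSys A p).mC = ⨆ n, MeasurableSpace.comap (limFac A p n).f (A n).mC :=
  Lim.measurableSpace_eq (Ω := Sq A) (pf A p)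

/-- the underlying map into the inverse limit -/
def limLiftFun {W : Sys Γ} (q : ∀ n, Fac W (A n))
    (hq : ∀ n a, (q n).f a = (p n).f ((q (n + 1)).f a)) (a : W.C) :
    Lim (Ω := Sq A) (pf A p) :=
  ⟨fun n => (q n).f a, fun n => (hq n a).symm⟩

/-- a map into the inverse limit -/
noncomputable def limLift {W : Sys Γ} (q : ∀ n, Fac W (A n))
    (hq : ∀ n a, (q n).f a = (p n).f ((q (n + 1)).f a)) : Fac W (limSys A p) where
  f := limLiftFun A p q hq
  mp := by
    have hm : Measurable (limLiftFun A p q hq) :=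
      Lim.measurable_of_proj (Ω := Sq A) fun n => (q n).meas
    refine ⟨hm, ?_⟩
    have : IsProbabilityMeasure (W.μ.map (limLiftFun A p q hq)) :=
      Measure.isProbabilityMeasure_map hm.aemeasurable
    refine Lim.measure_ext (Ω := Sq A) (f := pf A p) (fun n => (p n).meas) fun n => ?_
    rw [Measure.map_map (Lim.measurable_proj (Ω := Sq A) (pf A p) n) hm]
    exact (q n).mp.map_eq.trans (limMeas_proj A p n).map_eq.symm
  eqv g a := by
    apply Lim.ext' (Ω := Sq A)
    intro n
    exact (q n).eqv g a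

theorem limLift_fac {W : Sys Γ} (q : ∀ n, Fac W (A n))
    (hq : ∀ n a, (q n).f a = (p n).f ((q (n + 1)).f a)) (n : ℕ) (a : W.C) :
    (limFac A p n).f ((limLift A p q hq).f a) = (q n).f a := rfl

end sys

variable {X : Sys Γ}

/-- **Inverse limits of admissible pairs.** -/
theorem exists_invLim (B : ℕ → Adm X) (e : ∀ n, Ext (B (n + 1)) (B n)) :
    ∃ (L : Adm X) (f : ∀ n, Ext L (B n)),
      (∀ n a, (f n).w.f a = (e n).w.f ((f (n + 1)).w.f a)) ∧
      (∀ n a, (f n).v.f a = (e n).v.f ((f (n + 1)).v.f a)) ∧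
      L.W.mC = ⨆ n, MeasurableSpace.comap (f n).w.f (B n).W.mC := by
  let AW : ℕ → Sys Γ := fun n => (B n).W
  let pW : ∀ n, Fac (AW (n + 1)) (AW n) := fun n => (e n).w
  let AY : ℕ → Sys Γ := fun n => (B n).Y
  let pY : ∀ n, Fac (AY (n + 1)) (AY n) := fun n => (e n).v
  let W := limSys AW pW
  let πW : ∀ n, Fac W (B n).W := limFac AW pW
  let q : ∀ n, Fac W (AY n) := fun n => (B n).y.comp (πW n)
  have hq : ∀ n a, (q n).f a = (pY n).f ((q (n + 1)).f a) := by
    intro n a
    have h1 : (πW n).f a = (e n).w.f ((πW (n + 1)).f a) := limFac_step AW pW n a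
    change (B n).y.f ((πW n).f a) = (e n).v.f ((B (n + 1)).y.f ((πW (n + 1)).f a))
    rw [h1, (e n).hy]
  let y : Fac W (limSys AY pY) := limLift AY pY q hq
  -- compatibility with the maps to `X`
  have hx0 : ∀ n, ∀ᵐ a ∂W.μ, (B n).x.f ((πW n).f a) = (B 0).x.f ((πW 0).f a) := by
    intro n
    induction n with
    | zero => exact Eventually.of_forall fun _ => rfl
    | succ n ih =>
      have h1 := (πW (n + 1)).mp.quasiMeasurePreserving.ae (e n).hx
      filter_upwards [h1, ih] with a h2 h3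
      rw [← h2, ← h3]
      exact congrArg _ (limFac_step AW pW n a).symm
  have hind : IndepFun ((B 0).x.comp (πW 0)).f y.f W.μ := by
    have key := Lim.indep_limY (Ω := Sq AW) (f := pf AW pW)
      (fun n => MeasurableSpace.comap (B n).y.f (B n).Y.mC) (μ := fun n => (AW n).μ)
      (ν := W.μ) (fun n => (πW n).mp) (fun n => (B n).x.f) (fun n => (B n).x.meas)
      (fun n => (e n).hx) (fun n => (B n).y.meas.comap_le) (fun n => ?_) (fun n => (B n).ind)
    · have h2 : MeasurableSpace.comap y.f (limSys AY pY).mC =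
          Lim.limY (Ω := Sq AW) (f := pf AW pW)
            (fun n => MeasurableSpace.comap (B n).y.f (B n).Y.mC) := by
        rw [limSys_mC, MeasurableSpace.comap_iSup]
        unfold Lim.limY
        congr 1
        funext n
        rw [MeasurableSpace.comap_comp, MeasurableSpace.comap_comp]
        rfl
      change Indep _ (MeasurableSpace.comap y.f (limSys AY pY).mC) W.μ
      rw [h2]
      exact key
    · rw [MeasurableSpace.comap_comp]
      have h3 : (B n).y.f ∘ (pW n).f = (e n).v.f ∘ (B (n + 1)).y.f := by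
        funext a
        exact (e n).hy a
      rw [h3, ← MeasurableSpace.comap_comp]
      exact MeasurableSpace.comap_mono (e n).v.meas.comap_le
  refine ⟨⟨W, limSys AY pY, (B 0).x.comp (πW 0), y, hind⟩,
    fun n => ⟨πW n, limFac AY pY n, hx0 n, fun a => rfl⟩, fun n a => limFac_step AW pW n a,
    fun n a => limFac_step AY pY n a, limSys_mC AW pW⟩

end Vale.Agent.N102G

end
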