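import Vale.Agent.N102G.G1

set_option linter.all false

section
/-! # SAT: existence of sated extensions, from the existence of countable inverse limits -/

namespace Vale.Agent.N102G.Sat

open Vale.Agent.P102.RM Vale.Agent.P102.RM.Sat
variable {Γ : Type} [AddCommGroup Γ]

open MeasureTheory Filter Topology ProbabilityTheory

variable {X : Sys Γ}

/-- an observation scheme: for every admissible pair a probability space with a sub-σ-algebra and
an evaluation map, functorial for extensions -/
structure Obs (X : Sys Γ) where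
  Ω : Adm X → Type
  [mΩ : ∀ P, MeasurableSpace (Ω P)]
  μ : ∀ P, Measure (Ω P)
  [pμ : ∀ P, IsProbabilityMeasure (μ P)]
  ev : ∀ P, Ω P → P.W.C
  mev : ∀ P, Measurable (ev P)
  π : ∀ {P' P : Adm X}, Ext P' P → Ω P' → Ω P
  hπ : ∀ {P' P : Adm X} (e : Ext P' P), MeasurePreserving (π e) (μ P') (μ P)
  hev : ∀ {P' P : Adm X} (e : Ext P' P) (ω : Ω P'), ev P (π e ω) = e.w.f (ev P' ω)
  hcomp : ∀ {P'' P' P : Adm X} (e : Ext P' P) (e' : Ext P'' P') (ω : Ω P''),
    π (e.comp e') ω = π e (π e' ω)
  𝓖 : ∀ P, MeasurableSpace (Ω P)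
  hG : ∀ P, 𝓖 P ≤ mΩ P
  hle : ∀ {P' P : Adm X} (e : Ext P' P), (𝓖 P).comap (π e) ≤ 𝓖 P'

attribute [instance] Obs.mΩ Obs.pμ

end Vale.Agent.N102G.Sat

end

section
/-! # SAT, final part: every admissible pair has a sated extension -/

namespace Vale.Agent.N102G.Sat

open Vale.Agent.P102.RM Vale.Agent.P102.RM.Sat
variable {Γ : Type} [AddCommGroup Γ]

open MeasureTheory Filter Topology ProbabilityTheory

variable {X : Sys Γ}

/-- the scheme of the functional `M` -/
noncomputable def obsM (X : Sys Γ) : Obs X where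
  Ω P := P.W.C
  μ P := P.W.μ
  ev P := fun a => a
  mev P := measurable_id
  π e := e.w.f
  hπ e := e.w.mp
  hev e ω := rfl
  hcomp e e' ω := rfl
  𝓖 P := MeasurableSpace.comap P.y.f inferInstance
  hG P := P.y.meas.comap_le
  hle {P' P} e := by
    rw [MeasurableSpace.comap_comp]
    have h : P.y.f ∘ e.w.f = e.v.f ∘ P'.y.f := by
      funext a; exact e.hy a
    rw [h, ← MeasurableSpace.comap_comp]
    exact MeasurableSpace.comap_mono e.v.meas.comap_le

section slots
variable {ι : Type} [Fintype ι] [DecidableEq ι]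

omit [Fintype ι] [DecidableEq ι] in
theorem measurable_side {V Y : Sys Γ} (y : Fac V Y) (s : ι) : Measurable (y.side s) := by
  refine Measurable.prodMk ?_ ?_
  · exact measurable_pi_lambda _ fun j => measurable_pi_apply _
  · exact y.meas.comp (measurable_pi_apply s)

/-- the scheme of the functional `N^s` -/
noncomputable def obsN (X : Sys Γ) (r : Ultrafilter (ι → Γ)) (s : ι) : Obs X where
  Ω P := ι → P.W.C
  μ P := (D r P.W).μ
  ev P := fun d => d s
  mev P := measurable_pi_apply s
  π e := fun d i => e.w.f (d i)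
  hπ e := (e.w.D r).mp
  hev e ω := rfl
  hcomp e e' ω := rfl
  𝓖 P := MeasurableSpace.comap (P.y.side s) inferInstance
  hG P := (measurable_side P.y s).comap_le
  hle {P' P} e := by
    rw [MeasurableSpace.comap_comp]
    let h0 : ({j : ι // j ≠ s} → P'.W.C) × P'.Y.C → ({j : ι // j ≠ s} → P.W.C) × P.Y.C :=
      fun a => (fun j => e.w.f (a.1 j), e.v.f a.2)
    have hm : Measurable h0 := by
      refine Measurable.prodMk ?_ ?_
      · exact measurable_pi_lambda _ fun j =>
          e.w.meas.comp ((measurable_pi_apply j).comp measurable_fst)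
      · exact e.v.meas.comp measurable_snd
    have h : (P.y.side s) ∘ (fun (d : ι → P'.W.C) i => e.w.f (d i)) = h0 ∘ (P'.y.side s) := by
      funext d
      simp only [Function.comp_apply, Fac.side, h0, e.hy]
    rw [h, ← MeasurableSpace.comap_comp]
    exact MeasurableSpace.comap_mono hm.comap_le

end slots

end Vale.Agent.N102G.Sat

end

section
/-! # Satedness as equality of conditional expectations -/

namespace Vale.Agent.N102G

open Vale.Agent.P102.RM
variable {Γ : Type} [AddCommGroup Γ]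

open MeasureTheory Filter Topology ProbabilityTheory

variable {X : Sys Γ}

theorem Sat.Obs.condExp_eq_of_le (O : Sat.Obs X) {R L : Adm X} (g : Ext R L) {k : L.W.C → ℂ}
    (hk : Bdd k)
    (h : ∫ ω, ‖((O.μ R)[fun ω => k (g.w.f (O.ev R ω)) | O.𝓖 R]) ω‖ ^ 2 ∂(O.μ R)
      ≤ ∫ ω, ‖((O.μ L)[fun ω => k (O.ev L ω) | O.𝓖 L]) ω‖ ^ 2 ∂(O.μ L)) :
    (O.μ R)[fun ω => k (g.w.f (O.ev R ω)) | O.𝓖 R]
      =ᵐ[O.μ R] fun ω => ((O.μ L)[fun ω => k (O.ev L ω) | O.𝓖 L]) (O.π g ω) := by
  have hb : Bdd (fun ω => k (O.ev L ω)) := hk.comp (O.mev L)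
  have hi : Integrable (fun ω => k (O.ev L ω)) (O.μ L) := hb.integrable _
  have e1 : (fun ω => k (O.ev L (O.π g ω))) = fun ω => k (g.w.f (O.ev R ω)) := by
    funext ω
    rw [O.hev]
  have h1 : (O.μ R)[fun ω => k (g.w.f (O.ev R ω)) | (O.𝓖 L).comap (O.π g)]
      =ᵐ[O.μ R] fun ω => ((O.μ L)[fun ω => k (O.ev L ω) | O.𝓖 L]) (O.π g ω) := by
    have h0 := condExp_comp_comap (O.hG L) (O.hπ g) hi
    have e2 : (fun ω => k (O.ev L ω)) ∘ O.π g = fun ω => k (g.w.f (O.ev R ω)) := e1
    rw [e2] at h0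
    exact h0
  refine EventuallyEq.trans ?_ h1
  have hF : Bdd (fun ω => k (g.w.f (O.ev R ω))) := hk.comp (g.w.meas.comp (O.mev R))
  obtain ⟨C, hC⟩ := hF.2
  have hF2 : MemLp (fun ω => k (g.w.f (O.ev R ω))) 2 (O.μ R) :=
    MemLp.of_bound hF.1.aestronglyMeasurable C (ae_of_all _ hC)
  refine condExp_ae_eq_of_norm_le (O.hle g) (O.hG R) hF2 (h.trans (le_of_eq ?_))
  have h3 := integral_normSq_condExp_comap (O.hG L) (O.hπ g) hi
  have e2 : (fun ω => k (O.ev L ω)) ∘ O.π g = fun ω => k (g.w.f (O.ev R ω)) := e1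
  rw [e2] at h3
  exact h3.symm

/-- `M`-satedness: in every extension `R` of `L`, `E[k(w) | y_R] = E[k | y_L](w)`. -/
theorem SatM.condExp_eq {L : Adm X} (h : SatM L) {R : Adm X} (g : Ext R L) {k : L.W.C → ℂ}
    (hk : Bdd k) :
    R.W.μ[fun a => k (g.w.f a) | MeasurableSpace.comap R.y.f inferInstance]
      =ᵐ[R.W.μ] fun a => (L.W.μ[k | MeasurableSpace.comap L.y.f inferInstance]) (g.w.f a) :=
  (Sat.obsM X).condExp_eq_of_le g hk (h R g k hk)

section slots
variable {ι : Type} [Fintype ι] [DecidableEq ι]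

/-- `N^s`-satedness: in every extension `R` of `L`,
`E[k(w_s) | (R-points off s), y_R at s] = E[k(w_s) | (L-points off s), y_L at s]`. -/
theorem SatN.condExp_eq {L : Adm X} {r : Ultrafilter (ι → Γ)} {s : ι} (h : SatN L r s)
    {R : Adm X} (g : Ext R L) {k : L.W.C → ℂ} (hk : Bdd k) :
    (D r R.W).μ[fun d : ι → R.W.C => k (g.w.f (d s)) |
        MeasurableSpace.comap (R.y.side s) inferInstance]
      =ᵐ[(D r R.W).μ] fun d : ι → R.W.C =>
        ((D r L.W).μ[fun d : ι → L.W.C => k (d s) |
          MeasurableSpace.comap (L.y.side s) inferInstance]) (fun i => g.w.f (d i)) :=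
  (Sat.obsN X r s).condExp_eq_of_le g hk (h R g k hk)

/-- the same, with the smaller σ-algebra pulled back to `D r R.W` -/
theorem SatN.condExp_eq' {L : Adm X} {r : Ultrafilter (ι → Γ)} {s : ι} (h : SatN L r s)
    {R : Adm X} (g : Ext R L) {k : L.W.C → ℂ} (hk : Bdd k) :
    (D r R.W).μ[fun d : ι → R.W.C => k (g.w.f (d s)) |
        MeasurableSpace.comap (R.y.side s) inferInstance]
      =ᵐ[(D r R.W).μ] (D r R.W).μ[fun d : ι → R.W.C => k (g.w.f (d s)) |
        MeasurableSpace.comap (fun d : ι → R.W.C => L.y.side s (fun i => g.w.f (d i)))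
          inferInstance] := by
  refine (h.condExp_eq g hk).trans ?_
  have hi : Integrable (fun d : ι → L.W.C => k (d s)) (D r L.W).μ :=
    (hk.comp (measurable_pi_apply s)).integrable _
  have h0 := condExp_comp_comap (Sat.measurable_side L.y s).comap_le (g.w.D r).mp hi
  rw [MeasurableSpace.comap_comp] at h0
  exact h0.symm

/-- test form: for every bounded `H` measurable with respect to the side data of `R`,
`∫ k(w_s) H = ∫ E[k(w_s) | side L] H`. -/
theorem SatN.integral_eq {L : Adm X} {r : Ultrafilter (ι → Γ)} {s : ι} (h : SatN L r s)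
    {R : Adm X} (g : Ext R L) {k : L.W.C → ℂ} (hk : Bdd k)
    {H : ({j : ι // j ≠ s} → R.W.C) × R.Y.C → ℂ} (hH : Bdd H) :
    ∫ d : ι → R.W.C, k (g.w.f (d s)) * H (R.y.side s d) ∂(D r R.W).μ
      = ∫ d : ι → R.W.C, ((D r L.W).μ[fun d : ι → L.W.C => k (d s) |
          MeasurableSpace.comap (L.y.side s) inferInstance]) (fun i => g.w.f (d i))
            * H (R.y.side s d) ∂(D r R.W).μ := by
  have hm : MeasurableSpace.comap (R.y.side s) inferInstance
      ≤ (inferInstance : MeasurableSpace (ι → R.W.C)) := (Sat.measurable_side R.y s).comap_le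
  have hF : Bdd (fun d : ι → R.W.C => k (g.w.f (d s))) :=
    hk.comp (g.w.meas.comp (measurable_pi_apply s))
  have hHm : StronglyMeasurable[MeasurableSpace.comap (R.y.side s) inferInstance]
      (fun d : ι → R.W.C => H (R.y.side s d)) :=
    (hH.1.comp (comap_measurable (R.y.side s))).stronglyMeasurable
  have hHb : Bdd (fun d : ι → R.W.C => H (R.y.side s d)) := hH.comp (Sat.measurable_side R.y s)
  rw [← integral_condExp (m := MeasurableSpace.comap (R.y.side s) inferInstance) hm]
  refine integral_congr_ae ?_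
  have h1 := condExp_mul_right (μ := (D r R.W).μ) (f := fun d : ι → R.W.C => k (g.w.f (d s)))
    (g := fun d : ι → R.W.C => H (R.y.side s d)) (m := MeasurableSpace.comap (R.y.side s) inferInstance)
    hHm.aestronglyMeasurable ((hF.mul hHb).integrable _) (hF.integrable _)
  refine h1.trans ?_
  filter_upwards [h.condExp_eq g hk] with d hd
  rw [hd]

end slots

end Vale.Agent.N102G

end

section
/-! # `N`-satedness in `cE` form (P102) -/

namespace Vale.Agent.N102G

open Vale.Agent.P102.RM
variable {Γ : Type} [AddCommGroup Γ]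

open MeasureTheory Filter Topology ProbabilityTheory

variable {X : Sys Γ} {ι : Type} [Fintype ι] [DecidableEq ι]

/-- `(*)`: in every extension `P1` of an `N^s`-sated pair, the projection of `k(w_s)` to the side
data of `P1` is the function `Q` of the side data of `P`. -/
theorem SatN.integral_cE {P : Adm X} {r : Ultrafilter (ι → Γ)} {s : ι} (h : SatN P r s)
    {P1 : Adm X} (e : Ext P1 P) {k : P.W.C → ℂ} (hk : Bdd k)
    {u : ({j : ι // j ≠ s} → P1.W.C) × P1.Y.C → ℂ} (hu : Bdd u) :
    ∫ d : ι → P1.W.C, k (e.w.f (d s)) * u (P1.y.side s d) ∂(D r P1.W).μ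
      = ∫ d : ι → P1.W.C, cE (D r P.W).μ (P.y.side s) (fun d : (D r P.W).C => k (d s))
          (P.y.side s (fun o => e.w.f (d o))) * u (P1.y.side s d) ∂(D r P1.W).μ := by
  refine (h.integral_eq e hk hu).trans ?_
  have hF : Bdd (fun d : (D r P.W).C => k (d s)) := hk.comp (measurable_pi_apply s)
  have h1 := cE_comp_ae_eq (μ := (D r P.W).μ) (g := P.y.side s)
    (F := fun d : (D r P.W).C => k (d s)) (Sat.measurable_side P.y s) (hF.integrable _)
  have h2 := (e.w.D r).mp.quasiMeasurePreserving.ae h1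
  refine integral_congr_ae ?_
  filter_upwards [h2] with d hd
  exact congrArg (fun c : ℂ => c * u (P1.y.side s d)) hd.symm

end Vale.Agent.N102G

end

section
/-! # Theorem E and the ideal property (P102): second copy -/

namespace Vale.Agent.N102G.H244

open Vale.Agent.P102.RM Vale.Agent.P102.RM.H244
variable {Γ : Type} [AddCommGroup Γ]

open MeasureTheory Filter Topology ProbabilityTheory

variable {X : Sys Γ} {ι : Type} [Fintype ι] [DecidableEq ι]

omit [DecidableEq ι] in
/-- exactness criterion -/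
theorem exa_of_test {P : Adm X} {r : Ultrafilter (ι → Γ)} {s : ι} {Ψ : P.W.C → ℂ} (hΨ : Bdd Ψ)
    (h : ∫ a, (starRingEnd ℂ) (Ψ a) * Ψ a ∂P.W.μ = ∫ d : ι → P.W.C,
      cE (D r P.W).μ (P.y.side s) (fun d : (D r P.W).C => (starRingEnd ℂ) (Ψ (d s)))
        (P.y.side s d) * Ψ (d s) ∂(D r P.W).μ) :
    Ψ ∈ Exa P r s := by
  have hm := Sat.measurable_side P.y s
  have hF : Bdd (fun d : (D r P.W).C => Ψ (d s)) := hΨ.comp (measurable_pi_apply s)
  have hFc : Bdd (fun d : (D r P.W).C => (starRingEnd ℂ) (Ψ (d s))) := hF.star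
  have hF2 : MemLp (fun d : (D r P.W).C => Ψ (d s)) 2 (D r P.W).μ := by
    obtain ⟨C, hC⟩ := hF.2
    exact MemLp.of_bound hF.1.aestronglyMeasurable C (ae_of_all _ hC)
  have h1 := cE_comp_ae_eq (μ := (D r P.W).μ) (g := P.y.side s)
    (F := fun d : (D r P.W).C => (starRingEnd ℂ) (Ψ (d s))) hm (hFc.integrable _)
  have h2 := cE_comp_ae_eq (μ := (D r P.W).μ) (g := P.y.side s)
    (F := fun d : (D r P.W).C => Ψ (d s)) hm (hF.integrable _)
  have h3 := condExp_ae_eq_self_of_exactness (μ := (D r P.W).μ)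
    (m₁ := (inferInstance : MeasurableSpace (D r P.W).C))
    (m₂ := MeasurableSpace.comap (P.y.side s) inferInstance) le_rfl hm.comap_le hF2
    hF.1.aestronglyMeasurable ?_
  · refine ⟨hΨ, cE (D r P.W).μ (P.y.side s) (fun d : (D r P.W).C => Ψ (d s)),
      measurable_cE hF.1, ?_⟩
    filter_upwards [h2, h3] with d h2 h3
    rw [h2, h3]
  · have e1 : ∫ d : (D r P.W).C, (starRingEnd ℂ) (Ψ (d s)) * Ψ (d s) ∂(D r P.W).μ =
        ∫ a, (starRingEnd ℂ) (Ψ a) * Ψ a ∂P.W.μ :=
      (evF r P.W s).integral_comp (H := fun a => (starRingEnd ℂ) (Ψ a) * Ψ a) (hΨ.star.mul hΨ)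
    have e2 : (D r P.W).μ[(D r P.W).μ[fun d : (D r P.W).C => (starRingEnd ℂ) (Ψ (d s)) |
        MeasurableSpace.comap (P.y.side s) inferInstance] |
        (inferInstance : MeasurableSpace (D r P.W).C)] =
        (D r P.W).μ[fun d : (D r P.W).C => (starRingEnd ℂ) (Ψ (d s)) |
        MeasurableSpace.comap (P.y.side s) inferInstance] :=
      condExp_of_stronglyMeasurable le_rfl (stronglyMeasurable_condExp.mono hm.comap_le)
        integrable_condExp
    rw [e1, h, e2]
    refine integral_congr_ae ?_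
    filter_upwards [h1] with d h1
    rw [← h1]

/-! ### The extension `D r W → W` through slot `t` -/

section ext

variable (P : Adm X) (r : Ultrafilter (ι → Γ)) (t b : ι)

/-- the new base: the points `w_a`, `a ≠ t, b`, and `y_t`, `y_b` -/
abbrev YC : Type := ({a : ι // a ≠ t ∧ a ≠ b} → P.W.C) × P.Y.C × P.Y.C

/-- the map to the new base -/
def beta (d : ι → P.W.C) : YC P t b := (fun a => d a, P.y.f (d t), P.y.f (d b))

omit [Fintype ι] [DecidableEq ι] in
theorem measurable_beta : Measurable (beta P t b) := by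
  have h1 : Measurable (fun (d : ι → P.W.C) (a : {a : ι // a ≠ t ∧ a ≠ b}) => d a) :=
    measurable_pi_lambda _ fun a => measurable_pi_apply (a : ι)
  have h2 : Measurable (fun (d : ι → P.W.C) => P.y.f (d t)) :=
    P.y.meas.comp (measurable_pi_apply t)
  have h3 : Measurable (fun (d : ι → P.W.C) => P.y.f (d b)) :=
    P.y.meas.comp (measurable_pi_apply b)
  exact h1.prodMk (h2.prodMk h3)

/-- the automorphism of the new base -/
def YS : Act Γ (YC P t b) :=
  (Act.pi fun _ => P.W.S).prod (P.Y.S.prod P.Y.S)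

omit [DecidableEq ι] in
theorem beta_eqv (g : Γ) (d : (D r P.W).C) :
    beta P t b (iter (D r P.W).S g d) = iter (YS P t b) g (beta P t b d) := by
  show beta P t b (iter (diag ι P.W) g d) = _
  refine Prod.ext ?_ (Prod.ext ?_ ?_)
  · rfl
  · exact P.y.eqv g (d t)
  · exact P.y.eqv g (d b)

/-- the conditional expectation of a function of `x` given `y` is constant -/
theorem ce_x_const {φ : X.C → ℂ} (hφ : Bdd φ) :
    P.y.ce (fun w => φ (P.x.f w)) =ᵐ[P.Y.μ] fun _ => ∫ a, φ (P.x.f a) ∂P.W.μ := by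
  have hb : Bdd (fun w => φ (P.x.f w)) := hφ.comp P.x.meas
  refine P.y.ce_ae_eq_of_test hb (Bdd.const _) fun u hu => ?_
  have h1 := integral_mul_of_indep P.y.meas P.x.meas P.ind.symm hu hφ
  have h2 := P.y.integral_comp hu
  have h3 : ∫ b, u b * ∫ a, φ (P.x.f a) ∂P.W.μ ∂P.Y.μ =
      (∫ b, u b ∂P.Y.μ) * ∫ a, φ (P.x.f a) ∂P.W.μ := integral_mul_const _ _
  rw [h3, ← h2]
  exact h1

theorem ext_ind (hl : LineInd r P.y b) (htb : t ≠ b) :
    IndepFun (fun d : ι → P.W.C => P.x.f (d t)) (beta P t b) (D r P.W).μ := by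
  have hx : Measurable (fun d : ι → P.W.C => P.x.f (d t)) := P.x.meas.comp (measurable_pi_apply t)
  have hw : Measurable (fun (d : ι → P.W.C) (a : {a : ι // a ≠ t ∧ a ≠ b}) => d a) :=
    measurable_pi_lambda _ fun a => measurable_pi_apply (a : ι)
  have h2 : Measurable (fun (d : ι → P.W.C) => P.y.f (d t)) :=
    P.y.meas.comp (measurable_pi_apply t)
  have h3 : Measurable (fun (d : ι → P.W.C) => P.y.f (d b)) :=
    P.y.meas.comp (measurable_pi_apply b)
  have hy : Measurable (fun (d : ι → P.W.C) => (P.y.f (d t), P.y.f (d b))) := h2.prodMk h3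
  refine indepFun_of_integrals (μ := (D r P.W).μ) hx hw hy fun φ f g hφ hf hg => ?_
  -- test functions on all the slots
  let G : (P.W.C → ℂ) → ι → P.W.C → ℂ := fun u j =>
    if hj : j ≠ t ∧ j ≠ b then f ⟨j, hj⟩ else u
  have hG : ∀ u, Bdd u → ∀ j, Bdd (G u j) := by
    intro u hu j
    by_cases hj : j ≠ t ∧ j ≠ b
    · simp only [G, dif_pos hj]; exact hf _
    · simp only [G, dif_neg hj]; exact hu
  have hGt : ∀ u, G u t = u := fun u => by simp only [G, ne_eq, not_true_eq_false, false_and,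
    dite_false]
  have ht : t ∈ Finset.univ.erase b := Finset.mem_erase.2 ⟨htb, Finset.mem_univ t⟩
  have hprod : ∀ (u : P.W.C → ℂ) (d : ι → P.W.C),
      ∏ j ∈ (Finset.univ.erase b).erase t, G u j (d j) =
        ∏ a : {a : ι // a ≠ t ∧ a ≠ b}, f a (d a) := by
    intro u d
    rw [Finset.prod_subtype ((Finset.univ.erase b).erase t) (p := fun j => j ≠ t ∧ j ≠ b)
      (by intro j; simp)]
    refine Finset.prod_congr rfl fun j _ => ?_
    simp only [G, dif_pos j.2]
  have hprod2 : ∀ (u : P.W.C → ℂ) (d : ι → P.W.C),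
      ∏ j ∈ (Finset.univ.erase b).erase t, P.y.ce (G u j) (P.y.f (d j)) =
        ∏ a : {a : ι // a ≠ t ∧ a ≠ b}, P.y.ce (f a) (P.y.f (d a)) := by
    intro u d
    rw [Finset.prod_subtype ((Finset.univ.erase b).erase t) (p := fun j => j ≠ t ∧ j ≠ b)
      (by intro j; simp)]
    refine Finset.prod_congr rfl fun j _ => ?_
    simp only [G, dif_pos j.2]
  have hh : Bdd (fun e : ι → P.Y.C => g (e t, e b)) :=
    hg.comp ((measurable_pi_apply t).prodMk (measurable_pi_apply b))
  have key : ∀ u : P.W.C → ℂ, Bdd u →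
      ∫ d : ι → P.W.C, u (d t) * ((∏ a : {a : ι // a ≠ t ∧ a ≠ b}, f a (d a)) *
          g (P.y.f (d t), P.y.f (d b))) ∂(D r P.W).μ =
        ∫ d : ι → P.W.C, P.y.ce u (P.y.f (d t)) *
          ((∏ a : {a : ι // a ≠ t ∧ a ≠ b}, P.y.ce (f a) (P.y.f (d a))) *
          g (P.y.f (d t), P.y.f (d b))) ∂(D r P.W).μ := by
    intro u hu
    have k1 := hl (G u) (fun e => g (e t, e b)) (hG u hu) hh
    have e1 : ∀ d : ι → P.W.C, g (P.y.f (d t), P.y.f (d b)) *
        ∏ j ∈ Finset.univ.erase b, G u j (d j) = u (d t) *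
          ((∏ a : {a : ι // a ≠ t ∧ a ≠ b}, f a (d a)) * g (P.y.f (d t), P.y.f (d b))) := by
      intro d
      rw [← Finset.mul_prod_erase (Finset.univ.erase b) _ ht, hprod, hGt]
      ring
    have e2 : ∀ d : ι → P.W.C, g (P.y.f (d t), P.y.f (d b)) *
        ∏ j ∈ Finset.univ.erase b, P.y.ce (G u j) (P.y.f (d j)) = P.y.ce u (P.y.f (d t)) *
          ((∏ a : {a : ι // a ≠ t ∧ a ≠ b}, P.y.ce (f a) (P.y.f (d a))) *
            g (P.y.f (d t), P.y.f (d b))) := by
      intro d
      rw [← Finset.mul_prod_erase (Finset.univ.erase b) _ ht, hprod2, hGt]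
      ring
    simp only [e1, e2] at k1
    exact k1
  have k1 := key (fun w => φ (P.x.f w)) (hφ.comp P.x.meas)
  have k2 := key (fun _ => 1) (Bdd.const 1)
  have hone : ∀ y, P.y.ce (fun _ => (1 : ℂ)) y = 1 := by
    intro y
    unfold Fac.ce
    simp
  simp only [hone, one_mul] at k2
  have hev : ∫ d : ι → P.W.C, φ (P.x.f (d t)) ∂(D r P.W).μ = ∫ a, φ (P.x.f a) ∂P.W.μ :=
    (evF r P.W t).integral_comp (H := fun a => φ (P.x.f a)) (hφ.comp P.x.meas)
  have hconst := (P.y.comp (evF r P.W t)).mp.quasiMeasurePreserving.ae (ce_x_const P hφ)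
  rw [hev, k2, ← integral_const_mul]
  refine k1.trans (integral_congr_ae ?_)
  filter_upwards [hconst] with d hd
  have hd' : P.y.ce (fun w => φ (P.x.f w)) (P.y.f (d t)) = ∫ a, φ (P.x.f a) ∂P.W.μ := hd
  rw [hd']

/-- the extension `D r W → W` through slot `t` -/
noncomputable def extAdm (hl : LineInd r P.y b) (htb : t ≠ b) : Adm X where
  W := D r P.W
  Y := (D r P.W).image (YC P t b) (beta P t b) (measurable_beta P t b) (YS P t b)
    (beta_eqv P r t b)
  x := P.x.comp (evF r P.W t)
  y := (D r P.W).imageFac (YC P t b) (beta P t b) (measurable_beta P t b) (YS P t b)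
    (beta_eqv P r t b)
  ind := ext_ind P r t b hl htb

/-- the extension map -/
noncomputable def extExt (hl : LineInd r P.y b) (htb : t ≠ b) :
    Ext (extAdm P r t b hl htb) P where
  w := evF r P.W t
  v :=
    { f := fun e => e.2.1
      mp := by
        have hm : Measurable (fun e : YC P t b => e.2.1) := measurable_fst.comp measurable_snd
        refine ⟨hm, ?_⟩
        show ((D r P.W).μ.map (beta P t b)).map (fun e : YC P t b => e.2.1) = P.Y.μ
        rw [Measure.map_map hm (measurable_beta P t b)]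
        exact (P.y.comp (evF r P.W t)).mp.map_eq
      eqv := fun _ _ => rfl }
  hx := ae_of_all _ fun _ => rfl
  hy := fun _ => rfl

end ext

/-! ### The two theorems -/

omit [DecidableEq ι] in
/-- common end -/
theorem exa_end {P : Adm X} {r : Ultrafilter (ι → Γ)} {s t : ι} {F : (ι → P.W.C) → ℂ}
    (hF : Bdd F)
    (h : ∀ k : P.W.C → ℂ, Bdd k → ∫ d : ι → P.W.C, k (d t) * F d ∂(D r P.W).μ =
      ∫ d : ι → P.W.C, cl r P.W s (fun w => cE (D r P.W).μ (P.y.side s)
        (fun d : (D r P.W).C => k (d s)) (P.y.side s w)) (d t) * F d ∂(D r P.W).μ) :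
    cl r P.W t F ∈ Exa P r s := by
  have hΨ : Bdd (cl r P.W t F) := hF.clG r P.W t
  have hm := Sat.measurable_side P.y s
  refine exa_of_test hΨ ?_
  have hk : Bdd (fun a => (starRingEnd ℂ) (cl r P.W t F a)) := hΨ.star
  have hks : Bdd (fun d : (D r P.W).C => (starRingEnd ℂ) (cl r P.W t F (d s))) :=
    hk.comp (measurable_pi_apply s)
  have hQ : Bdd (fun w : ι → P.W.C => cE (D r P.W).μ (P.y.side s)
      (fun d : (D r P.W).C => (starRingEnd ℂ) (cl r P.W t F (d s))) (P.y.side s w)) :=
    (hks.cE (μ := (D r P.W).μ) (g := P.y.side s)).comp hm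
  have h1 := h _ hk
  have h2 := integral_mul_cl r P.W t hF hk
  have h3 := integral_mul_cl r P.W t hF (hQ.clG r P.W s)
  have h4 := integral_mul_cl r P.W s hQ hΨ
  calc ∫ a, (starRingEnd ℂ) (cl r P.W t F a) * cl r P.W t F a ∂P.W.μ
      = _ := h2.symm
    _ = _ := h1
    _ = _ := h3
    _ = ∫ a, cl r P.W t F a * cl r P.W s (fun w : ι → P.W.C => cE (D r P.W).μ (P.y.side s)
      (fun d : (D r P.W).C => (starRingEnd ℂ) (cl r P.W t F (d s))) (P.y.side s w)) a ∂P.W.μ := by
        simp only [mul_comm]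
    _ = _ := h4.symm
    _ = _ := by simp only [mul_comm]

theorem b_ideal_of (hL : B_LINE Γ) : B_IDEAL Γ := by
  intro X P ι _ _ r _ hK hM hN s t b htb f hf Φ hΦ
  obtain ⟨hΦb, g0, hg0, hg0e⟩ := hΦ
  have hl := hL X P ι r hM hK b
  obtain ⟨C, hC⟩ := hΦb.2
  -- a bounded version of `g0`
  let g : ({j : ι // j ≠ s} → P.W.C) × P.Y.C → ℂ := {z | ‖g0 z‖ ≤ C}.indicator g0
  have hgm : Measurable g := hg0.indicator (measurableSet_le hg0.norm measurable_const)
  have hgb : Bdd g := by
    refine ⟨hgm, max C 0, fun z => ?_⟩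
    by_cases hz : z ∈ {z | ‖g0 z‖ ≤ C}
    · simp only [g, Set.indicator_of_mem hz]; exact (Set.mem_ofPred_eq ▸ hz).trans (le_max_left _ _)
    · simp only [g, Set.indicator_of_notMem hz]; simp
  have hge : ∀ᵐ d ∂(D r P.W).μ, Φ (d s) = g (P.y.side s d) := by
    filter_upwards [hg0e] with d hd
    have hz : P.y.side s d ∈ {z | ‖g0 z‖ ≤ C} := by
      show ‖g0 (P.y.side s d)‖ ≤ C
      rw [← hd]; exact hC _
    simp only [g, Set.indicator_of_mem hz]
    exact hd
  have hfp : Bdd (fun d : ι → P.W.C => ∏ a ∈ (Finset.univ.erase t).erase b, f a (d a)) :=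
    bdd_prod_coord _ hf
  have hF : Bdd (fun d : ι → P.W.C => (∏ a ∈ (Finset.univ.erase t).erase b, f a (d a)) *
      Φ (d b)) := hfp.mul (hΦb.comp (measurable_pi_apply b))
  refine exa_end hF fun k hk => ?_
  -- the side function
  let u : ({j : ι // j ≠ s} → (D r P.W).C) × (YC P t b) → ℂ := fun z =>
    (∏ a : {a : ι // a ≠ t ∧ a ≠ b}, f a (z.2.1 a)) * g (fun j => z.1 j b, z.2.2.2)
  have hu : Bdd u := by
    refine Bdd.mul ?_ (hgb.comp ?_)
    · exact Bdd.prod _ (f := fun (a : {a : ι // a ≠ t ∧ a ≠ b})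
        (z : ({j : ι // j ≠ s} → (D r P.W).C) × (YC P t b)) => f a (z.2.1 a)) fun a _ =>
        (hf a).comp ((measurable_pi_apply a).comp (measurable_fst.comp measurable_snd))
    · have h1 : Measurable (fun z : ({j : ι // j ≠ s} → (D r P.W).C) × (YC P t b) =>
          (fun j => z.1 j b : {j : ι // j ≠ s} → P.W.C)) :=
        measurable_pi_lambda _ fun j =>
          (measurable_pi_apply b).comp ((measurable_pi_apply j).comp measurable_fst)
      exact h1.prodMk (measurable_snd.comp (measurable_snd.comp measurable_snd))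
  have hprod : ∀ w : ι → P.W.C, ∏ a ∈ (Finset.univ.erase t).erase b, f a (w a) =
      ∏ a : {a : ι // a ≠ t ∧ a ≠ b}, f a (w a) := by
    intro w
    rw [Finset.prod_subtype ((Finset.univ.erase t).erase b) (p := fun j => j ≠ t ∧ j ≠ b)
      (by intro j; simp [and_comm])]
  have hue : ∀ᵐ d ∂(D r (D r P.W)).μ, (∏ a ∈ (Finset.univ.erase t).erase b, f a (d s a)) *
      Φ (d s b) = u ((extAdm P r t b hl htb).y.side s d) := by
    have h1 := (colF r P.W b).mp.quasiMeasurePreserving.ae hge
    filter_upwards [h1] with d hd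
    have hd' : Φ (d s b) = g (P.y.side s (fun o => d o b)) := hd
    exact congrArg₂ (fun x y : ℂ => x * y) (hprod (d s)) hd'
  have e1 : ∫ d : ι → P.W.C, k (d t) * ((∏ a ∈ (Finset.univ.erase t).erase b, f a (d a)) *
      Φ (d b)) ∂(D r P.W).μ = ∫ d : ι → ι → P.W.C, k (d s t) *
      ((∏ a ∈ (Finset.univ.erase t).erase b, f a (d s a)) * Φ (d s b)) ∂(D r (D r P.W)).μ :=
    ((rowF r P.W s).integral_comp (H := fun d : ι → P.W.C => k (d t) *
      ((∏ a ∈ (Finset.univ.erase t).erase b, f a (d a)) * Φ (d b)))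
      ((hk.comp (measurable_pi_apply t)).mul hF)).symm
  have e2 := (hN s).integral_cE (extExt P r t b hl htb) hk hu
  have hkt : Bdd (fun d : (D r P.W).C => k (d s)) := hk.comp (measurable_pi_apply s)
  have hQ : Bdd (fun w : ι → P.W.C => cE (D r P.W).μ (P.y.side s)
      (fun d : (D r P.W).C => k (d s)) (P.y.side s w)) :=
    (hkt.cE (μ := (D r P.W).μ) (g := P.y.side s)).comp (Sat.measurable_side P.y s)
  have e3 := integral_row_col r (evF r P.W t) s (fun d : ι → P.W.C =>
    (∏ a ∈ (Finset.univ.erase t).erase b, f a (d a)) * Φ (d b)) hF _ hQ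
  rw [e1]
  calc ∫ d : ι → ι → P.W.C, k (d s t) *
      ((∏ a ∈ (Finset.univ.erase t).erase b, f a (d s a)) * Φ (d s b)) ∂(D r (D r P.W)).μ
      = ∫ d : ι → ι → P.W.C, k (d s t) * u ((extAdm P r t b hl htb).y.side s d)
          ∂(D r (D r P.W)).μ := by
        refine integral_congr_ae ?_
        filter_upwards [hue] with d hd
        rw [hd]
    _ = ∫ d : ι → ι → P.W.C, cE (D r P.W).μ (P.y.side s) (fun d : (D r P.W).C => k (d s))
          (P.y.side s (fun o => d o t)) * u ((extAdm P r t b hl htb).y.side s d)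
          ∂(D r (D r P.W)).μ := e2
    _ = ∫ d : ι → ι → P.W.C, ((∏ a ∈ (Finset.univ.erase t).erase b, f a (d s a)) *
          Φ (d s b)) * cE (D r P.W).μ (P.y.side s) (fun d : (D r P.W).C => k (d s))
          (P.y.side s (fun o => d o t)) ∂(D r (D r P.W)).μ := by
        refine integral_congr_ae ?_
        filter_upwards [hue] with d hd
        rw [hd, mul_comm]
    _ = _ := e3
    _ = _ := integral_congr_ae (ae_of_all _ fun d => mul_comm _ _)

/-- two different points of a line: the whole first point is independent of the `X`-part of the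
second one -/
theorem ind_two (P : Adm X) (r : Ultrafilter (ι → Γ)) {t b c : ι} (hl : LineInd r P.y c)
    (htc : t ≠ c) (hbc : b ≠ c) (htb : t ≠ b) :
    IndepFun (evF r P.W t).f (P.x.comp (evF r P.W b)).f (D r P.W).μ := by
  have hx : Measurable (fun d : ι → P.W.C => P.x.f (d b)) := P.x.meas.comp (measurable_pi_apply b)
  have hw : Measurable (fun (d : ι → P.W.C) (_ : Unit) => d t) :=
    measurable_pi_lambda _ fun _ => measurable_pi_apply t
  have key : IndepFun (fun d : ι → P.W.C => P.x.f (d b))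
      (fun d : ι → P.W.C => ((fun _ : Unit => d t), ())) (D r P.W).μ := by
    refine indepFun_of_integrals (μ := (D r P.W).μ) hx hw measurable_const
      fun φ f g hφ hf hg => ?_
    have ht : t ∈ (Finset.univ.erase c).erase b := by simp [htb, htc]
    have hb : b ∈ Finset.univ.erase c := by simp [hbc]
    have test : ∀ u v : P.W.C → ℂ, Bdd u → Bdd v →
        ∫ d : ι → P.W.C, u (d b) * v (d t) ∂(D r P.W).μ =
          ∫ d : ι → P.W.C, P.y.ce u (P.y.f (d b)) * P.y.ce v (P.y.f (d t)) ∂(D r P.W).μ := by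
      intro u v hu hv
      let G : ι → P.W.C → ℂ := fun j => if j = b then u else if j = t then v else fun _ => 1
      have hG : ∀ j, Bdd (G j) := by
        intro j
        by_cases h1 : j = b
        · simp only [G, h1, if_true]; exact hu
        · by_cases h2 : j = t
          · simp only [G, h2, if_neg htb, if_true]; exact hv
          · simp only [G, h1, h2, if_false]; exact Bdd.const 1
      have k1 := hl G (fun _ => 1) hG (Bdd.const 1)
      have hone : ∀ y, P.y.ce (fun _ => (1 : ℂ)) y = 1 := by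
        intro y
        unfold Fac.ce
        simp
      have e1 : ∀ d : ι → P.W.C, (1 : ℂ) * ∏ j ∈ Finset.univ.erase c, G j (d j) =
          u (d b) * v (d t) := by
        intro d
        rw [← Finset.mul_prod_erase _ _ hb, ← Finset.mul_prod_erase _ _ ht,
          Finset.prod_eq_one]
        · simp [G, htb]
        · intro j hj
          simp only [Finset.mem_erase, Finset.mem_univ, and_true] at hj
          simp [G, hj.1, hj.2.1]
      have e2 : ∀ d : ι → P.W.C, (1 : ℂ) * ∏ j ∈ Finset.univ.erase c,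
          P.y.ce (G j) (P.y.f (d j)) = P.y.ce u (P.y.f (d b)) * P.y.ce v (P.y.f (d t)) := by
        intro d
        rw [← Finset.mul_prod_erase _ _ hb, ← Finset.mul_prod_erase _ _ ht,
          Finset.prod_eq_one]
        · simp [G, htb]
        · intro j hj
          simp only [Finset.mem_erase, Finset.mem_univ, and_true] at hj
          simp only [G, hj.1, hj.2.1, if_false]
          exact hone _
      simp only [e1, e2] at k1
      exact k1
    have hfv : Bdd (fun a : P.W.C => f () a * g ()) := (hf ()).mul (Bdd.const _)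
    have k1 := test (fun w => φ (P.x.f w)) _ (hφ.comp P.x.meas) hfv
    have k2 : ∫ d : ι → P.W.C, P.y.ce (fun a : P.W.C => f () a * g ()) (P.y.f (d t))
        ∂(D r P.W).μ = ∫ d : ι → P.W.C, f () (d t) * g () ∂(D r P.W).μ := by
      have h1 := (P.y.comp (evF r P.W t)).integral_comp (hfv.ceG P.y)
      have h2 := (evF r P.W t).integral_comp hfv
      have h3 := P.y.integral_mul_ce hfv (Bdd.const 1)
      simp only [one_mul] at h3
      exact h1.trans (h3.symm.trans h2.symm)
    have hev : ∫ d : ι → P.W.C, φ (P.x.f (d b)) ∂(D r P.W).μ = ∫ a, φ (P.x.f a) ∂P.W.μ :=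
      (evF r P.W b).integral_comp (H := fun a => φ (P.x.f a)) (hφ.comp P.x.meas)
    have hconst := (P.y.comp (evF r P.W b)).mp.quasiMeasurePreserving.ae (ce_x_const P hφ)
    simp only [Finset.univ_unique, Finset.prod_singleton]
    rw [hev]
    have e3 : ∫ d : ι → P.W.C, P.y.ce (fun w => φ (P.x.f w)) (P.y.f (d b)) *
        P.y.ce (fun a : P.W.C => f () a * g ()) (P.y.f (d t)) ∂(D r P.W).μ =
        ∫ d : ι → P.W.C, (∫ a, φ (P.x.f a) ∂P.W.μ) *
        P.y.ce (fun a : P.W.C => f () a * g ()) (P.y.f (d t)) ∂(D r P.W).μ := by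
      refine integral_congr_ae ?_
      filter_upwards [hconst] with d hd
      have hd' : P.y.ce (fun w => φ (P.x.f w)) (P.y.f (d b)) = ∫ a, φ (P.x.f a) ∂P.W.μ := hd
      rw [hd']
    rw [integral_const_mul, k2] at e3
    exact k1.trans e3
  exact (key.comp measurable_id ((measurable_pi_apply ()).comp measurable_fst)).symm

theorem b_the_of (hL : B_LINE Γ) : B_THE Γ := by
  intro X P ι _ _ r h3 hK hM hN s t b htb f g hf hg
  have hl := hL X P ι r hM hK b
  -- a third slot
  obtain ⟨c, hc⟩ : ∃ c : ι, c ∉ ({t, b} : Finset ι) := by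
    by_contra hcon
    push Not at hcon
    have h1 : Fintype.card ι ≤ ({t, b} : Finset ι).card := by
      rw [← Finset.card_univ]
      exact Finset.card_le_card fun c _ => hcon c
    have h2 := Finset.card_le_two (a := t) (b := b)
    omega
  have hct : t ≠ c := by rintro rfl; simp at hc
  have hcb : b ≠ c := by rintro rfl; simp at hc
  have hI := ind_two P r (hL X P ι r hM hK c) hct hcb htb
  have hfp : Bdd (fun d : ι → P.W.C => ∏ a ∈ (Finset.univ.erase t).erase b, f a (d a)) :=
    bdd_prod_coord _ hf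
  have hgp : Bdd (fun e : ι → X.C => ∏ o ∈ Finset.univ.erase s, g o (e o)) :=
    bdd_prod_coord _ hg
  have hψ : Bdd (cl r X s (fun e => ∏ o ∈ Finset.univ.erase s, g o (e o))) := hgp.clG r X s
  have hF : Bdd (fun d : ι → P.W.C => (∏ a ∈ (Finset.univ.erase t).erase b, f a (d a)) *
      cl r X s (fun e => ∏ o ∈ Finset.univ.erase s, g o (e o)) (P.x.f (d b))) :=
    hfp.mul (hψ.comp (P.x.meas.comp (measurable_pi_apply b)))
  refine exa_end hF fun k hk => ?_
  -- the side function
  let u : ({j : ι // j ≠ s} → (D r P.W).C) × (YC P t b) → ℂ := fun z =>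
    (∏ a : {a : ι // a ≠ t ∧ a ≠ b}, f a (z.2.1 a)) *
      ∏ o : {j : ι // j ≠ s}, g o (P.x.f (z.1 o b))
  have hu : Bdd u := by
    refine Bdd.mul ?_ ?_
    · exact Bdd.prod _ (f := fun (a : {a : ι // a ≠ t ∧ a ≠ b})
        (z : ({j : ι // j ≠ s} → (D r P.W).C) × (YC P t b)) => f a (z.2.1 a)) fun a _ =>
        (hf a).comp ((measurable_pi_apply a).comp (measurable_fst.comp measurable_snd))
    · exact Bdd.prod _ (f := fun (o : {j : ι // j ≠ s})
        (z : ({j : ι // j ≠ s} → (D r P.W).C) × (YC P t b)) => g o (P.x.f (z.1 o b))) fun o _ =>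
        (hg o).comp (P.x.meas.comp
          ((measurable_pi_apply b).comp ((measurable_pi_apply o).comp measurable_fst)))
  have hprod : ∀ w : ι → P.W.C, ∏ a ∈ (Finset.univ.erase t).erase b, f a (w a) =
      ∏ a : {a : ι // a ≠ t ∧ a ≠ b}, f a (w a) := by
    intro w
    rw [Finset.prod_subtype ((Finset.univ.erase t).erase b) (p := fun j => j ≠ t ∧ j ≠ b)
      (by intro j; simp [and_comm])]
  have hprod2 : ∀ w : ι → X.C, ∏ o ∈ Finset.univ.erase s, g o (w o) =
      ∏ o : {j : ι // j ≠ s}, g o (w o) := by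
    intro w
    rw [Finset.prod_subtype (Finset.univ.erase s) (p := fun j => j ≠ s) (by intro j; simp)]
  have hue : ∀ d : ι → ι → P.W.C, (∏ a ∈ (Finset.univ.erase t).erase b, f a (d s a)) *
      ∏ o ∈ Finset.univ.erase s, g o (P.x.f (d o b)) =
        u ((extAdm P r t b hl htb).y.side s d) := fun d =>
    congrArg₂ (fun x y : ℂ => x * y) (hprod (d s)) (hprod2 fun o => P.x.f (d o b))
  have hkF : Bdd (fun d : ι → P.W.C => k (d t) *
      ∏ a ∈ (Finset.univ.erase t).erase b, f a (d a)) :=
    (hk.comp (measurable_pi_apply t)).mul hfp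
  -- left-hand side
  have e1 := integral_row_col r (P.x.comp (evF r P.W b)) s (fun d : ι → P.W.C => k (d t) *
      ∏ a ∈ (Finset.univ.erase t).erase b, f a (d a)) hkF _ hgp
  have e2 := (hN s).integral_cE (extExt P r t b hl htb) hk hu
  have hkt : Bdd (fun d : (D r P.W).C => k (d s)) := hk.comp (measurable_pi_apply s)
  have hQ : Bdd (fun w : ι → P.W.C => cE (D r P.W).μ (P.y.side s)
      (fun d : (D r P.W).C => k (d s)) (P.y.side s w)) :=
    (hkt.cE (μ := (D r P.W).μ) (g := P.y.side s)).comp (Sat.measurable_side P.y s)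
  have e3 := integral_row_two r (evF r P.W t) (P.x.comp (evF r P.W b)) hI s
    (fun d : ι → P.W.C => ∏ a ∈ (Finset.univ.erase t).erase b, f a (d a)) hfp _ hQ _ hgp
  calc ∫ d : ι → P.W.C, k (d t) * ((∏ a ∈ (Finset.univ.erase t).erase b, f a (d a)) *
      cl r X s (fun e => ∏ o ∈ Finset.univ.erase s, g o (e o)) (P.x.f (d b))) ∂(D r P.W).μ
      = ∫ d : ι → P.W.C, (k (d t) * ∏ a ∈ (Finset.univ.erase t).erase b, f a (d a)) *
        cl r X s (fun e => ∏ o ∈ Finset.univ.erase s, g o (e o)) (P.x.f (d b)) ∂(D r P.W).μ :=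
        integral_congr_ae (ae_of_all _ fun d => (mul_assoc _ _ _).symm)
    _ = ∫ d : ι → ι → P.W.C, (k (d s t) * ∏ a ∈ (Finset.univ.erase t).erase b, f a (d s a)) *
        ∏ o ∈ Finset.univ.erase s, g o (P.x.f (d o b)) ∂(D r (D r P.W)).μ := e1.symm
    _ = ∫ d : ι → ι → P.W.C, k (d s t) * u ((extAdm P r t b hl htb).y.side s d)
          ∂(D r (D r P.W)).μ := by
        refine integral_congr_ae (ae_of_all _ fun d => ?_)
        show _ = k (d s t) * u ((extAdm P r t b hl htb).y.side s d)
        rw [← hue d]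
        exact mul_assoc _ _ _
    _ = ∫ d : ι → ι → P.W.C, cE (D r P.W).μ (P.y.side s) (fun d : (D r P.W).C => k (d s))
          (P.y.side s (fun o => d o t)) * u ((extAdm P r t b hl htb).y.side s d)
          ∂(D r (D r P.W)).μ := e2
    _ = ∫ d : ι → ι → P.W.C, (∏ a ∈ (Finset.univ.erase t).erase b, f a (d s a)) *
          (cE (D r P.W).μ (P.y.side s) (fun d : (D r P.W).C => k (d s))
          (P.y.side s (fun o => d o t)) * ∏ o ∈ Finset.univ.erase s, g o (P.x.f (d o b)))
          ∂(D r (D r P.W)).μ := by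
        refine integral_congr_ae (ae_of_all _ fun d => ?_)
        show cE (D r P.W).μ (P.y.side s) (fun d : (D r P.W).C => k (d s))
          (P.y.side s (fun o => d o t)) * u ((extAdm P r t b hl htb).y.side s d) = _
        rw [← hue d]
        exact mul_left_comm _ _ _
    _ = _ := e3
    _ = _ := by
        refine integral_congr_ae (ae_of_all _ fun d => ?_)
        exact mul_left_comm _ _ _

end Vale.Agent.N102G.H244

end

section
/-!
P102, block GRID, part 2: the `x`-line outside one slot and the `x`-grid outside one row and one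
column are i.i.d. and independent of the `y`-line, `y`-grid.
-/

namespace Vale.Agent.N102G

open Vale.Agent.P102.RM
variable {Γ : Type} [AddCommGroup Γ]

open MeasureTheory Filter Topology ProbabilityTheory

section lim
variable {ι : Type} [Fintype ι] [DecidableEq ι]

/-! ### The `x`-line -/

/-- the law of the `x`-line outside slot `s` is the product -/
theorem KInd.map_eq {r : Ultrafilter (ι → Γ)} {X : Sys Γ} (hk : KInd r X) (s : ι) :
    (D r X).μ.map (fun (d : ι → X.C) (j : {j : ι // j ≠ s}) => d j)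
      = Measure.pi fun _ => X.μ := by
  refine map_eq_pi_of_integral (D r X).μ (fun _ : {j : ι // j ≠ s} => X.μ)
    (fun j (d : ι → X.C) => d j) (fun j => measurable_pi_apply _) fun φ hφ => ?_
  have h1 := hk s (fun i => if h : i ≠ s then φ ⟨i, h⟩ else fun _ => 1) (by
    intro i
    by_cases h : i ≠ s
    · rw [dif_pos h]; exact hφ _
    · rw [dif_neg h]; exact Bdd.const 1)
  have h2 : ∀ g : ι → ℂ, ∏ i ∈ Finset.univ.erase s, g i = ∏ j : {j : ι // j ≠ s}, g j := by
    intro g
    rw [← Finset.prod_subtype (Finset.univ.erase s) (p := fun j => j ≠ s) (by simp)]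
  rw [h2] at h1
  simp only [h2] at h1
  have h3 : ∀ j : {j : ι // j ≠ s}, (if h : (j : ι) ≠ s then φ ⟨j, h⟩ else fun _ => 1) = φ j := by
    intro j
    rw [dif_pos j.2]
  simp only [h3] at h1
  exact h1

theorem KInd.iIndepFun {r : Ultrafilter (ι → Γ)} {X : Sys Γ} (hk : KInd r X) (s : ι) :
    ProbabilityTheory.iIndepFun (fun (j : {j : ι // j ≠ s}) (d : ι → X.C) => d j) (D r X).μ := by
  rw [iIndepFun_iff_map_fun_eq_pi_map (fun j => (measurable_pi_apply _).aemeasurable)]
  rw [hk.map_eq s]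
  congr 1
  funext j
  exact (limM_map_eval r X j).symm

/-! ### The `x`-grid -/

/-- the points of the `x`-grid outside row `s` and column `s'` : integral form -/
theorem KInd.grid_integral {r : Ultrafilter (ι → Γ)} {X : Sys Γ} (hk : KInd r X) (s s' : ι)
    (φ : ι → ι → X.C → ℂ) (hφ : ∀ i j, Bdd (φ i j)) :
    ∫ d, ∏ i ∈ Finset.univ.erase s, ∏ j ∈ Finset.univ.erase s', φ i j (d i j) ∂(D r (D r X)).μ
      = ∏ i ∈ Finset.univ.erase s, ∏ j ∈ Finset.univ.erase s', ∫ x, φ i j x ∂X.μ := by
  have h1 := tendsto_limM_finset r (D r X) (Finset.univ.erase s)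
    (fun i (e : ι → X.C) => ∏ j ∈ Finset.univ.erase s', φ i j (e j))
    (fun i _ => Bdd.prod _ fun j _ => (hφ i j).comp (measurable_pi_apply j))
  have h2 : ∀ t : ι → Γ, ∫ e : ι → X.C, ∏ i ∈ Finset.univ.erase s,
      ∏ j ∈ Finset.univ.erase s', φ i j (iter (D r X).S (t i) e j) ∂(D r X).μ
      = ∏ j ∈ Finset.univ.erase s', ∫ x, ∏ i ∈ Finset.univ.erase s, φ i j (iter X.S (t i) x) ∂X.μ := by
    intro t
    have h3 : ∀ e : ι → X.C, ∏ i ∈ Finset.univ.erase s,
        ∏ j ∈ Finset.univ.erase s', φ i j (iter (D r X).S (t i) e j)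
        = ∏ j ∈ Finset.univ.erase s', (fun x => ∏ i ∈ Finset.univ.erase s, φ i j (iter X.S (t i) x)) (e j) := by
      intro e
      rw [Finset.prod_comm]
      refine Finset.prod_congr rfl fun j _ => Finset.prod_congr rfl fun i _ => ?_
      rfl
    simp only [h3]
    exact hk s' (fun j x => ∏ i ∈ Finset.univ.erase s, φ i j (iter X.S (t i) x))
      (fun j => Bdd.prod _ fun i _ => (hφ i j).comp (measurable_iter X.S (t i)))
  simp only [h2] at h1
  have h4 : ∀ j, Tendsto (fun t : ι → Γ =>
      ∫ x, ∏ i ∈ Finset.univ.erase s, φ i j (iter X.S (t i) x) ∂X.μ) r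
      (𝓝 (∏ i ∈ Finset.univ.erase s, ∫ x, φ i j x ∂X.μ)) := by
    intro j
    have h5 := tendsto_limM_finset r X (Finset.univ.erase s) (fun i => φ i j) (fun i _ => hφ i j)
    rwa [hk s (fun i => φ i j) (fun i => hφ i j)] at h5
  have h6 := tendsto_finsetProd (Finset.univ.erase s') fun j (_ : j ∈ Finset.univ.erase s') => h4 j
  rw [Finset.prod_comm (s := Finset.univ.erase s)]
  exact tendsto_nhds_unique h1 h6

/-- index set of the grid outside row `s` and column `s'` -/
abbrev GIx (s s' : ι) : Type := {c : ι × ι // c.1 ≠ s ∧ c.2 ≠ s'}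

omit [Fintype ι] in
theorem prod_GIx [Fintype ι] {M : Type*} [CommMonoid M] (s s' : ι) (g : ι → ι → M) :
    ∏ i ∈ Finset.univ.erase s, ∏ j ∈ Finset.univ.erase s', g i j
      = ∏ c : GIx s s', g c.1.1 c.1.2 := by
  rw [← Finset.prod_product' (Finset.univ.erase s) (Finset.univ.erase s') g]
  rw [← Finset.prod_subtype (Finset.univ.erase s ×ˢ Finset.univ.erase s')
    (p := fun c : ι × ι => c.1 ≠ s ∧ c.2 ≠ s') (f := fun c : ι × ι => g c.1 c.2)]
  intro c
  simp [Finset.mem_product]

/-- the law of the `x`-grid outside row `s` and column `s'` is the product -/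
theorem KInd.grid_map_eq {r : Ultrafilter (ι → Γ)} {X : Sys Γ} (hk : KInd r X) (s s' : ι) :
    (D r (D r X)).μ.map (fun (d : ι → ι → X.C) (c : GIx s s') => d c.1.1 c.1.2)
      = Measure.pi fun _ => X.μ := by
  refine map_eq_pi_of_integral (D r (D r X)).μ (fun _ : GIx s s' => X.μ)
    (fun c (d : ι → ι → X.C) => d c.1.1 c.1.2)
    (fun c => (measurable_pi_apply _).comp (measurable_pi_apply _)) fun φ hφ => ?_
  have h1 := hk.grid_integral s s' (fun i j => if h : i ≠ s ∧ j ≠ s' then φ ⟨(i, j), h⟩ else fun _ => 1)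
    (by
      intro i j
      by_cases h : i ≠ s ∧ j ≠ s'
      · rw [dif_pos h]; exact hφ _
      · rw [dif_neg h]; exact Bdd.const 1)
  rw [prod_GIx] at h1
  simp only [prod_GIx s s'] at h1
  have h3 : ∀ c : GIx s s', (if h : c.1.1 ≠ s ∧ c.1.2 ≠ s' then φ ⟨(c.1.1, c.1.2), h⟩ else fun _ => 1)
      = φ c := by
    intro c
    rw [dif_pos c.2]
  simp only [h3] at h1
  exact h1

theorem KInd.grid_iIndepFun {r : Ultrafilter (ι → Γ)} {X : Sys Γ} (hk : KInd r X) (s s' : ι) :
    ProbabilityTheory.iIndepFun (fun (c : GIx s s') (d : ι → ι → X.C) => d c.1.1 c.1.2)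
      (D r (D r X)).μ := by
  have hmc : ∀ c : GIx s s', Measurable (fun d : ι → ι → X.C => d c.1.1 c.1.2) := fun c =>
    (measurable_pi_apply _).comp (measurable_pi_apply _)
  rw [iIndepFun_iff_map_fun_eq_pi_map (fun c => (hmc c).aemeasurable)]
  rw [hk.grid_map_eq s s']
  congr 1
  funext c
  have h1 := ((evF r X c.1.2).comp (rowF r X c.1.1)).mp.map_eq
  exact h1.symm

/-! ### Together with the base points -/

variable {r : Ultrafilter (ι → Γ)} {X Z Y : Sys Γ}

/-- law of the `x`-line outside slot `s` -/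
theorem xline_map_eq (hk : KInd r X) (x : Fac Z X) (s : ι) :
    (D r Z).μ.map (fun (d : ι → Z.C) (j : {j : ι // j ≠ s}) => x.f (d j))
      = Measure.pi fun _ => X.μ := by
  have hm1 : Measurable (fun (d : ι → X.C) (j : {j : ι // j ≠ s}) => d j) :=
    measurable_pi_lambda _ fun j => measurable_pi_apply _
  rw [← hk.map_eq s, ← (x.D r).mp.map_eq, Measure.map_map hm1 (x.D r).mp.measurable]
  rfl

/-- `x`-line outside slot `s` is i.i.d. -/
theorem xline_iIndepFun (hk : KInd r X) (x : Fac Z X) (s : ι) :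
    ProbabilityTheory.iIndepFun (fun (j : {j : ι // j ≠ s}) (d : ι → Z.C) => x.f (d j)) (D r Z).μ := by
  have hmj : ∀ j : {j : ι // j ≠ s}, Measurable (fun d : ι → Z.C => x.f (d j)) := fun j =>
    x.meas.comp (measurable_pi_apply _)
  rw [iIndepFun_iff_map_fun_eq_pi_map (fun j => (hmj j).aemeasurable)]
  rw [xline_map_eq hk x s]
  congr 1
  funext j
  exact (x.comp (evF r Z j)).mp.map_eq.symm

omit [DecidableEq ι] in
theorem xline_indepFun (x : Fac Z X) (y : Fac Z Y) (h : IndepFun x.f y.f Z.μ) (s : ι) :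
    IndepFun (fun (d : ι → Z.C) (j : {j : ι // j ≠ s}) => x.f (d j))
      (fun (d : ι → Z.C) i => y.f (d i)) (D r Z).μ := by
  have h1 := indep_D r x y h
  have hm1 : Measurable (fun (d : ι → X.C) (j : {j : ι // j ≠ s}) => d j) :=
    measurable_pi_lambda _ fun j => measurable_pi_apply _
  exact h1.comp hm1 measurable_id

/-- **x-line outside `s` together with the y-line**: the hypothesis of the upgrade lemma -/
theorem xline_iIndep (hk : KInd r X) (x : Fac Z X) (y : Fac Z Y) (h : IndepFun x.f y.f Z.μ)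
    (s : ι) : iIndep (fun o : Option {j : ι // j ≠ s} => o.elim
      (MeasurableSpace.comap (fun (d : ι → Z.C) i => y.f (d i)) inferInstance)
      (fun j => MeasurableSpace.comap (fun d : ι → Z.C => x.f (d j)) inferInstance)) (D r Z).μ :=
  iIndep_option (xline_iIndepFun hk x s) (xline_indepFun x y h s)

/-- law of the `x`-grid outside row `s` and column `s'` -/
theorem xgrid_map_eq (hk : KInd r X) (x : Fac Z X) (s s' : ι) :
    (D r (D r Z)).μ.map (fun (d : ι → ι → Z.C) (c : GIx s s') => x.f (d c.1.1 c.1.2))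
      = Measure.pi fun _ => X.μ := by
  have hm1 : Measurable (fun (d : ι → ι → X.C) (c : GIx s s') => d c.1.1 c.1.2) :=
    measurable_pi_lambda _ fun c => (measurable_pi_apply _).comp (measurable_pi_apply _)
  rw [← hk.grid_map_eq s s', ← ((x.D r).D r).mp.map_eq,
    Measure.map_map hm1 ((x.D r).D r).mp.measurable]
  rfl

/-- `x`-grid outside row `s` and column `s'` is i.i.d. -/
theorem xgrid_iIndepFun (hk : KInd r X) (x : Fac Z X) (s s' : ι) :
    ProbabilityTheory.iIndepFun (fun (c : GIx s s') (d : ι → ι → Z.C) => x.f (d c.1.1 c.1.2))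
      (D r (D r Z)).μ := by
  have hmc' : ∀ c : GIx s s', Measurable (fun d : ι → ι → Z.C => x.f (d c.1.1 c.1.2)) := fun c =>
    x.meas.comp ((measurable_pi_apply _).comp (measurable_pi_apply _))
  rw [iIndepFun_iff_map_fun_eq_pi_map (fun c => (hmc' c).aemeasurable)]
  rw [xgrid_map_eq hk x s s']
  congr 1
  funext c
  exact ((x.comp (evF r Z c.1.2)).comp (rowF r Z c.1.1)).mp.map_eq.symm

omit [DecidableEq ι] in
theorem xgrid_indepFun (x : Fac Z X) (y : Fac Z Y) (h : IndepFun x.f y.f Z.μ) (s s' : ι) :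
    IndepFun (fun (d : ι → ι → Z.C) (c : GIx s s') => x.f (d c.1.1 c.1.2))
      (fun (d : ι → ι → Z.C) i j => y.f (d i j)) (D r (D r Z)).μ := by
  have h1 := indep_DD r x y h
  have hm1 : Measurable (fun (d : ι → ι → X.C) (c : GIx s s') => d c.1.1 c.1.2) :=
    measurable_pi_lambda _ fun c => (measurable_pi_apply _).comp (measurable_pi_apply _)
  exact h1.comp hm1 measurable_id

/-- **x-grid outside row `s` and column `s'` together with the y-grid**: the hypothesis of the
upgrade lemma -/
theorem xgrid_iIndep (hk : KInd r X) (x : Fac Z X) (y : Fac Z Y) (h : IndepFun x.f y.f Z.μ)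
    (s s' : ι) : iIndep (fun o : Option (GIx s s') => o.elim
      (MeasurableSpace.comap (fun (d : ι → ι → Z.C) i j => y.f (d i j)) inferInstance)
      (fun c => MeasurableSpace.comap (fun d : ι → ι → Z.C => x.f (d c.1.1 c.1.2)) inferInstance))
      (D r (D r Z)).μ :=
  iIndep_option (xgrid_iIndepFun hk x s s') (xgrid_indepFun x y h s s')

end lim

end Vale.Agent.N102G

end

section
/-!
P102, blocks LJ, D1-D4, and LINE, GRID from UP.
-/

namespace Vale.Agent.N102G

open Vale.Agent.P102.RM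
variable {Γ : Type} [AddCommGroup Γ]

open MeasureTheory Filter Topology ProbabilityTheory

theorem b_lj : B_LJ Γ := fun _ _ r A => exists_isLim r A

theorem b_d1 : B_D1 Γ := fun _ _ r A f hf => tendsto_limM r A f hf

theorem b_d2 : B_D2 Γ := fun _ _ r A i => (evF r A i).mp

theorem b_d3 : B_D3 Γ := fun _ _ r _ _ p => (p.D r).mp

theorem b_d4 : B_D4 Γ := fun _ _ r _ _ _ p p' h => indep_D r p p' h

theorem b_line (hUP : B_UP Γ) : B_LINE Γ := by
  intro X P ι _ _ r hM hk s f h hf hh
  have key := hUP X P hM (D r P.W) (D r P.Y) (P.y.D r) {j : ι // j ≠ s}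
    (fun c => evF r P.W c) (fun c e => e c) (fun c => measurable_pi_apply _)
    (fun c z => rfl) ?_ (fun c => f c) h (fun c => hf c) hh
  · have h2 : ∀ g : ι → ℂ, ∏ i ∈ Finset.univ.erase s, g i = ∏ j : {j : ι // j ≠ s}, g j := by
      intro g
      rw [← Finset.prod_subtype (Finset.univ.erase s) (p := fun j => j ≠ s) (by simp)]
    simp only [h2]
    exact key
  · intro φ h hφ hh
    exact integral_mul_prod_of_law (D r P.W).μ X.μ
      (fun (j : {j : ι // j ≠ s}) (d : ι → P.W.C) => P.x.f (d j)) (P.y.D r).f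
      (fun j => P.x.meas.comp (measurable_pi_apply _)) (P.y.D r).meas
      (xline_map_eq hk P.x s) (xline_indepFun P.x P.y P.ind s) φ h hφ hh

theorem b_grid (hUP : B_UP Γ) : B_GRID Γ := by
  intro X P ι _ _ r hM hk s s' f h hf hh
  have key := hUP X P hM (D r (D r P.W)) (D r (D r P.Y)) ((P.y.D r).D r) (GIx s s')
    (fun c => (evF r P.W c.1.2).comp (rowF r P.W c.1.1)) (fun c e => e c.1.1 c.1.2)
    (fun c => (measurable_pi_apply _).comp (measurable_pi_apply _))
    (fun c z => rfl) ?_ (fun c => f c.1.1 c.1.2) h (fun c => hf _ _) hh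
  · simp only [prod_GIx s s']
    exact key
  · intro φ h hφ hh
    exact integral_mul_prod_of_law (D r (D r P.W)).μ X.μ
      (fun (c : GIx s s') (d : ι → ι → P.W.C) => P.x.f (d c.1.1 c.1.2)) ((P.y.D r).D r).f
      (fun c => P.x.meas.comp ((measurable_pi_apply _).comp (measurable_pi_apply _)))
      ((P.y.D r).D r).meas
      (xgrid_map_eq hk P.x s s') (xgrid_indepFun P.x P.y P.ind s s') φ h hφ hh

end Vale.Agent.N102G

end

section
/-!
# P102, block UP : the upgrade lemma `b_up : B_UP`
-/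

namespace Vale.Agent.N102G

open Vale.Agent.P102.RM
variable {Γ : Type} [AddCommGroup Γ]

open MeasureTheory Filter Topology ProbabilityTheory

namespace Up972

open Vale.Agent.P102.RM.Up972

/-! ### The joint system of a finite family of factor maps -/

/-- a factor of `Z` -/
def FT (Z : Sys Γ) : Type 1 := Σ A : Sys Γ, Fac Z A

/-- the joint map -/
def jmap {Z : Sys Γ} {I : Type} (Q : I → FT Z) (z : Z.C) (i : I) : (Q i).1.C := (Q i).2.f z

theorem measurable_jmap {Z : Sys Γ} {I : Type} (Q : I → FT Z) : Measurable (jmap Q) :=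
  measurable_pi_lambda _ fun i => (Q i).2.meas

/-- the joint system -/
@[reducible] noncomputable def joint {Z : Sys Γ} {I : Type} [Countable I] (Q : I → FT Z) : Sys Γ :=
  Z.image (∀ i, (Q i).1.C) (jmap Q) (measurable_jmap Q)
    (Act.pi fun i => (Q i).1.S) (fun g z => by
      funext i
      exact (Q i).2.eqv g z)

/-- the factor map onto the joint system -/
noncomputable def jointF {Z : Sys Γ} {I : Type} [Countable I] (Q : I → FT Z) : Fac Z (joint Q) :=
  Z.imageFac (∀ i, (Q i).1.C) (jmap Q) (measurable_jmap Q)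
    (Act.pi fun i => (Q i).1.S) (fun g z => by
      funext i
      exact (Q i).2.eqv g z)

/-- the coordinate of the joint system -/
noncomputable def jointE {Z : Sys Γ} {I : Type} [Countable I] (Q : I → FT Z) (i : I) :
    Fac (joint Q) (Q i).1 where
  f := fun g => g i
  mp := by
    refine ⟨measurable_pi_apply i, ?_⟩
    show (Z.μ.map (jmap Q)).map (fun g => g i) = (Q i).1.μ
    rw [Measure.map_map (measurable_pi_apply i) (measurable_jmap Q)]
    exact (Q i).2.mp.map_eq
  eqv := fun _ _ => rfl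

theorem comap_jmap {Z : Sys Γ} {I : Type} (Q : I → FT Z) :
    MeasurableSpace.comap (jmap Q) MeasurableSpace.pi =
      ⨆ i, MeasurableSpace.comap (Q i).2.f inferInstance := by
  unfold MeasurableSpace.pi
  rw [MeasurableSpace.comap_iSup]
  refine iSup_congr fun i => ?_
  rw [MeasurableSpace.comap_comp]
  rfl

/-! ### The satedness hypothesis -/

section

variable {X : Sys Γ} {P : Adm X} {Z B : Sys Γ} {κ : Type} [DecidableEq κ]

/-- the factors at stage `s` -/
noncomputable def FQ (β : Fac Z B) (w : κ → Fac Z P.W) (s : Finset κ) : Option κ → FT Z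
  | none => ⟨B, β⟩
  | some d => if d ∈ s then ⟨P.W, w d⟩ else ⟨X, P.x.comp (w d)⟩

/-- the factors generating the side information at stage `(s, c)` -/
noncomputable def FQc (β : Fac Z B) (w : κ → Fac Z P.W) (s : Finset κ) (c : κ) :
    Option {o : Option κ // o ≠ some c} → FT Z
  | none => ⟨P.Y, P.y.comp (w c)⟩
  | some o => FQ β w s o.1

theorem comap_FQ (β : Fac Z B) (w : κ → Fac Z P.W) (s : Finset κ) (o : Option κ) :
    MeasurableSpace.comap (FQ β w s o).2.f inferInstance =
      mF (fun c => MeasurableSpace.comap (w c).f inferInstance)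
        (fun c => MeasurableSpace.comap (P.x.comp (w c)).f inferInstance)
        (MeasurableSpace.comap β.f inferInstance) s o := by
  cases o with
  | none => rfl
  | some d =>
    by_cases hd : d ∈ s
    · have h : FQ β w s (some d) = ⟨P.W, w d⟩ := if_pos hd
      rw [h]
      simp only [mF, mZ, hd, if_true]
    · have h : FQ β w s (some d) = ⟨X, P.x.comp (w d)⟩ := if_neg hd
      rw [h]
      simp only [mF, mZ, hd, if_false]

theorem comap_FQc [Fintype κ] (β : Fac Z B) (w : κ → Fac Z P.W) (s : Finset κ) (c : κ)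
    (hY : MeasurableSpace.comap (P.y.comp (w c)).f inferInstance ≤
      MeasurableSpace.comap β.f inferInstance) :
    MeasurableSpace.comap (jmap (FQc β w s c)) MeasurableSpace.pi =
      mG (fun c => MeasurableSpace.comap (w c).f inferInstance)
        (fun c => MeasurableSpace.comap (P.x.comp (w c)).f inferInstance)
        (MeasurableSpace.comap β.f inferInstance) s c := by
  rw [comap_jmap]
  apply le_antisymm
  · refine iSup_le fun i => ?_
    cases i with
    | none => exact hY.trans (base_le_mG s c)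
    | some o =>
      refine le_trans (le_of_eq (comap_FQ β w s o.1)) ?_
      exact mF_le_mG s c o.2
  · refine iSup₂_le fun o ho => ?_
    refine le_trans (le_of_eq (comap_FQ β w s o).symm) ?_
    exact le_iSup (fun i => MeasurableSpace.comap ((FQc β w s c) i).2.f inferInstance)
      (some ⟨o, by simpa using ho⟩)

theorem comap_comp_eq {Z A B : Sys Γ} (q : Fac A B) (p : Fac Z A) :
    MeasurableSpace.comap p.f (MeasurableSpace.comap q.f inferInstance) =
      MeasurableSpace.comap (q.comp p).f inferInstance := MeasurableSpace.comap_comp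

/-- `M`-satedness gives the conditional independence of `w_c` and the side information. -/
theorem sat_condExp [Fintype κ] (hP : SatM P) (β : Fac Z B) (w : κ → Fac Z P.W) (s : Finset κ)
    (c : κ)
    (hY : MeasurableSpace.comap (P.y.comp (w c)).f inferInstance ≤
      MeasurableSpace.comap β.f inferInstance)
    (hind : Indep (MeasurableSpace.comap (P.x.comp (w c)).f inferInstance)
      (mG (fun c => MeasurableSpace.comap (w c).f inferInstance)
        (fun c => MeasurableSpace.comap (P.x.comp (w c)).f inferInstance)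
        (MeasurableSpace.comap β.f inferInstance) s c) Z.μ)
    {F : Z.C → ℂ} (hF : BMC Z.μ (MeasurableSpace.comap (w c).f inferInstance) F) :
    Z.μ[F|mG (fun c => MeasurableSpace.comap (w c).f inferInstance)
        (fun c => MeasurableSpace.comap (P.x.comp (w c)).f inferInstance)
        (MeasurableSpace.comap β.f inferInstance) s c] =ᵐ[Z.μ]
      Z.μ[F|MeasurableSpace.comap (P.y.comp (w c)).f inferInstance] := by
  obtain ⟨f, hf, hFe⟩ := hF.exists_comp
  rw [← comap_FQc β w s c hY] at hind ⊢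
  -- the extension
  let P' : Adm X :=
    { W := Z
      Y := joint (FQc β w s c)
      x := P.x.comp (w c)
      y := jointF (FQc β w s c)
      ind := hind }
  let e : Ext P' P :=
    { w := w c
      v := jointE (FQc β w s c) none
      hx := ae_of_all _ fun _ => rfl
      hy := fun _ => rfl }
  have h1 := hP P' e f hf
  have hfi : MemLp (f ∘ (w c).f) 2 Z.μ := by
    obtain ⟨hm, K, hK⟩ := hf
    exact MemLp.of_bound (hm.comp (w c).meas).aestronglyMeasurable K
      (ae_of_all _ fun z => hK _)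
  have hfi' : Integrable f P.W.μ := by
    obtain ⟨hm, K, hK⟩ := hf
    exact Integrable.of_bound hm.aestronglyMeasurable K (ae_of_all _ hK)
  have h2 : P.M f = ∫ z, ‖(Z.μ[f ∘ (w c).f|MeasurableSpace.comap (P.y.comp (w c)).f
      inferInstance]) z‖ ^ 2 ∂Z.μ := by
    rw [← comap_comp_eq]
    exact (integral_normSq_condExp_comap (P.y.meas.comap_le) (w c).mp hfi').symm
  have hle : MeasurableSpace.comap (P.y.comp (w c)).f inferInstance ≤
      MeasurableSpace.comap (jmap (FQc β w s c)) MeasurableSpace.pi := by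
    rw [comap_jmap]
    exact le_iSup (fun i => MeasurableSpace.comap ((FQc β w s c) i).2.f inferInstance) none
  have h3 : Z.μ[f ∘ (w c).f|MeasurableSpace.comap (jmap (FQc β w s c)) MeasurableSpace.pi]
      =ᵐ[Z.μ] Z.μ[f ∘ (w c).f|MeasurableSpace.comap (P.y.comp (w c)).f inferInstance] := by
    refine condExp_ae_eq_of_norm_le hle (measurable_jmap _).comap_le hfi ?_
    rw [← h2]
    exact h1
  exact ((condExp_congr_ae hFe).trans h3).trans (condExp_congr_ae hFe).symm

/-- `E[f∘w | y]` in terms of the fibre measures. -/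
theorem condExp_comp_ce (w : Fac Z P.W) {f : P.W.C → ℂ} (hf : Bdd f) :
    Z.μ[fun z => f (w.f z)|MeasurableSpace.comap (P.y.comp w).f inferInstance] =ᵐ[Z.μ]
      fun z => P.y.ce f (P.y.f (w.f z)) := by
  have hfi' : Integrable f P.W.μ := by
    obtain ⟨hm, K, hK⟩ := hf
    exact Integrable.of_bound hm.aestronglyMeasurable K (ae_of_all _ hK)
  rw [← comap_comp_eq]
  have h1 := condExp_comp_comap (μ := P.W.μ) (μ' := Z.μ) (P.y.meas.comap_le) w.mp hfi'
  refine h1.trans ?_
  have h2 := condExp_ae_eq_integral_condDistrib_id (μ := P.W.μ) P.y.meas hfi'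
  exact w.mp.quasiMeasurePreserving.ae_eq_comp h2

end

/-- the sigma-algebras of the points -/
@[reducible] def cW {X : Sys Γ} {P : Adm X} {Z : Sys Γ} {κ : Type} (w : κ → Fac Z P.W) (c : κ) :
    MeasurableSpace Z.C := MeasurableSpace.comap (w c).f inferInstance

/-- the sigma-algebras of the `X`-parts -/
@[reducible] def cX {X : Sys Γ} {P : Adm X} {Z : Sys Γ} {κ : Type} (w : κ → Fac Z P.W) (c : κ) :
    MeasurableSpace Z.C := MeasurableSpace.comap (P.x.comp (w c)).f inferInstance

/-- the sigma-algebras of the `Y`-parts -/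
@[reducible] def cY {X : Sys Γ} {P : Adm X} {Z : Sys Γ} {κ : Type} (w : κ → Fac Z P.W) (c : κ) :
    MeasurableSpace Z.C := MeasurableSpace.comap (P.y.comp (w c)).f inferInstance

/-- the sigma-algebra of the base -/
@[reducible] def cB {Z B : Sys Γ} (β : Fac Z B) : MeasurableSpace Z.C :=
  MeasurableSpace.comap β.f inferInstance

end Up972

/-- **Upgrade lemma.** -/
theorem b_up : B_UP Γ := by
  intro X P hP Z B β κ _ _ w η hη hyη hind f h hf hh
  classical
  have hW : ∀ c, (Up972.cW w) c ≤ Z.mC := fun c => (w c).meas.comap_le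
  have hXW : ∀ c, (Up972.cX w) c ≤ (Up972.cW w) c := by
    intro c
    show MeasurableSpace.comap (P.x.comp (w c)).f inferInstance ≤ _
    rw [← Up972.comap_comp_eq]
    exact MeasurableSpace.comap_mono P.x.meas.comap_le
  have hYB : ∀ c, (Up972.cY w) c ≤ (Up972.cB β) := by
    intro c
    have e : (P.y.comp (w c)).f = η c ∘ β.f := by
      funext z
      exact hyη c z
    show MeasurableSpace.comap (P.y.comp (w c)).f inferInstance ≤ _
    rw [e, ← MeasurableSpace.comap_comp]
    exact MeasurableSpace.comap_mono (hη c).comap_le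
  have hB : (Up972.cB β) ≤ Z.mC := β.meas.comap_le
  have h0 : Up972.UpIC Z.μ (Up972.cW w) (Up972.cX w) (Up972.cY w) (Up972.cB β) ∅ := by
    intro F b hF hb
    have hF' : ∀ c, Up972.BMC Z.μ ((Up972.cX w) c) (F c) := fun c => by simpa [Up972.mZ] using hF c
    choose φ hφ hφe using fun c => (hF' c).exists_comp
    obtain ⟨b', hb', hbe⟩ := hb.exists_comp
    have hall : ∀ᵐ z ∂Z.μ, ∀ c, F c z = φ c ((P.x.comp (w c)).f z) := ae_all_iff.2 hφe
    have e1 : ∫ z, (∏ c, F c z) * b z ∂Z.μ =
        ∫ z, b' (β.f z) * ∏ c, φ c (P.x.f ((w c).f z)) ∂Z.μ := by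
      refine integral_congr_ae ?_
      filter_upwards [hall, hbe] with z h1 h2
      rw [h2, mul_comm]
      congr 1
      exact Finset.prod_congr rfl fun c _ => h1 c
    rw [e1, hind φ b' hφ hb']
    have e2 : ∀ c, ∫ x, φ c x ∂X.μ = ∫ z, F c z ∂Z.μ := by
      intro c
      rw [← (P.x.comp (w c)).mp.map_eq, integral_map (P.x.comp (w c)).meas.aemeasurable
        (hφ c).1.aestronglyMeasurable]
      exact integral_congr_ae (hφe c).symm
    have e3 : ∀ z, (∏ c, Up972.eUC Z.μ (Up972.cY w) ∅ F c z) * b z = (∏ c, ∫ x, φ c x ∂X.μ) * b z := by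
      intro z
      simp [Up972.eUC, e2]
    rw [integral_congr_ae (ae_of_all _ e3), integral_const_mul, mul_comm]
    congr 1
    exact integral_congr_ae hbe.symm
  have hsat : ∀ (s : Finset κ) (c : κ), c ∉ s → Indep ((Up972.cX w) c) (Up972.mG (Up972.cW w) (Up972.cX w) (Up972.cB β) s c) Z.μ →
      ∀ F, Up972.BMC Z.μ ((Up972.cW w) c) F → Z.μ[F|Up972.mG (Up972.cW w) (Up972.cX w) (Up972.cB β) s c] =ᵐ[Z.μ] Z.μ[F|(Up972.cY w) c] :=
    fun s c _ hi F hF => Up972.sat_condExp hP β w s c (hYB c) hi hF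
  have key := Up972.upgrade_integral hW hXW hYB hB h0 hsat
    (f := fun c z => f c ((w c).f z)) (b := fun z => h (β.f z))
    (fun c => Up972.BMC.of_comp (hf c)) (Up972.BMC.of_comp hh)
  calc ∫ z, h (β.f z) * ∏ c, f c ((w c).f z) ∂Z.μ
      = ∫ z, (∏ c, f c ((w c).f z)) * h (β.f z) ∂Z.μ := by simp_rw [mul_comm]
    _ = _ := key
    _ = ∫ z, h (β.f z) * ∏ c, P.y.ce (f c) (η c (β.f z)) ∂Z.μ := by
        have hall : ∀ᵐ z ∂Z.μ, ∀ c, (Z.μ[fun z => f c ((w c).f z)|(Up972.cY w) c]) z =
            P.y.ce (f c) (P.y.f ((w c).f z)) :=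
          ae_all_iff.2 fun c => Up972.condExp_comp_ce (w c) (hf c)
        refine integral_congr_ae ?_
        filter_upwards [hall] with z hz
        rw [mul_comm]
        congr 1
        refine Finset.prod_congr rfl fun c _ => ?_
        rw [hz c, hyη c z]

end Vale.Agent.N102G

end

section
/-!
# Block SAT: existence of sated extensions
-/

namespace Vale.Agent.N102G

open Vale.Agent.P102.RM
variable {Γ : Type} [AddCommGroup Γ]

open MeasureTheory Filter Topology ProbabilityTheory

namespace SatF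

open Vale.Agent.P102.RM.SatF

variable {X : Sys Γ} {ι : Type} [Fintype ι] [DecidableEq ι] (r : Ultrafilter (ι → Γ))

/-- the system on which the functional lives -/
noncomputable def pS (P : Adm X) : Option ι → Sys Γ
  | none => P.W
  | some _ => D r P.W

/-- the point -/
noncomputable def pρ (P : Adm X) : ∀ c : Option ι, Fac (pS r P c) P.W
  | none => Fac.id P.W
  | some s => evF r P.W s

/-- the σ-algebra -/
@[reducible] noncomputable def pσ (P : Adm X) : ∀ c : Option ι, MeasurableSpace (pS r P c).C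
  | none => MeasurableSpace.comap P.y.f inferInstance
  | some s => MeasurableSpace.comap (P.y.side s) inferInstance

/-- functoriality -/
noncomputable def pπ {P Q : Adm X} (e : Ext Q P) : ∀ c : Option ι, Fac (pS r Q c) (pS r P c)
  | none => e.w
  | some _ => e.w.D r

lemma measurable_side {V Y : Sys Γ} (y : Fac V Y) (s : ι) :
    Measurable (y.side s : (ι → V.C) → ({j : ι // j ≠ s} → V.C) × Y.C) := by
  unfold Fac.side
  exact (measurable_pi_lambda _ fun j => measurable_pi_apply _).prodMk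
    (y.meas.comp (measurable_pi_apply s))

lemma pσ_le (P : Adm X) (c : Option ι) : pσ r P c ≤ (pS r P c).mC := by
  cases c with
  | none => exact P.y.meas.comap_le
  | some s => exact (measurable_side P.y s).comap_le

lemma pρ_pπ {P Q : Adm X} (e : Ext Q P) (c : Option ι) (d : (pS r Q c).C) :
    (pρ r P c).f ((pπ r e c).f d) = e.w.f ((pρ r Q c).f d) := by
  cases c with
  | none => rfl
  | some s => rfl

lemma pσ_comap {P Q : Adm X} (e : Ext Q P) (c : Option ι) :
    (pσ r P c).comap (pπ r e c).f ≤ pσ r Q c := by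
  cases c with
  | none =>
    change MeasurableSpace.comap e.w.f (MeasurableSpace.comap P.y.f _) ≤
      MeasurableSpace.comap Q.y.f _
    rw [MeasurableSpace.comap_comp]
    have h : P.y.f ∘ e.w.f = e.v.f ∘ Q.y.f := funext e.hy
    rw [h, ← MeasurableSpace.comap_comp]
    exact MeasurableSpace.comap_mono e.v.meas.comap_le
  | some s =>
    change MeasurableSpace.comap (e.w.D r).f (MeasurableSpace.comap (P.y.side s) _) ≤
      MeasurableSpace.comap (Q.y.side s) _
    rw [MeasurableSpace.comap_comp]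
    let F : ({j : ι // j ≠ s} → Q.W.C) × Q.Y.C → ({j : ι // j ≠ s} → P.W.C) × P.Y.C :=
      fun p => (fun j => e.w.f (p.1 j), e.v.f p.2)
    have hF : Measurable F := by
      refine Measurable.prodMk (measurable_pi_lambda _ fun j => ?_) (e.v.meas.comp measurable_snd)
      exact e.w.meas.comp ((measurable_pi_apply j).comp measurable_fst)
    have h : (P.y.side s) ∘ (e.w.D r).f = F ∘ (Q.y.side s) := by
      funext d
      simp only [Function.comp_apply, Fac.side, F, Fac.D_apply, e.hy]
    rw [h, ← MeasurableSpace.comap_comp]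
    exact MeasurableSpace.comap_mono hF.comap_le

/-- all functionals at once -/
noncomputable def NN (P : Adm X) (c : Option ι) (f : P.W.C → ℂ) : ℝ :=
  ∫ d, ‖((pS r P c).μ[f ∘ (pρ r P c).f | pσ r P c]) d‖ ^ 2 ∂(pS r P c).μ

omit [DecidableEq ι] in
lemma bdd_memLp {A : Sys Γ} {f : A.C → ℂ} (hf : Bdd f) : MemLp f 2 A.μ := by
  obtain ⟨hm, C, hC⟩ := hf
  exact MemLp.of_bound hm.aestronglyMeasurable C (ae_of_all _ hC)

lemma NN_comap {P Q : Adm X} (e : Ext Q P) (c : Option ι) {f : P.W.C → ℂ} (hf : Bdd f) :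
    ∫ d, ‖((pS r Q c).μ[(f ∘ e.w.f) ∘ (pρ r Q c).f | (pσ r P c).comap (pπ r e c).f]) d‖ ^ 2
      ∂(pS r Q c).μ = NN r P c f := by
  have h : (f ∘ e.w.f) ∘ (pρ r Q c).f = (f ∘ (pρ r P c).f) ∘ (pπ r e c).f := by
    funext d
    simp only [Function.comp_apply, pρ_pπ]
  rw [h]
  exact integral_normSq_condExp_comap (pσ_le r P c) (pπ r e c).mp
    ((hf.comp (pρ r P c).meas).integrable _)

lemma NN_mono {P Q : Adm X} (e : Ext Q P) (c : Option ι) {f : P.W.C → ℂ} (hf : Bdd f) :
    NN r P c f ≤ NN r Q c (f ∘ e.w.f) := by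
  rw [← NN_comap r e c hf]
  exact integral_normSq_condExp_mono (pσ_comap r e c) (pσ_le r Q c)
    (bdd_memLp ((hf.comp e.w.meas).comp (pρ r Q c).meas))

lemma NN_eq {P Q : Adm X} (e : Ext Q P) (c : Option ι) {f : P.W.C → ℂ} (hf : Bdd f)
    (h : NN r Q c (f ∘ e.w.f) ≤ NN r P c f) :
    (pS r Q c).μ[(f ∘ e.w.f) ∘ (pρ r Q c).f | pσ r Q c] =ᵐ[(pS r Q c).μ]
      (pS r Q c).μ[(f ∘ e.w.f) ∘ (pρ r Q c).f | (pσ r P c).comap (pπ r e c).f] := by
  refine condExp_ae_eq_of_norm_le (pσ_comap r e c) (pσ_le r Q c)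
    (bdd_memLp ((hf.comp e.w.meas).comp (pρ r Q c).meas)) ?_
  rw [NN_comap r e c hf]
  exact h

lemma NN_le_of_eq {P Q : Adm X} (e : Ext Q P) (c : Option ι) {f : P.W.C → ℂ} (hf : Bdd f)
    (h : (pS r Q c).μ[(f ∘ e.w.f) ∘ (pρ r Q c).f | pσ r Q c] =ᵐ[(pS r Q c).μ]
      (pS r Q c).μ[(f ∘ e.w.f) ∘ (pρ r Q c).f | (pσ r P c).comap (pπ r e c).f]) :
    NN r Q c (f ∘ e.w.f) ≤ NN r P c f := by
  rw [← NN_comap r e c hf]
  refine le_of_eq (integral_congr_ae ?_)
  filter_upwards [h] with d hd
  rw [hd]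

/-- the indicator function -/
noncomputable def ind {Ω : Type} (A : Set Ω) : Ω → ℂ := A.indicator fun _ => 1

omit [DecidableEq ι] in
lemma ind_bdd {A : Sys Γ} {S : Set A.C} (hS : MeasurableSet S) : Bdd (ind S) :=
  ⟨measurable_const.indicator hS, 1, fun a => by
    by_cases h : a ∈ S <;> simp [ind, h]⟩

lemma ind_comp {Ω Ω' : Type} (A : Set Ω) (g : Ω' → Ω) : ind A ∘ g = ind (g ⁻¹' A) := rfl

lemma NN_ind_le (P : Adm X) (c : Option ι) {S : Set P.W.C} (hS : MeasurableSet S) :
    NN r P c (ind S) ≤ 1 := by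
  have h1 : NN r P c (ind S) ≤ ∫ d, ‖(ind S ∘ (pρ r P c).f) d‖ ^ 2 ∂(pS r P c).μ :=
    integral_normSq_condExp_le (pσ_le r P c) (bdd_memLp ((ind_bdd hS).comp (pρ r P c).meas))
  refine h1.trans ?_
  have h2 : ∫ d, ‖(ind S ∘ (pρ r P c).f) d‖ ^ 2 ∂(pS r P c).μ ≤
      ∫ _, (1 : ℝ) ∂(pS r P c).μ := by
    refine integral_mono_of_nonneg (ae_of_all _ fun d => by positivity) (integrable_const _)
      (ae_of_all _ fun d => ?_)
    simp only [Function.comp_apply, ind]
    by_cases h : (pρ r P c).f d ∈ S <;> simp [h]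
  simpa using h2

/-- the frame of the abstract dovetailing lemma -/
noncomputable def frame (X : Sys Γ) : SatAbs.Frame where
  Obj := Adm X
  Hom := fun Q P => Ext Q P
  Test := fun P => Option ι × {S : Set P.W.C // MeasurableSet S}
  comp := fun g f => f.comp g
  idH := fun P => Ext.refl P
  pb := fun f τ => (τ.1, ⟨f.w.f ⁻¹' τ.2.1, f.w.meas τ.2.2⟩)
  pb_comp := fun g f τ => rfl
  N := fun P τ => NN r P τ.1 (ind τ.2.1)
  N_le := fun P τ => NN_ind_le r P τ.1 τ.2.2
  mono := fun f τ => NN_mono r f τ.1 (ind_bdd τ.2.2)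

lemma ext_ext {P Q : Adm X} {e e' : Ext Q P} (h1 : ∀ a, e.w.f a = e'.w.f a)
    (h2 : ∀ a, e.v.f a = e'.v.f a) : e = e' := by
  obtain ⟨⟨w, _, _⟩, ⟨v, _, _⟩, _, _⟩ := e
  obtain ⟨⟨w', _, _⟩, ⟨v', _, _⟩, _, _⟩ := e'
  obtain rfl : w = w' := funext h1
  obtain rfl : v = v' := funext h2
  rfl

/-- a countable generating π-system -/
def piSets (V : Sys Γ) (F : Finset ℕ) : Set V.C :=
  ⋂ n ∈ F, MeasurableSpace.natGeneratingSequence V.C n

lemma piSets_meas (V : Sys Γ) (F : Finset ℕ) : MeasurableSet (piSets V F) :=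
  Finset.measurableSet_biInter F fun n _ =>
    MeasurableSpace.measurableSet_natGeneratingSequence n

lemma piSets_pi (V : Sys Γ) : IsPiSystem (Set.range (piSets V)) := by
  classical
  rintro _ ⟨F, rfl⟩ _ ⟨G, rfl⟩ -
  refine ⟨F ∪ G, ?_⟩
  simp only [piSets, Finset.mem_union]
  ext a
  simp only [Set.mem_iInter, Set.mem_inter_iff]
  constructor
  · intro h
    exact ⟨fun n hn => h n (Or.inl hn), fun n hn => h n (Or.inr hn)⟩
  · rintro ⟨h1, h2⟩ n (hn | hn)
    · exact h1 n hn
    · exact h2 n hn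

lemma piSets_gen (V : Sys Γ) : V.mC = MeasurableSpace.generateFrom (Set.range (piSets V)) := by
  apply le_antisymm
  · conv_lhs => rw [← MeasurableSpace.generateFrom_natGeneratingSequence V.C]
    refine MeasurableSpace.generateFrom_le ?_
    rintro _ ⟨n, rfl⟩
    refine MeasurableSpace.measurableSet_generateFrom ⟨{n}, ?_⟩
    simp [piSets]
  · refine MeasurableSpace.generateFrom_le ?_
    rintro _ ⟨F, rfl⟩
    exact piSets_meas V F

lemma real_of_ind {Ω : Type} {m1 m2 m0 : MeasurableSpace Ω} {μ : Measure Ω}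
    [IsProbabilityMeasure μ] {T : Set Ω} (hT : MeasurableSet T)
    (h : μ[ind T | m1] =ᵐ[μ] μ[ind T | m2]) :
    μ[T.indicator (fun _ => (1 : ℝ)) | m1] =ᵐ[μ] μ[T.indicator (fun _ => (1 : ℝ)) | m2] := by
  have hi : Integrable (ind T) μ := (integrable_const (1 : ℂ)).indicator hT
  have e : T.indicator (fun _ => (1 : ℝ)) = Complex.reCLM ∘ (ind T) := by
    funext ω
    by_cases hω : ω ∈ T <;> simp [ind, hω]
  rw [e]
  refine (Complex.reCLM.comp_condExp_comm (m := m1) hi).symm.trans ?_
  refine EventuallyEq.trans ?_ (Complex.reCLM.comp_condExp_comm (m := m2) hi)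
  filter_upwards [h] with ω hω
  simp only [Function.comp_apply, hω]

end SatF

open Vale.Agent.N102G.SatF in
theorem b_SAT : B_SAT Γ := by
  intro X P₀ ι _ _ r
  obtain ⟨en, hen⟩ := exists_surjective_nat (Option ι × Finset ℕ)
  let F := frame r X
  let tst : ∀ P : Adm X, ℕ → Option ι × {S : Set P.W.C // MeasurableSet S} := fun P n =>
    ((en n).1, ⟨piSets P.W (en n).2, piSets_meas P.W _⟩)
  obtain ⟨P, f, L, π, h0, hnice, hsat⟩ := SatAbs.exists_sated_tests F tst P₀
    (fun P f L π => (∀ n a, (π n).w.f a = (f n).w.f ((π (n + 1)).w.f a)) ∧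
      L.W.mC = ⨆ n, MeasurableSpace.comap (π n).w.f (P n).W.mC)
    (fun B e => by
      obtain ⟨L, π, h1, h2, h3⟩ := exists_invLim B e
      refine ⟨L, π, ⟨h1, h3⟩, fun n => ext_ext (fun a => (h1 n a).symm) (fun a => (h2 n a).symm)⟩)
  obtain ⟨hstep, hmC⟩ := hnice
  have key : ∀ (R : Adm X) (g : Ext R L) (c : Option ι) (k : L.W.C → ℂ), Bdd k →
      NN r R c (k ∘ g.w.f) ≤ NN r L c k := by
    intro R g c k hk
    refine NN_le_of_eq r g c hk ?_
    have hgm : Measurable (fun d : (pS r R c).C => g.w.f ((pρ r R c).f d)) :=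
      g.w.meas.comp (pρ r R c).meas
    have hm1 : (pσ r L c).comap (pπ r g c).f ≤ (pS r R c).mC :=
      (pσ_comap r g c).trans (pσ_le r R c)
    -- indicators of the sets of the π-systems
    have stepA : ∀ (i : ℕ) (S : Set (P i).W.C), S ∈ Set.range (piSets (P i).W) →
        (pS r R c).μ[((fun d => (π i).w.f (g.w.f ((pρ r R c).f d))) ⁻¹' S).indicator
          (fun _ => (1 : ℝ)) | (pσ r L c).comap (pπ r g c).f] =ᵐ[(pS r R c).μ]
        (pS r R c).μ[((fun d => (π i).w.f (g.w.f ((pρ r R c).f d))) ⁻¹' S).indicator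
          (fun _ => (1 : ℝ)) | pσ r R c] := by
      rintro i _ ⟨G, rfl⟩
      obtain ⟨n, hn⟩ := hen (c, G)
      have h1 := hsat i n R g
      have htst : tst (P i) n = (c, ⟨piSets (P i).W G, piSets_meas (P i).W G⟩) := by
        simp only [tst, hn]
      rw [htst] at h1
      have h2 : NN r R c (ind ((π i).w.f ⁻¹' piSets (P i).W G) ∘ g.w.f) ≤
          NN r L c (ind ((π i).w.f ⁻¹' piSets (P i).W G)) := le_of_eq h1
      have h3 := NN_eq r g c (ind_bdd ((π i).w.meas (piSets_meas (P i).W G))) h2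
      exact real_of_ind (hgm.comp measurable_id' ((π i).w.meas (piSets_meas (P i).W G))) h3.symm
    have hmono : Monotone fun n => MeasurableSpace.comap (π n).w.f (P n).W.mC := by
      refine monotone_nat_of_le_succ fun n => ?_
      have e : (π n).w.f = (f n).w.f ∘ (π (n + 1)).w.f := funext fun a => hstep n a
      simp only [e]
      rw [← MeasurableSpace.comap_comp]
      exact MeasurableSpace.comap_mono (f n).w.meas.comap_le
    have stepC := Sat.condExp_comp_eq_of_chain (P := (pS r R c).μ)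
      (m1 := (pσ r L c).comap (pπ r g c).f) (m2 := pσ r R c)
      (g := fun d => g.w.f ((pρ r R c).f d)) hgm hm1 (pσ_le r R c)
      (A := fun n => (P n).W.C) (fun n => (π n).w.f) hmono hmC
      (fun n k hk hkb => by
        have hmn : Measurable (fun d => (π n).w.f (g.w.f ((pρ r R c).f d))) :=
          (π n).w.meas.comp hgm
        have hint : Integrable k ((pS r R c).μ.map
            (fun d => (π n).w.f (g.w.f ((pρ r R c).f d)))) := by
          haveI : IsProbabilityMeasure ((pS r R c).μ.map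
            (fun d => (π n).w.f (g.w.f ((pρ r R c).f d)))) :=
            Measure.isProbabilityMeasure_map hmn.aemeasurable
          exact Integrable.of_bound hk.aestronglyMeasurable 1 (ae_of_all _ fun a => by
            simpa using hkb a)
        exact Sat.condExp_comp_eq_of_piSystem (P := (pS r R c).μ)
          (m1 := (pσ r L c).comap (pπ r g c).f) (m2 := pσ r R c)
          (g := fun d => (π n).w.f (g.w.f ((pρ r R c).f d))) hmn hm1 (pσ_le r R c)
          (piSets_gen (P n).W) (piSets_pi (P n).W) (stepA n) k hint)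
      k (by
        haveI : IsProbabilityMeasure ((pS r R c).μ.map (fun d => g.w.f ((pρ r R c).f d))) :=
          Measure.isProbabilityMeasure_map hgm.aemeasurable
        exact hk.integrable _)
    exact stepC.symm
  subst h0
  exact ⟨L, π 0, fun P' e f hf => key P' e none f hf, fun s P' e f hf => key P' e (some s) f hf⟩

end Vale.Agent.N102G

end
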