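import Vale.Agent.N102G.G2

set_option linter.all false

section
/-!
P102, Rokhlin: block TOT, part 1: the line kernel `lineK` of an exact pair.
-/

namespace Vale.Agent.N102G

open Vale.Agent.P102.RM
variable {Γ : Type} [AddCommGroup Γ]

open MeasureTheory Filter Topology ProbabilityTheory Set
open scoped ENNReal

/-! ### The line kernel -/

section Line

variable {ι : Type} [Fintype ι] {r : Ultrafilter (ι → Γ)} {V Y : Sys Γ}

omit [Fintype ι] in
theorem measurable_yline (y : Fac V Y) :
    Measurable (fun (d : ι → V.C) (i : ι) => y.f (d i)) :=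
  measurable_pi_lambda _ fun i => y.meas.comp (measurable_pi_apply i)

theorem lineK_base (y : Fac V Y) (r : Ultrafilter (ι → Γ)) :
    (D r V).μ.map (fun (d : (D r V).C) (i : ι) => y.f (d i)) = (D r Y).μ := (y.D r).mp.map_eq

instance (y : Fac V Y) (r : Ultrafilter (ι → Γ)) : IsMarkovKernel (y.lineK r) := by
  unfold Fac.lineK; infer_instance

/-- a.e. statements pass to the line fibres. -/
theorem ae_lineK_of_ae (y : Fac V Y) (r : Ultrafilter (ι → Γ))
    {Q : (ι → Y.C) × (ι → V.C) → Prop} (hQ : MeasurableSet {p | Q p})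
    (h : ∀ᵐ d ∂(D r V).μ, Q (fun i => y.f (d i), d)) :
    ∀ᵐ η ∂(D r Y).μ, ∀ᵐ v ∂(y.lineK r η), Q (η, v) := by
  have h1 := ae_fibre_of_ae (P := (D r V).μ) (A := fun (d : (D r V).C) (i : ι) => y.f (d i))
    (measurable_yline y) (B := (id : (D r V).C → (ι → V.C))) measurable_id hQ h
  rw [lineK_base] at h1
  exact h1

variable [DecidableEq ι]

/-- integral form over the subtype -/
theorem LineInd.subtype {y : Fac V Y} {s : ι} (h : LineInd r y s)
    (f : {j : ι // j ≠ s} → V.C → ℂ) (g : (ι → Y.C) → ℂ) (hf : ∀ i, Bdd (f i)) (hg : Bdd g) :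
    ∫ d, g (fun i => y.f (d i)) * ∏ j : {j : ι // j ≠ s}, f j (d j) ∂(D r V).μ
      = ∫ d, g (fun i => y.f (d i)) * ∏ j : {j : ι // j ≠ s}, y.ce (f j) (y.f (d j))
        ∂(D r V).μ := by
  have h1 := h (fun j => if hj : j ≠ s then f ⟨j, hj⟩ else fun _ => 1) g (by
    intro i
    by_cases hi : i ≠ s
    · simpa only [dif_pos hi] using hf ⟨i, hi⟩
    · simpa only [dif_neg hi] using Bdd.const 1) hg
  simp only [prod_erase_eq] at h1
  have h2 : ∀ j : {j : ι // j ≠ s}, (if hj : (j : ι) ≠ s then f ⟨j, hj⟩ else fun _ => 1) = f j :=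
    fun j => dif_pos j.2
  simp only [h2] at h1
  exact h1

/-- the points outside slot `s` are independent in a.e. line fibre, with own fibre laws -/
theorem LineInd.lineK {y : Fac V Y} {s : ι} (h : LineInd r y s) :
    ∀ᵐ η ∂(D r Y).μ, (y.lineK r η).map (fun (v : ι → V.C) (j : {j : ι // j ≠ s}) => v j)
      = Measure.pi fun j : {j : ι // j ≠ s} => y.om (η j) := by
  have hm : Measurable (fun (v : ι → V.C) (j : {j : ι // j ≠ s}) => v j) := by fun_prop
  have h1 := condDistrib_pi_of_integral (P := (D r V).μ)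
    (A := fun (d : (D r V).C) (i : ι) => y.f (d i)) (measurable_yline y)
    (B := fun (j : {j : ι // j ≠ s}) (d : (D r V).C) => d j) (fun j => measurable_pi_apply _)
    (fun j => y.om.comap (fun η : ι → Y.C => η j) (measurable_pi_apply _)) (by
      intro f g hf hg
      exact h.subtype f g hf hg)
  have h2 := condDistrib_comp (mβ := (inferInstance : MeasurableSpace (ι → Y.C)))
    (μ := (D r V).μ) (Y := (id : (D r V).C → (ι → V.C)))
    (fun (d : (D r V).C) (i : ι) => y.f (d i)) aemeasurable_id hm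
  rw [lineK_base] at h1 h2
  filter_upwards [h1, h2] with η h3 h4
  rw [Kernel.map_apply _ hm] at h4
  rw [show y.lineK r η = condDistrib (id : (D r V).C → (ι → V.C))
    (fun (d : (D r V).C) (i : ι) => y.f (d i)) (D r V).μ η from rfl, ← h4]
  exact h3

end Line

/-! ### Exact pairs -/

section EP

variable {ι : Type} [Fintype ι] [DecidableEq ι] {r : Ultrafilter (ι → Γ)} {p q : ι} {Y : Sys Γ}

theorem EP.lineK_exact_p (E : EP r p q Y) :
    ∀ᵐ η ∂(D r Y).μ, ∀ᵐ v ∂(E.y.lineK r η), v p = E.Rp (fun j => v j, η p) := by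
  refine ae_lineK_of_ae E.y r
    (Q := fun x : (ι → Y.C) × (ι → E.V.C) => x.2 p = E.Rp (fun j => x.2 j, x.1 p)) ?_ E.hRp
  exact measurableSet_eq_fun (by fun_prop) (E.mRp.comp (by fun_prop))

theorem EP.lineK_exact_q (E : EP r p q Y) :
    ∀ᵐ η ∂(D r Y).μ, ∀ᵐ v ∂(E.y.lineK r η), v q = E.Rq (fun j => v j, η q) := by
  refine ae_lineK_of_ae E.y r
    (Q := fun x : (ι → Y.C) × (ι → E.V.C) => x.2 q = E.Rq (fun j => x.2 j, x.1 q)) ?_ E.hRq
  exact measurableSet_eq_fun (by fun_prop) (E.mRq.comp (by fun_prop))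

end EP

end Vale.Agent.N102G

end

section
/-!
P102, Rokhlin: block TOT, part 3: the fibres of the grid `D r (D r V)` over a.e. base grid
satisfy `GridHyp`.
-/

namespace Vale.Agent.N102G

open Vale.Agent.P102.RM
variable {Γ : Type} [AddCommGroup Γ]

open MeasureTheory Filter Topology ProbabilityTheory Set
open scoped ENNReal

section Grid

variable {ι : Type} [Fintype ι] [DecidableEq ι] {r : Ultrafilter (ι → Γ)} {V Y : Sys Γ}

/-- the law of a grid given its base grid -/
noncomputable def Fac.gridK (r : Ultrafilter (ι → Γ)) (y : Fac V Y) :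
    Kernel (ι → ι → Y.C) (ι → ι → V.C) :=
  condDistrib (_root_.id : (N102G.D r (N102G.D r V)).C → (ι → ι → V.C))
    (fun (w : (N102G.D r (N102G.D r V)).C) (i j : ι) => y.f (w i j)) (N102G.D r (N102G.D r V)).μ

instance (y : Fac V Y) (r : Ultrafilter (ι → Γ)) : IsMarkovKernel (y.gridK r) := by
  unfold Fac.gridK; infer_instance

omit [Fintype ι] [DecidableEq ι] in
theorem measurable_ygrid (y : Fac V Y) :
    Measurable (fun (w : ι → ι → V.C) (i j : ι) => y.f (w i j)) :=
  measurable_pi_lambda _ fun i => measurable_pi_lambda _ fun j =>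
    y.meas.comp ((measurable_pi_apply j).comp (measurable_pi_apply i))

omit [DecidableEq ι] in
theorem gridK_base (y : Fac V Y) (r : Ultrafilter (ι → Γ)) :
    (D r (D r V)).μ.map (fun (w : (D r (D r V)).C) (i j : ι) => y.f (w i j)) =
      (D r (D r Y)).μ := ((y.D r).D r).mp.map_eq

omit [DecidableEq ι] in
/-- a.e. statements pass to the grid fibres. -/
theorem ae_gridK_of_ae (y : Fac V Y) (r : Ultrafilter (ι → Γ))
    {Q : (ι → ι → Y.C) × (ι → ι → V.C) → Prop} (hQ : MeasurableSet {p | Q p})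
    (h : ∀ᵐ w ∂(D r (D r V)).μ, Q (fun i j => y.f (w i j), w)) :
    ∀ᵐ g ∂(D r (D r Y)).μ, ∀ᵐ w ∂(y.gridK r g), Q (g, w) := by
  have h1 := ae_fibre_of_ae (P := (D r (D r V)).μ)
    (A := fun (w : (D r (D r V)).C) (i j : ι) => y.f (w i j))
    (measurable_ygrid y) (B := (id : (D r (D r V)).C → (ι → ι → V.C))) measurable_id hQ h
  rw [gridK_base] at h1
  exact h1

/-- integral form over the product of subtypes -/
theorem GridInd.subtype {y : Fac V Y} {s s' : ι} (h : GridInd r y s s')
    (f : {i : ι // i ≠ s} × {j : ι // j ≠ s'} → V.C → ℂ) (g : (ι → ι → Y.C) → ℂ)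
    (hf : ∀ x, Bdd (f x)) (hg : Bdd g) :
    ∫ d, g (fun i j => y.f (d i j)) *
        ∏ x : {i : ι // i ≠ s} × {j : ι // j ≠ s'}, f x (d x.1 x.2) ∂(D r (D r V)).μ
      = ∫ d, g (fun i j => y.f (d i j)) *
        ∏ x : {i : ι // i ≠ s} × {j : ι // j ≠ s'}, y.ce (f x) (y.f (d x.1 x.2))
          ∂(D r (D r V)).μ := by
  have h1 := h (fun i j => if hij : i ≠ s ∧ j ≠ s' then f (⟨i, hij.1⟩, ⟨j, hij.2⟩)
    else fun _ => 1) g (by
      intro i j
      by_cases hi : i ≠ s ∧ j ≠ s'
      · simpa only [dif_pos hi] using hf (⟨i, hi.1⟩, ⟨j, hi.2⟩)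
      · simpa only [dif_neg hi] using Bdd.const 1) hg
  simp only [prod_erase_eq] at h1
  have h2 : ∀ (i : {i : ι // i ≠ s}) (j : {j : ι // j ≠ s'}),
      (if hij : (i : ι) ≠ s ∧ (j : ι) ≠ s' then f (⟨i, hij.1⟩, ⟨j, hij.2⟩)
        else fun _ => 1) = f (i, j) := fun i j => dif_pos ⟨i.2, j.2⟩
  simp only [h2] at h1
  simp only [Fintype.prod_prod_type]
  exact h1

theorem GridInd.gridK {y : Fac V Y} {s s' : ι} (h : GridInd r y s s') :
    ∀ᵐ g ∂(D r (D r Y)).μ, (y.gridK r g).map (blockU s s')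
      = Measure.pi fun x : {i : ι // i ≠ s} × {j : ι // j ≠ s'} => y.om (g x.1 x.2) := by
  have hm : Measurable (blockU (V := V.C) s s') := measurable_blockU s s'
  have h1 := condDistrib_pi_of_integral (P := (D r (D r V)).μ)
    (A := fun (w : (D r (D r V)).C) (i j : ι) => y.f (w i j)) (measurable_ygrid y)
    (B := fun (x : {i : ι // i ≠ s} × {j : ι // j ≠ s'}) (d : (D r (D r V)).C) => d x.1 x.2)
    (fun x => (measurable_pi_apply (x.2 : ι)).comp
      (measurable_pi_apply (X := fun _ : ι => ι → V.C) (x.1 : ι)))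
    (fun x => y.om.comap (fun g : ι → ι → Y.C => g x.1 x.2)
      ((measurable_pi_apply (x.2 : ι)).comp
        (measurable_pi_apply (X := fun _ : ι => ι → Y.C) (x.1 : ι)))) (by
      intro f g hf hg
      exact h.subtype f g hf hg)
  have h2 := condDistrib_comp (mβ := (inferInstance : MeasurableSpace (ι → ι → Y.C)))
    (μ := (D r (D r V)).μ) (Y := (id : (D r (D r V)).C → (ι → ι → V.C)))
    (fun (w : (D r (D r V)).C) (i j : ι) => y.f (w i j)) aemeasurable_id hm
  rw [gridK_base] at h1 h2
  filter_upwards [h1, h2] with η h3 h4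
  rw [Kernel.map_apply _ hm] at h4
  rw [show y.gridK r η = condDistrib (id : (D r (D r V)).C → (ι → ι → V.C))
    (fun (w : (D r (D r V)).C) (i j : ι) => y.f (w i j)) (D r (D r V)).μ η from rfl, ← h4]
  exact h3

end Grid

section EP

variable {ι : Type} [Fintype ι] [DecidableEq ι] {r : Ultrafilter (ι → Γ)} {p q : ι} {Y : Sys Γ}

/-- **The grid fibres of an exact pair.** Over a.e. base grid `g` the law `G = gridK r g` of the
grid satisfies `GridHyp`, and its column `p` has the law `lineK` of the column `p` of `g`. -/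
theorem EP.gridHyp (hpq : p ≠ q) (E : EP r p q Y) :
    ∀ᵐ g ∂(D r (D r Y)).μ,
      GridHyp p q (fun i j => E.y.om (g i j)) (E.y.gridK r g) ∧
        (E.y.gridK r g).map (fun (w : ι → ι → E.V.C) (i : ι) => w i p) =
          E.y.lineK r (fun i => g i p) := by
  -- exactness in the fibres
  have rowp : ∀ i, ∀ᵐ g ∂(D r (D r Y)).μ, ∀ᵐ w ∂(E.y.gridK r g),
      w i p = E.Rp (fun j => w i j, g i p) := by
    intro i
    refine ae_gridK_of_ae E.y r
      (Q := fun x : (ι → ι → Y.C) × (ι → ι → E.V.C) =>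
        x.2 i p = E.Rp (fun j => x.2 i j, x.1 i p)) ?_ ?_
    · exact measurableSet_eq_fun (by fun_prop) (E.mRp.comp (by fun_prop))
    · exact (rowF r E.V i).mp.quasiMeasurePreserving.ae E.hRp
  have rowq : ∀ i, ∀ᵐ g ∂(D r (D r Y)).μ, ∀ᵐ w ∂(E.y.gridK r g),
      w i q = E.Rq (fun j => w i j, g i q) := by
    intro i
    refine ae_gridK_of_ae E.y r
      (Q := fun x : (ι → ι → Y.C) × (ι → ι → E.V.C) =>
        x.2 i q = E.Rq (fun j => x.2 i j, x.1 i q)) ?_ ?_
    · exact measurableSet_eq_fun (by fun_prop) (E.mRq.comp (by fun_prop))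
    · exact (rowF r E.V i).mp.quasiMeasurePreserving.ae E.hRq
  have colp : ∀ j, ∀ᵐ g ∂(D r (D r Y)).μ, ∀ᵐ w ∂(E.y.gridK r g),
      w p j = E.Rp (fun i => w i j, g p j) := by
    intro j
    refine ae_gridK_of_ae E.y r
      (Q := fun x : (ι → ι → Y.C) × (ι → ι → E.V.C) =>
        x.2 p j = E.Rp (fun i => x.2 i j, x.1 p j)) ?_ ?_
    · exact measurableSet_eq_fun (by fun_prop) (E.mRp.comp (by fun_prop))
    · exact (colF r E.V j).mp.quasiMeasurePreserving.ae E.hRp
  have colq : ∀ j, ∀ᵐ g ∂(D r (D r Y)).μ, ∀ᵐ w ∂(E.y.gridK r g),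
      w q j = E.Rq (fun i => w i j, g q j) := by
    intro j
    refine ae_gridK_of_ae E.y r
      (Q := fun x : (ι → ι → Y.C) × (ι → ι → E.V.C) =>
        x.2 q j = E.Rq (fun i => x.2 i j, x.1 q j)) ?_ ?_
    · exact measurableSet_eq_fun (by fun_prop) (E.mRq.comp (by fun_prop))
    · exact (colF r E.V j).mp.quasiMeasurePreserving.ae E.hRq
  -- line laws of rows and columns of the base grid
  have rK : ∀ {Q : (ι → Y.C) → Prop}, (∀ᵐ η ∂(D r Y).μ, Q η) →
      ∀ i, ∀ᵐ g ∂(D r (D r Y)).μ, Q (g i) := fun h i =>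
    (rowF r Y i).mp.quasiMeasurePreserving.ae h
  have cK : ∀ {Q : (ι → Y.C) → Prop}, (∀ᵐ η ∂(D r Y).μ, Q η) →
      ∀ j, ∀ᵐ g ∂(D r (D r Y)).μ, Q (fun i => g i j) := fun h j =>
    (colF r Y j).mp.quasiMeasurePreserving.ae h
  filter_upwards [ae_all_iff.2 fun s => ae_all_iff.2 fun s' => (E.grid s s').gridK,
    ae_all_iff.2 rowp, ae_all_iff.2 rowq, ae_all_iff.2 colp,
    ae_all_iff.2 colq, cK (E.line q).lineK p, cK E.lineK_exact_q p] with g h1 h2 h3 h4 h5 h6 h7
  refine ⟨⟨inferInstance, inferInstance, h1, ?_, ?_⟩, ?_⟩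
  · rintro i s (rfl | rfl)
    · exact ⟨fun u => E.Rp (u, g i s), E.mRp.comp (by fun_prop), h2 i⟩
    · exact ⟨fun u => E.Rq (u, g i s), E.mRq.comp (by fun_prop), h3 i⟩
  · rintro j s (rfl | rfl)
    · exact ⟨fun u => E.Rp (u, g s j), E.mRp.comp (by fun_prop), h4 j⟩
    · exact ⟨fun u => E.Rq (u, g s j), E.mRq.comp (by fun_prop), h5 j⟩
  refine line_eq_of_exact (s := q) (R := fun u => E.Rq (u, g q p))
    (E.mRq.comp (by fun_prop)) ?_ h7 ?_
  · have hm : Measurable (fun (w : ι → ι → E.V.C) (i : ι) => w i p) := by fun_prop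
    have hs : MeasurableSet {v : ι → E.V.C | v q = E.Rq (fun j => v j, g q p)} :=
      measurableSet_eq_fun (by fun_prop) (E.mRq.comp (by fun_prop))
    rw [ae_map_iff hm.aemeasurable hs]
    exact h5 p
  · rw [h6]
    exact block_col (s := q) (s' := q) (ν := fun i j => E.y.om (g i j)) hpq
      ((blockU_iff_blockC q q _ (fun i j => E.y.om (g i j))).1 (h1 q q))

end EP

end Vale.Agent.N102G

end

section
/-!
P102, Rokhlin: block TOT, part 4: the block `B_TOT` from the static mediality theorem.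
-/

namespace Vale.Agent.N102G

open Vale.Agent.P102.RM
variable {Γ : Type} [AddCommGroup Γ]

open MeasureTheory Filter Topology ProbabilityTheory Set

/-- the static mediality theorem -/
def MedThm : Prop := ∀ (ι V : Type) [Fintype ι] [DecidableEq ι] [MeasurableSpace V]
  [StandardBorelSpace V] (p q : ι), p ≠ q → 3 ≤ Fintype.card ι →
  ∀ (ν : ι → ι → Measure V) (G : Measure (ι → ι → V)), GridHyp p q ν G →
    Total (G.map fun w i => w i p) p q

theorem tot_of_med (h : MedThm) : B_TOT Γ := by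
  intro ι _ _ r p q hpq hc Y E
  have h1 : ∀ᵐ g ∂(D r (D r Y)).μ, Total (E.y.lineK r ((colF r Y p).f g)) p q := by
    filter_upwards [E.gridHyp hpq] with g hg
    have h2 := h ι E.V.C p q hpq hc _ _ hg.1
    rw [hg.2] at h2
    exact h2
  have h3 := ae_map_of_ae (m := (D r (D r Y)).μ) (f := (colF r Y p).f) (colF r Y p).meas
    (P := fun η => Total (E.y.lineK r η) p q) h1
  rw [(colF r Y p).mp.map_eq] at h3
  exact h3

end Vale.Agent.N102G

end

section
/-!
Block PD (P102): the pair data `PD` from a sated extension of the relative square.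
-/

namespace Vale.Agent.N102G.PairData

open Vale.Agent.P102.RM Vale.Agent.P102.RM.PairData
variable {Γ : Type} [AddCommGroup Γ]

open MeasureTheory Filter Topology ProbabilityTheory

/-! ### `D r` as a functor -/

section lim

variable {ι : Type} [Fintype ι]

/-- the factor map `D r A → D r B` -/
theorem limM_map_mp (r : Ultrafilter (ι → Γ)) {A B : Sys Γ} (p : Fac A B) :
    MeasurePreserving (fun (d : ι → A.C) (i : ι) => p.f (d i)) (limM r A) (limM r B) :=
  ⟨measurable_pi_lambda _ fun i => p.meas.comp (measurable_pi_apply i), limM_map r p⟩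

/-- marginals of the limit joining -/
theorem limM_eval_mp (r : Ultrafilter (ι → Γ)) (A : Sys Γ) (s : ι) :
    MeasurePreserving (fun d : ι → A.C => d s) (limM r A) A.μ :=
  ⟨measurable_pi_apply s, limM_map_eval r A s⟩

end lim

/-! ### `M`-satedness: one point -/

section one

variable {X : Sys Γ} {P P' : Adm X}

/-- `M`-satedness: conditioning `f ∘ w` on the base of the extension is conditioning on `y`. -/
theorem satM_condExp_eq (hM : SatM P) (e : Ext P' P) {f : P.W.C → ℂ} (hf : Bdd f) :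
    P'.W.μ[f ∘ e.w.f | MeasurableSpace.comap P'.y.f inferInstance] =ᵐ[P'.W.μ]
      P'.W.μ[f ∘ e.w.f | MeasurableSpace.comap (P.y.f ∘ e.w.f) inferInstance] := by
  have hle : MeasurableSpace.comap (P.y.f ∘ e.w.f) inferInstance ≤
      MeasurableSpace.comap P'.y.f inferInstance := by
    have h1 : P.y.f ∘ e.w.f = e.v.f ∘ P'.y.f := funext e.hy
    rw [h1, ← MeasurableSpace.comap_comp]
    exact MeasurableSpace.comap_mono e.v.meas.comap_le
  refine condExp_ae_eq_of_norm_le hle P'.y.meas.comap_le (bdd_memLp (bdd_comp hf e.w.meas)) ?_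
  have h1 := hM P' e f hf
  unfold Adm.M sqN at h1
  refine h1.trans (le_of_eq ?_)
  have h2 := integral_normSq_condExp_comap (μ' := P'.W.μ) (μ := P.W.μ)
    (m := MeasurableSpace.comap P.y.f inferInstance) P.y.meas.comap_le e.w.mp
    (f := f) (bdd_integrable hf)
  rw [MeasurableSpace.comap_comp] at h2
  exact h2.symm

/-- `M`-satedness, pulled back to a probability space `Ω → P'.W`. -/
theorem satM_same (hM : SatM P) (e : Ext P' P) {Ω : Type*} [MeasurableSpace Ω] {R : Measure Ω}
    [IsProbabilityMeasure R] {π : Ω → P'.W.C} (hπ : MeasurePreserving π R P'.W.μ) :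
    SecondExt.Same R (MeasurableSpace.comap (fun z => e.w.f (π z)) inferInstance)
      (MeasurableSpace.comap (fun z => P.y.f (e.w.f (π z))) inferInstance)
      (MeasurableSpace.comap (fun z => P'.y.f (π z)) inferInstance) := by
  rintro _ ⟨a, ha, rfl⟩
  have hb := bdd_ind ha
  have i1 : Integrable ((fun x => ((SecondExt.ind a x : ℝ) : ℂ)) ∘ e.w.f) P'.W.μ :=
    bdd_integrable (bdd_comp hb e.w.meas)
  have h1 := condExp_comp_comap (μ := P'.W.μ) (μ' := R)
    (m := MeasurableSpace.comap P'.y.f inferInstance) P'.y.meas.comap_le hπ i1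
  have h2 := condExp_comp_comap (μ := P'.W.μ) (μ' := R)
    (m := MeasurableSpace.comap (P.y.f ∘ e.w.f) inferInstance)
    (P.y.meas.comp e.w.meas).comap_le hπ i1
  have h3 := hπ.quasiMeasurePreserving.ae_eq_comp (satM_condExp_eq hM e hb)
  rw [MeasurableSpace.comap_comp] at h1 h2
  have hset : MeasurableSet ((fun z => e.w.f (π z)) ⁻¹' a) :=
    (e.w.meas.comp hπ.measurable) ha
  have i2 : Integrable (SecondExt.ind ((fun z => e.w.f (π z)) ⁻¹' a)) R :=
    SecondExt.integrable_ind hset
  have h4 := condExp_ofReal' i2 (MeasurableSpace.comap (P'.y.f ∘ π) inferInstance)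
  have h5 := condExp_ofReal' i2 (MeasurableSpace.comap ((P.y.f ∘ e.w.f) ∘ π) inferInstance)
  have hfun : ((fun x => ((SecondExt.ind a x : ℝ) : ℂ)) ∘ e.w.f) ∘ π =
      fun x => ((SecondExt.ind ((fun z => e.w.f (π z)) ⁻¹' a) x : ℝ) : ℂ) := rfl
  rw [hfun] at h1 h2
  have h6 := ((h4.symm.trans h1).trans h3).trans (h2.symm.trans h5)
  filter_upwards [h6] with z hz
  exact_mod_cast hz

end one

/-! ### Lines -/

section line

variable {ι : Type} [Fintype ι] [DecidableEq ι] {r : Ultrafilter (ι → Γ)}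

omit [DecidableEq ι] in
/-- The conditional probabilities of one point of a line are given by the fibre measures. -/
theorem condExp_eval_eq_om {V Y : Sys Γ} (y : Fac V Y)
    (j : ι) {b : Set V.C} (hb : MeasurableSet b) :
    (limM r V)[SecondExt.ind ((fun z : ι → V.C => z j) ⁻¹' b) |
      MeasurableSpace.comap (fun z : ι → V.C => y.f (z j)) inferInstance] =ᵐ[limM r V]
        fun z => (y.om (y.f (z j))).real b := by
  have hev : Measurable (fun z : ι → V.C => z j) := measurable_pi_apply j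
  have hmp := limM_eval_mp r V j
  have h1 := condDistrib_ae_eq_condExp (μ := limM r V) (X := fun z : ι → V.C => y.f (z j))
    (Y := fun z : ι → V.C => z j) (y.meas.comp hev) hev hb
  have h3 := condDistrib_comp_mp' hmp (f := y.f) (g := (_root_.id : V.C → V.C)) y.meas
    measurable_id
  refine h1.symm.trans ?_
  filter_upwards [h3] with z hz
  unfold Fac.om
  have hz' : condDistrib (fun z : ι → V.C => z j) (fun z : ι → V.C => y.f (z j)) (limM r V)
      (y.f (z j)) = condDistrib _root_.id y.f V.μ (y.f (z j)) := hz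
  rw [hz']

/-- `LineInd` as an own-fibre law. -/
theorem lineInd_ownFibre {V Y : Sys Γ} {y : Fac V Y} {s : ι}
    (h : LineInd r y s) :
    SecondExt.OwnFibre (limM r V) (Finset.univ.erase s)
      (fun j => MeasurableSpace.comap (fun z : ι → V.C => z j) inferInstance)
      (fun j => MeasurableSpace.comap (fun z : ι → V.C => y.f (z j)) inferInstance)
      (MeasurableSpace.comap (fun (z : ι → V.C) (i : ι) => y.f (z i)) inferInstance) := by
  intro a ha
  choose! b hb hab using ha
  -- the sets outside `J` are irrelevant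
  let b' : ι → Set V.C := fun j => if j ∈ Finset.univ.erase s then b j else Set.univ
  have hb' : ∀ j, MeasurableSet (b' j) := by
    intro j
    by_cases hj : j ∈ Finset.univ.erase s
    · simp only [b', hj, if_true]; exact hb j hj
    · simp only [b', hj, if_false]; exact MeasurableSet.univ
  have hbb' : ∀ j ∈ Finset.univ.erase s, b' j = b j := by
    intro j hj; simp only [b', hj, if_true]
  have hyb : Measurable (fun (z : ι → V.C) (i : ι) => y.f (z i)) :=
    measurable_pi_lambda _ fun i => y.meas.comp (measurable_pi_apply i)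
  have hphi : ∀ j, Measurable (fun w : Y.C => (y.om w).real (b' j)) := fun j =>
    (Kernel.measurable_coe _ (hb' j)).ennreal_toReal
  have hE : ∀ᵐ z ∂(limM r V), ∀ j : (Finset.univ.erase s : Finset ι),
      (limM r V)[SecondExt.ind (a j) |
        MeasurableSpace.comap (fun z : ι → V.C => y.f (z j)) inferInstance] z =
        (y.om (y.f (z j))).real (b' j) := by
    rw [ae_all_iff]
    intro j
    have := condExp_eval_eq_om (r := r) y (j : ι) (hb' j)
    rw [hbb' j j.2, hab j j.2] at this
    rw [hbb' j j.2]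
    exact this
  -- the candidate
  let Φ : (ι → V.C) → ℝ := fun z => ∏ j ∈ Finset.univ.erase s, (y.om (y.f (z j))).real (b' j)
  let F : (ι → V.C) → ℝ := fun z => ∏ j ∈ Finset.univ.erase s, SecondExt.ind (a j) z
  have hΦF : (limM r V)[F |
      MeasurableSpace.comap (fun (z : ι → V.C) (i : ι) => y.f (z i)) inferInstance]
        =ᵐ[limM r V] Φ := by
    have hFm : Measurable F := by
      refine Finset.measurable_prod _ fun j hj => ?_
      refine measurable_const.indicator ?_
      rw [← hab j hj]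
      exact measurable_pi_apply j (hb j hj)
    have hFb : ∀ z, ‖F z‖ ≤ 1 := by
      intro z
      rw [norm_prod]
      exact Finset.prod_le_one (fun j _ => norm_nonneg _) (fun j _ => SecondExt.abs_ind_le _ z)
    have hΦm0 : Measurable[MeasurableSpace.comap
        (fun (z : ι → V.C) (i : ι) => y.f (z i)) inferInstance] Φ := by
      let Ψ : (ι → Y.C) → ℝ := fun w => ∏ j ∈ Finset.univ.erase s, (y.om (w j)).real (b' j)
      have hΨ : Measurable Ψ :=
        Finset.measurable_prod _ fun j _ => (hphi j).comp (measurable_pi_apply j)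
      exact hΨ.comp (comap_measurable _)
    have hΦb : ∀ z, ‖Φ z‖ ≤ 1 := by
      intro z
      rw [norm_prod]
      refine Finset.prod_le_one (fun j _ => norm_nonneg _) (fun j _ => ?_)
      rw [Real.norm_of_nonneg measureReal_nonneg]
      exact measureReal_le_one
    have hΦm : Measurable Φ := hΦm0.mono hyb.comap_le le_rfl
    symm
    refine ae_eq_condExp_of_forall_setIntegral_eq hyb.comap_le
      (Integrable.of_bound hFm.aestronglyMeasurable 1 (Eventually.of_forall hFb))
      (fun _ _ _ => (Integrable.of_bound hΦm.aestronglyMeasurable 1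
        (Eventually.of_forall hΦb)).integrableOn) ?_ hΦm0.stronglyMeasurable.aestronglyMeasurable
    rintro _ ⟨C, hC, rfl⟩ _
    have key := h (fun j x => ((SecondExt.ind (b' j) x : ℝ) : ℂ))
      (fun x => ((SecondExt.ind C x : ℝ) : ℂ)) (fun j => bdd_ind (hb' j)) (bdd_ind hC)
    have e1 : ∀ d : ι → V.C, ((SecondExt.ind C (fun i => y.f (d i)) : ℝ) : ℂ) *
        ∏ j ∈ Finset.univ.erase s, ((SecondExt.ind (b' j) (d j) : ℝ) : ℂ) =
        (((SecondExt.ind ((fun (z : ι → V.C) (i : ι) => y.f (z i)) ⁻¹' C) d * F d : ℝ)) : ℂ) := by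
      intro d
      rw [Complex.ofReal_mul]
      congr 1
      rw [← Complex.ofReal_prod]
      congr 1
      refine Finset.prod_congr rfl fun j hj => ?_
      rw [hbb' j hj, ← hab j hj]
      rfl
    have e2 : ∀ d : ι → V.C, ((SecondExt.ind C (fun i => y.f (d i)) : ℝ) : ℂ) *
        ∏ j ∈ Finset.univ.erase s,
          y.ce (fun x => ((SecondExt.ind (b' j) x : ℝ) : ℂ)) (y.f (d j)) =
        (((SecondExt.ind ((fun (z : ι → V.C) (i : ι) => y.f (z i)) ⁻¹' C) d * Φ d : ℝ)) : ℂ) := by
      intro d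
      rw [Complex.ofReal_mul, Complex.ofReal_prod]
      congr 1
      refine Finset.prod_congr rfl fun j hj => ?_
      unfold Fac.ce
      rw [integral_complex_ofReal]
      congr 1
      rw [integral_indicator (hb' j)]
      simp [Measure.real]
    have e3 : ∀ G : (ι → V.C) → ℝ,
        ∫ d, (((SecondExt.ind ((fun (z : ι → V.C) (i : ι) => y.f (z i)) ⁻¹' C) d * G d : ℝ)) : ℂ)
          ∂(limM r V) = ((∫ d in (fun (z : ι → V.C) (i : ι) => y.f (z i)) ⁻¹' C, G d
            ∂(limM r V) : ℝ) : ℂ) := by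
      intro G
      rw [integral_complex_ofReal, SecondExt.integral_ind_mul (hyb hC)]
    simp only [e1, e2] at key
    rw [e3, e3] at key
    exact_mod_cast key.symm
  filter_upwards [hΦF, hE] with z h1 h2
  rw [h1]
  exact Finset.prod_congr rfl fun j hj => (h2 ⟨j, hj⟩).symm

/-- The conditional law of a line of an exact factor, given the base line of an extension, is the
conditional law given the own base line. -/
theorem lineK_map_eq {X : Sys Γ} {P P' : Adm X} (hM : SatM P)
    (e : Ext P' P) {p q : ι} (E : EP r p q P.Y) (f : Fac P.W E.V)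
    (hf : ∀ w, E.y.f (f.f w) = P.y.f w) (hl : LineInd r P'.y p) :
    ∀ᵐ η ∂(D r P'.Y).μ, (P'.y.lineK r η).map (fun (z : ι → P'.W.C) i => f.f (e.w.f (z i))) =
      E.y.lineK r (fun i => e.v.f (η i)) := by
  classical
  -- notation
  let a' : (ι → P'.W.C) → (ι → P'.Y.C) := fun z i => P'.y.f (z i)
  let F : (ι → P'.W.C) → (ι → E.V.C) := fun z i => f.f (e.w.f (z i))
  let κ : (ι → P'.Y.C) → (ι → P.Y.C) := fun η i => e.v.f (η i)
  have ha' : Measurable a' :=
    measurable_pi_lambda _ fun i => P'.y.meas.comp (measurable_pi_apply i)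
  have hF : Measurable F :=
    measurable_pi_lambda _ fun i => (f.meas.comp e.w.meas).comp (measurable_pi_apply i)
  have hκ : Measurable κ :=
    measurable_pi_lambda _ fun i => e.v.meas.comp (measurable_pi_apply i)
  have ha'mp : MeasurePreserving a' (limM r P'.W) (limM r P'.Y) := limM_map_mp r P'.y
  have hFmp : MeasurePreserving F (limM r P'.W) (limM r E.V) := limM_map_mp r (f.comp e.w)
  have hκmp : MeasurePreserving κ (limM r P'.Y) (limM r P.Y) := limM_map_mp r e.v
  have hymp : MeasurePreserving (fun (v : ι → E.V.C) i => E.y.f (v i)) (limM r E.V)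
    (limM r P.Y) := limM_map_mp r E.y
  have hcomp : κ ∘ a' = (fun (v : ι → E.V.C) i => E.y.f (v i)) ∘ F := by
    funext z i
    show e.v.f (P'.y.f (z i)) = E.y.f (f.f (e.w.f (z i)))
    rw [hf, e.hy]
  -- the exactness of slot `p`, on lines of `P'.W`
  have hex : ∀ᵐ z ∂(limM r P'.W), F z p =
      E.Rp ((fun j : {j : ι // j ≠ p} => F z j), κ (a' z) p) := by
    have h1 := hFmp.quasiMeasurePreserving.ae E.hRp
    filter_upwards [h1] with z hz
    rw [hz]
    congr 1
    have : E.y.f (F z p) = κ (a' z) p := by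
      have := congrFun (congrFun hcomp z) p
      exact this.symm
    show ((fun j : {j : ι // j ≠ p} => F z j), E.y.f (F z p)) = _
    rw [this]
  -- the transfer
  have hkey : ∀ t : Set (ι → E.V.C), MeasurableSet t →
      (limM r P'.W)[SecondExt.ind (F ⁻¹' t) | MeasurableSpace.comap a' inferInstance]
        =ᵐ[limM r P'.W]
      (limM r P'.W)[SecondExt.ind (F ⁻¹' t) | MeasurableSpace.comap (κ ∘ a') inferInstance] := by
    intro t ht
    refine SecondExt.condExp_eq_of_ext (J := Finset.univ.erase p)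
      (A := fun j => MeasurableSpace.comap (fun z : ι → P'.W.C => e.w.f (z j)) inferInstance)
      (A0 := fun j => MeasurableSpace.comap (fun z : ι → P'.W.C => z j) inferInstance)
      (B := fun j => MeasurableSpace.comap (fun z : ι → P'.W.C => P.y.f (e.w.f (z j)))
        inferInstance)
      (B0 := fun j => MeasurableSpace.comap (fun z : ι → P'.W.C => P'.y.f (z j)) inferInstance)
      ?_ ?_ ?_ ?_ ha'.comap_le ?_ (lineInd_ownFibre hl) (SecondExt.integrable_ind (hF ht)) ?_
    · rintro j _ _ ⟨c, hc, rfl⟩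
      exact ⟨e.w.f ⁻¹' c, e.w.meas hc, rfl⟩
    · intro j _
      exact (measurable_pi_apply j).comap_le
    · rintro j _ _ ⟨c, hc, rfl⟩
      refine ⟨(fun w : ι → P.Y.C => w j) ⁻¹' c, measurable_pi_apply j hc, ?_⟩
      ext z
      simp only [Set.mem_preimage, Function.comp_apply, κ, a']
      rw [e.hy]
    · rintro _ ⟨c, hc, rfl⟩
      exact ⟨κ ⁻¹' c, hκ hc, rfl⟩
    · intro j _
      exact satM_same hM e (limM_eval_mp r P'.W j)
    · -- measurability
      let M : MeasurableSpace (ι → P'.W.C) :=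
        (⨆ j ∈ Finset.univ.erase p,
          MeasurableSpace.comap (fun z : ι → P'.W.C => e.w.f (z j)) inferInstance) ⊔
        MeasurableSpace.comap (κ ∘ a') inferInstance
      let F' : (ι → P'.W.C) → (ι → E.V.C) := fun z i =>
        if i = p then E.Rp ((fun j : {j : ι // j ≠ p} => F z j), κ (a' z) p) else F z i
      have hFj : ∀ j, j ≠ p → Measurable[M] (fun z => F z j) := by
        intro j hj
        have h1 : MeasurableSpace.comap (fun z : ι → P'.W.C => e.w.f (z j)) inferInstance ≤ M :=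
          le_trans (le_iSup₂_of_le (f := fun (j : ι) (_ : j ∈ Finset.univ.erase p) =>
            MeasurableSpace.comap (fun z : ι → P'.W.C => e.w.f (z j)) inferInstance) j
            (Finset.mem_erase.2 ⟨hj, Finset.mem_univ j⟩) le_rfl) le_sup_left
        have h2 : Measurable[M] (fun z : ι → P'.W.C => e.w.f (z j)) :=
          (comap_measurable _).mono h1 le_rfl
        exact f.meas.comp h2
      have hyp : Measurable[M] (fun z => κ (a' z) p) := by
        have h2 : Measurable[M] (κ ∘ a') := (comap_measurable _).mono le_sup_right le_rfl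
        exact (measurable_pi_apply p).comp h2
      have hF' : Measurable[M] F' := by
        refine @measurable_pi_lambda _ _ _ M _ _ fun i => ?_
        by_cases hi : i = p
        · simp only [F', hi, if_true]
          refine E.mRp.comp ?_
          have h3 : Measurable[M] (fun z => (fun j : {j : ι // j ≠ p} => F z j)) :=
            @measurable_pi_lambda _ _ _ M _ _ fun j => hFj j j.2
          exact h3.prodMk hyp
        · simp only [F', hi, if_false]
          exact hFj i hi
      have hFF' : ∀ᵐ z ∂(limM r P'.W), F z = F' z := by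
        filter_upwards [hex] with z hz
        funext i
        by_cases hi : i = p
        · subst hi; simp only [F', if_true]; exact hz
        · simp only [F', hi, if_false]
      refine ⟨SecondExt.ind (F' ⁻¹' t), ?_, ?_⟩
      · exact StronglyMeasurable.indicator stronglyMeasurable_const (hF' ht)
      · filter_upwards [hFF'] with z hz
        simp only [SecondExt.ind, Set.indicator, Set.mem_preimage, hz]
  have s1 := condDistrib_refine (P := limM r P'.W) ha' hF hκ hkey
  have s2 : (condDistrib F a' (limM r P'.W)) =ᵐ[(limM r P'.W).map a']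
      (condDistrib (_root_.id : (ι → P'.W.C) → (ι → P'.W.C)) a' (limM r P'.W)).map F :=
    condDistrib_comp a' aemeasurable_id hF
  have s3 := condDistrib_comp_mp hFmp (f := fun (v : ι → E.V.C) i => E.y.f (v i))
    (g := (_root_.id : (ι → E.V.C) → (ι → E.V.C))) hymp.measurable measurable_id
  rw [ha'mp.map_eq] at s1 s2
  rw [hymp.map_eq] at s3
  have s4 := hκmp.quasiMeasurePreserving.ae s3
  filter_upwards [s1, s2, s4] with η h1 h2 h4
  have h5 : (P'.y.lineK r η).map F = condDistrib F a' (limM r P'.W) η := by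
    rw [h2, Kernel.map_apply _ hF]
    rfl
  rw [← hcomp] at h4
  exact h5.trans (h1.trans h4)

/-- `LineInd` on boxes. -/
theorem lineInd_box {V Y : Sys Γ} {y : Fac V Y} {s : ι} (h : LineInd r y s)
    {C : Set (ι → Y.C)} (hC : MeasurableSet C) {b : {j : ι // j ≠ s} → Set V.C}
    (hb : ∀ j, MeasurableSet (b j)) :
    limM r V ((fun (z : ι → V.C) (i : ι) => y.f (z i)) ⁻¹' C ∩
        ⋂ j : {j : ι // j ≠ s}, (fun z : ι → V.C => z j) ⁻¹' b j) =
      ∫⁻ z in (fun (z : ι → V.C) (i : ι) => y.f (z i)) ⁻¹' C,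
        ∏ j : {j : ι // j ≠ s}, y.om (y.f (z j)) (b j) ∂(limM r V) := by
  classical
  let b' : ι → Set V.C := fun j => if hj : j ≠ s then b ⟨j, hj⟩ else Set.univ
  have hb' : ∀ j, MeasurableSet (b' j) := by
    intro j
    by_cases hj : j ≠ s
    · simp only [b', dif_pos hj]; exact hb _
    · simp only [b', dif_neg hj]; exact MeasurableSet.univ
  have hbb' : ∀ j : {j : ι // j ≠ s}, b' j = b j := by
    intro j; simp only [b', dif_pos j.2]
  have hyb : Measurable (fun (z : ι → V.C) (i : ι) => y.f (z i)) :=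
    measurable_pi_lambda _ fun i => y.meas.comp (measurable_pi_apply i)
  have hCz : MeasurableSet ((fun (z : ι → V.C) (i : ι) => y.f (z i)) ⁻¹' C) := hyb hC
  have hprod : ∀ g : ι → ℝ, ∏ j ∈ Finset.univ.erase s, g j = ∏ j : {j : ι // j ≠ s}, g j := by
    intro g
    rw [← Finset.prod_coe_sort]
    refine Fintype.prod_equiv (Equiv.subtypeEquivRight fun j => by simp) _ _ fun j => rfl
  have hphi : ∀ j, Measurable (fun z : ι → V.C => (y.om (y.f (z j))).real (b' j)) := fun j =>
    ((Kernel.measurable_coe _ (hb' j)).comp (y.meas.comp (measurable_pi_apply j))).ennreal_toReal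
  let F : (ι → V.C) → ℝ := fun z => ∏ j ∈ Finset.univ.erase s, SecondExt.ind (b' j) (z j)
  let Φ : (ι → V.C) → ℝ := fun z => ∏ j ∈ Finset.univ.erase s, (y.om (y.f (z j))).real (b' j)
  have key := h (fun j x => ((SecondExt.ind (b' j) x : ℝ) : ℂ))
    (fun x => ((SecondExt.ind C x : ℝ) : ℂ)) (fun j => bdd_ind (hb' j)) (bdd_ind hC)
  have e1 : ∀ d : ι → V.C, ((SecondExt.ind C (fun i => y.f (d i)) : ℝ) : ℂ) *
      ∏ j ∈ Finset.univ.erase s, ((SecondExt.ind (b' j) (d j) : ℝ) : ℂ) =
      (((SecondExt.ind ((fun (z : ι → V.C) (i : ι) => y.f (z i)) ⁻¹' C) d * F d : ℝ)) : ℂ) := by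
    intro d
    rw [Complex.ofReal_mul]
    congr 1
    rw [← Complex.ofReal_prod]
  have e2 : ∀ d : ι → V.C, ((SecondExt.ind C (fun i => y.f (d i)) : ℝ) : ℂ) *
      ∏ j ∈ Finset.univ.erase s,
        y.ce (fun x => ((SecondExt.ind (b' j) x : ℝ) : ℂ)) (y.f (d j)) =
      (((SecondExt.ind ((fun (z : ι → V.C) (i : ι) => y.f (z i)) ⁻¹' C) d * Φ d : ℝ)) : ℂ) := by
    intro d
    rw [Complex.ofReal_mul, Complex.ofReal_prod]
    congr 1
    refine Finset.prod_congr rfl fun j hj => ?_
    unfold Fac.ce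
    rw [integral_complex_ofReal]
    congr 1
    rw [integral_indicator (hb' j)]
    simp [Measure.real]
  have e3 : ∀ G : (ι → V.C) → ℝ,
      ∫ d, (((SecondExt.ind ((fun (z : ι → V.C) (i : ι) => y.f (z i)) ⁻¹' C) d * G d : ℝ)) : ℂ)
        ∂(limM r V) = ((∫ d in (fun (z : ι → V.C) (i : ι) => y.f (z i)) ⁻¹' C, G d
          ∂(limM r V) : ℝ) : ℂ) := by
    intro G
    rw [integral_complex_ofReal, SecondExt.integral_ind_mul hCz]
  simp only [e1, e2] at key
  rw [e3, e3] at key
  have key' : ∫ d in (fun (z : ι → V.C) (i : ι) => y.f (z i)) ⁻¹' C, F d ∂(limM r V) =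
      ∫ d in (fun (z : ι → V.C) (i : ι) => y.f (z i)) ⁻¹' C, Φ d ∂(limM r V) := by
    exact_mod_cast key
  -- left-hand side
  have hFset : F = SecondExt.ind (⋂ j : {j : ι // j ≠ s}, (fun z : ι → V.C => z j) ⁻¹' b j) := by
    funext z
    simp only [F]
    rw [hprod (fun j => SecondExt.ind (b' j) (z j))]
    have := congrFun (SecondExt.ind_biInter (Finset.univ : Finset {j : ι // j ≠ s})
      (fun j => (fun z : ι → V.C => z j) ⁻¹' b j)) z
    simp only [Finset.mem_univ, Set.iInter_true] at this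
    rw [this]
    refine Finset.prod_congr rfl fun j _ => ?_
    rw [hbb' j]
    rfl
  have hIm : MeasurableSet (⋂ j : {j : ι // j ≠ s}, (fun z : ι → V.C => z j) ⁻¹' b j) :=
    MeasurableSet.iInter fun j => measurable_pi_apply (j : ι) (hb j)
  have l1 : ∫ d in (fun (z : ι → V.C) (i : ι) => y.f (z i)) ⁻¹' C, F d ∂(limM r V) =
      (limM r V).real ((fun (z : ι → V.C) (i : ι) => y.f (z i)) ⁻¹' C ∩
        ⋂ j : {j : ι // j ≠ s}, (fun z : ι → V.C => z j) ⁻¹' b j) := by
    rw [hFset, setIntegral_indicator hIm]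
    simp [Measure.real]
  -- right-hand side
  have hΦm : Measurable Φ := Finset.measurable_prod _ fun j _ => hphi j
  have hΦ0 : ∀ z, 0 ≤ Φ z := fun z => Finset.prod_nonneg fun j _ => measureReal_nonneg
  have hΦb : ∀ z, ‖Φ z‖ ≤ 1 := by
    intro z
    rw [norm_prod]
    refine Finset.prod_le_one (fun j _ => norm_nonneg _) (fun j _ => ?_)
    rw [Real.norm_of_nonneg measureReal_nonneg]
    exact measureReal_le_one
  have r1 : ∫⁻ z in (fun (z : ι → V.C) (i : ι) => y.f (z i)) ⁻¹' C,
        ∏ j : {j : ι // j ≠ s}, y.om (y.f (z j)) (b j) ∂(limM r V) =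
      ENNReal.ofReal (∫ d in (fun (z : ι → V.C) (i : ι) => y.f (z i)) ⁻¹' C, Φ d
        ∂(limM r V)) := by
    rw [ofReal_integral_eq_lintegral_ofReal]
    · refine lintegral_congr fun z => ?_
      simp only [Φ]
      rw [hprod (fun j => (y.om (y.f (z j))).real (b' j)),
        ENNReal.ofReal_prod_of_nonneg fun j _ => measureReal_nonneg]
      refine Finset.prod_congr rfl fun j _ => ?_
      rw [hbb' j, measureReal_def, ENNReal.ofReal_toReal (measure_ne_top _ _)]
    · exact (Integrable.of_bound hΦm.aestronglyMeasurable 1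
        (Eventually.of_forall hΦb)).integrableOn
    · exact Eventually.of_forall hΦ0
  rw [r1, ← key', l1, measureReal_def, ENNReal.ofReal_toReal (measure_ne_top _ _)]

/-- Independence in the fibre lines. -/
theorem ki_of_lineInd {V Y : Sys Γ} {y : Fac V Y}
    (h : ∀ s : ι, LineInd r y s) : ∀ᵐ η ∂(D r Y).μ, KI (y.lineK r η) := by
  have hyb : Measurable (fun (z : ι → V.C) (i : ι) => y.f (z i)) :=
    measurable_pi_lambda _ fun i => y.meas.comp (measurable_pi_apply i)
  have hmp := limM_map_mp r y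
  unfold KI
  rw [ae_all_iff]
  intro s
  have h1 := condDistrib_ae_eq_piKernel (P := limM r V)
    (A := fun (z : ι → V.C) (i : ι) => y.f (z i)) hyb
    (B := fun (j : {j : ι // j ≠ s}) (z : ι → V.C) => z j) (fun j => measurable_pi_apply (j : ι))
    (fun j => (y.om).comap (fun η : ι → Y.C => η j) (measurable_pi_apply (j : ι)))
    (fun C b hC hb => by
      rw [lineInd_box (h s) hC hb]
      rfl)
  have hr : Measurable (fun (z : ι → V.C) (j : {j : ι // j ≠ s}) => z j) :=
    measurable_pi_lambda _ fun j => measurable_pi_apply (j : ι)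
  have h2 : condDistrib (fun (z : ι → V.C) (j : {j : ι // j ≠ s}) => z j)
      (fun (z : ι → V.C) (i : ι) => y.f (z i)) (limM r V)
        =ᵐ[(limM r V).map (fun (z : ι → V.C) (i : ι) => y.f (z i))]
      (condDistrib (_root_.id : (ι → V.C) → (ι → V.C))
        (fun (z : ι → V.C) (i : ι) => y.f (z i)) (limM r V)).map
        (fun (z : ι → V.C) (j : {j : ι // j ≠ s}) => z j) :=
    condDistrib_comp _ aemeasurable_id hr
  rw [hmp.map_eq] at h1 h2
  filter_upwards [h1, h2] with η e1 e2
  have e3 : (y.lineK r η).map (fun (v : ι → V.C) (j : {j : ι // j ≠ s}) => v j) =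
      Measure.pi (fun j : {j : ι // j ≠ s} => y.om (η j)) := by
    have : (y.lineK r η).map (fun (v : ι → V.C) (j : {j : ι // j ≠ s}) => v j) =
        condDistrib (fun (z : ι → V.C) (j : {j : ι // j ≠ s}) => z j)
          (fun (z : ι → V.C) (i : ι) => y.f (z i)) (limM r V) η := by
      rw [e2, Kernel.map_apply _ hr]
      rfl
    rw [this, e1, piKernel_apply]
    rfl
  rw [e3]
  congr 1
  funext j
  have e4 : (y.lineK r η).map (fun v : ι → V.C => v j) =
      ((y.lineK r η).map (fun (v : ι → V.C) (j : {j : ι // j ≠ s}) => v j)).map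
        (fun v : {j : ι // j ≠ s} → V.C => v j) := by
    rw [Measure.map_map (measurable_pi_apply j) hr]
    rfl
  rw [e4, e3]
  exact (measurePreserving_eval (fun j : {j : ι // j ≠ s} => y.om (η j)) j).map_eq.symm

end line

end Vale.Agent.N102G.PairData

namespace Vale.Agent.N102G

open Vale.Agent.P102.RM
variable {Γ : Type} [AddCommGroup Γ]

open MeasureTheory Filter Topology ProbabilityTheory

/-- The pair data from a sated extension of the relative square. -/
theorem exists_pd {X : Sys Γ} {P : Adm X} {ι : Type} [Fintype ι] [DecidableEq ι]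
    {r : Ultrafilter (ι → Γ)} (hM : SatM P) {p q : ι} (F : ExF P r p q) {P0 : Adm X}
    (e : Ext P0 P.sq) (hl : ∀ s, LineInd r P0.y s) : Nonempty (PD F) := by
  let e1 : Ext P0 P := P.sqE1.comp e
  let e2 : Ext P0 P := P.sqE2.comp e
  refine ⟨{
    Z := P0.W
    Y0 := P0.Y
    y0 := P0.y
    f1 := F.e.comp e1.w
    f2 := F.e.comp e2.w
    v1 := e1.v
    v2 := e2.v
    h1 := fun z => (F.hy _).trans (e1.hy z)
    h2 := fun z => (F.hy _).trans (e2.hy z)
    hx := ?_
    indY := P.sq_indY e
    ki := PairData.ki_of_lineInd hl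
    m1 := PairData.lineK_map_eq hM e1 F.E F.e F.hy (hl p)
    m2 := PairData.lineK_map_eq hM e2 F.E F.e F.hy (hl p) }⟩
  have h1 := e1.w.mp.quasiMeasurePreserving.ae F.hxi
  have h2 := e2.w.mp.quasiMeasurePreserving.ae F.hxi
  filter_upwards [h1, h2] with z h1 h2
  show F.xi.f (F.e.f (e1.w.f z)) = F.xi.f (F.e.f (e2.w.f z))
  rw [h1, h2]
  exact congrArg _ (P.sq_x e z)

/-- Block PD. -/
theorem b_pd (hS : B_SAT Γ) (hL : B_LINE Γ) : B_PD Γ := by
  intro X P ι _ _ r _ hK hM p q _ F
  obtain ⟨P0, e, hM0, _⟩ := hS X P.sq ι r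
  exact exists_pd hM F e (hL X P0 ι r hM0 hK)

end Vale.Agent.N102G

end

section
/-!
P102 (Rokhlin), campaign RM, block XE, part 1: the function `cE μ g F` tested against functions of
`g`, conjugation, and naturality of `cl` under factor maps.
-/

namespace Vale.Agent.N102G

open Vale.Agent.P102.RM
variable {Γ : Type} [AddCommGroup Γ]

open MeasureTheory Filter Topology ProbabilityTheory

namespace XE

open Vale.Agent.P102.RM.XE

section cl
variable {ι : Type} [Fintype ι] [DecidableEq ι] (r : Ultrafilter (ι → Γ))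

theorem cl_bdd (A : Sys Γ) (t : ι) {F : (ι → A.C) → ℂ} (hF : Bdd F) : Bdd (cl r A t F) :=
  cE_bdd (Ω := (D r A).C) (D r A).μ _ hF

theorem cl_conj (A : Sys Γ) (t : ι) (F : (ι → A.C) → ℂ) (a : A.C) :
    cl r A t (fun d => (starRingEnd ℂ) (F d)) a = (starRingEnd ℂ) (cl r A t F a) :=
  cE_conj (Ω := (D r A).C) (D r A).μ _ F a

theorem integral_mul_cl (A : Sys Γ) (t : ι) {F : (ι → A.C) → ℂ} (hF : Bdd F) {h : A.C → ℂ}
    (hh : Bdd h) :
    ∫ d, F d * h (d t) ∂(D r A).μ = ∫ a, cl r A t F a * h a ∂A.μ := by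
  have h1 := integral_mul_cE (Ω := (D r A).C) (D r A).μ (g := fun d : ι → A.C => d t)
    (measurable_pi_apply t) hF hh
  rw [show (D r A).μ.map (fun d : ι → A.C => d t) = A.μ from limM_map_eval r A t] at h1
  exact h1

omit [DecidableEq ι] in
theorem bdd_prod (A : Sys Γ) (s : Finset ι) {c : ι → A.C → ℂ} (hc : ∀ i, Bdd (c i)) :
    Bdd (fun d : ι → A.C => ∏ i ∈ s, c i (d i)) :=
  Bdd.prod s fun i _ => (hc i).comp (measurable_pi_apply i)

/-- the product integral with a distinguished slot, shifted to time zero -/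
theorem tendsto_slot (A : Sys Γ) (t : ι) {c : ι → A.C → ℂ} (hc : ∀ i, Bdd (c i)) {h : A.C → ℂ}
    (hh : Bdd h) :
    Tendsto (fun u : ι → Γ => ∫ a, (∏ i ∈ Finset.univ.erase t, c i (iter A.S (u i - u t) a)) * h a
      ∂A.μ) r (𝓝 (∫ a, cl r A t (fun d => ∏ i ∈ Finset.univ.erase t, c i (d i)) a * h a ∂A.μ)) := by
  have h1 := tendsto_limM r A (Function.update c t h) (by
    intro i
    by_cases hi : i = t
    · subst hi; simpa using hh
    · simpa [Function.update_of_ne hi] using hc i)
  have h2 : ∀ g : ι → A.C, ∏ i, Function.update c t h i (g i)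
      = (∏ i ∈ Finset.univ.erase t, c i (g i)) * h (g t) := by
    intro g
    rw [← Finset.prod_erase_mul _ _ (Finset.mem_univ t), Function.update_self]
    congr 1
    refine Finset.prod_congr rfl fun j hj => ?_
    rw [Function.update_of_ne (Finset.ne_of_mem_erase hj)]
  simp only [h2] at h1
  rw [integral_mul_cl r A t (bdd_prod A _ hc) hh] at h1
  refine h1.congr fun u => ?_
  have h3 : ∀ a, (∏ i ∈ Finset.univ.erase t, c i (iter A.S (u i) a)) * h (iter A.S (u t) a)
      = (fun b => (∏ i ∈ Finset.univ.erase t, c i (iter A.S (u i - u t) b)) * h b)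
        (iter A.S (u t) a) := by
    intro a
    simp only
    congr 1
    refine Finset.prod_congr rfl fun j _ => ?_
    rw [← iter_add, sub_add_cancel]
  have hb : Bdd (fun b => (∏ i ∈ Finset.univ.erase t, c i (iter A.S (u i - u t) b)) * h b) :=
    (Bdd.prod _ fun i _ => (hc i).comp (measurable_iter A.S _)).mul hh
  simp_rw [h3]
  have hmp := iter_mp A.S A.mp (u t)
  conv_rhs => rw [← hmp.map_eq]
  rw [integral_map hmp.measurable.aemeasurable hb.1.aestronglyMeasurable]

/-- weak limits of functions of a factor are functions of the factor -/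
theorem cl_comp (A B : Sys Γ) (p : Fac A B) (t : ι) {c : ι → B.C → ℂ} (hc : ∀ i, Bdd (c i)) :
    cl r A t (fun d => ∏ i ∈ Finset.univ.erase t, c i (p.f (d i)))
      =ᵐ[A.μ] fun a => cl r B t (fun d => ∏ i ∈ Finset.univ.erase t, c i (d i)) (p.f a) := by
  have hcA : ∀ i, Bdd (fun a => c i (p.f a)) := fun i => (hc i).comp p.meas
  have hbB : Bdd (cl r B t (fun d => ∏ i ∈ Finset.univ.erase t, c i (d i))) :=
    cl_bdd r B t (bdd_prod B _ hc)
  refine ae_eq_of_test A.μ (cl_bdd r A t (bdd_prod A _ hcA)) (hbB.comp p.meas) fun w hw => ?_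
  -- the conditional expectation of `w` on `B`
  have hw' : Bdd (cE A.μ p.f w) := cE_bdd A.μ p.f hw
  have h1 := tendsto_slot r A t hcA hw
  have h2 := tendsto_slot r B t hc hw'
  have h3 : ∀ u : ι → Γ,
      ∫ a, (∏ i ∈ Finset.univ.erase t, c i (p.f (iter A.S (u i - u t) a))) * w a ∂A.μ
        = ∫ b, (∏ i ∈ Finset.univ.erase t, c i (iter B.S (u i - u t) b)) * cE A.μ p.f w b
          ∂B.μ := by
    intro u
    have hb : Bdd (fun b => ∏ i ∈ Finset.univ.erase t, c i (iter B.S (u i - u t) b)) :=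
      Bdd.prod _ fun i _ => (hc i).comp (measurable_iter B.S _)
    have h4 := integral_mul_cE A.μ p.meas hw hb
    rw [p.mp.map_eq] at h4
    calc ∫ a, (∏ i ∈ Finset.univ.erase t, c i (p.f (iter A.S (u i - u t) a))) * w a ∂A.μ
        = ∫ a, w a * ∏ i ∈ Finset.univ.erase t, c i (iter B.S (u i - u t) (p.f a)) ∂A.μ := by
          refine integral_congr_ae (Eventually.of_forall fun a => ?_)
          simp only
          rw [mul_comm]
          congr 1
          refine Finset.prod_congr rfl fun j _ => ?_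
          rw [Fac.iter]
      _ = _ := h4
      _ = _ := by
          refine integral_congr_ae (Eventually.of_forall fun b => ?_)
          simp only
          rw [mul_comm]
  simp only [h3] at h1
  have h5 := tendsto_nhds_unique h1 h2
  rw [h5]
  have h6 := integral_mul_cE A.μ p.meas hw hbB
  rw [p.mp.map_eq] at h6
  calc ∫ b, cl r B t (fun d => ∏ i ∈ Finset.univ.erase t, c i (d i)) b * cE A.μ p.f w b ∂B.μ
      = ∫ b, cE A.μ p.f w b * cl r B t (fun d => ∏ i ∈ Finset.univ.erase t, c i (d i)) b ∂B.μ := by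
        refine integral_congr_ae (Eventually.of_forall fun b => ?_)
        simp only
        rw [mul_comm]
    _ = ∫ a, w a * cl r B t (fun d => ∏ i ∈ Finset.univ.erase t, c i (d i)) (p.f a) ∂A.μ :=
        h6.symm
    _ = _ := by
        refine integral_congr_ae (Eventually.of_forall fun a => ?_)
        simp only
        rw [mul_comm]

end cl

end XE

end Vale.Agent.N102G

end

section
/-!
P102 (Rokhlin), campaign RM, block XE: the limit joining is not the product on the functions
which are exact in all slots. `b_XE_of : B_THE Γ → B_IDEAL Γ → B_XE`.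
-/

namespace Vale.Agent.N102G

open Vale.Agent.P102.RM
variable {Γ : Type} [AddCommGroup Γ]

open MeasureTheory Filter Topology ProbabilityTheory

namespace XE

open Vale.Agent.P102.RM.XE

variable {ι : Type} [Fintype ι] [DecidableEq ι] (r : Ultrafilter (ι → Γ))

/-- the multilinear form -/
noncomputable def Lam (X : Sys Γ) (c : ι → X.C → ℂ) : ℂ := ∫ d, ∏ i, c i (d i) ∂(D r X).μ

/-- the dual function in slot `t` -/
noncomputable def dual (X : Sys Γ) (t : ι) (c : ι → X.C → ℂ) : X.C → ℂ :=
  cl r X t (fun d => ∏ i ∈ Finset.univ.erase t, c i (d i))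

theorem dual_bdd (X : Sys Γ) (t : ι) {c : ι → X.C → ℂ} (hc : ∀ i, Bdd (c i)) :
    Bdd (dual r X t c) :=
  cl_bdd r X t (bdd_prod X _ hc)

theorem dual_conj (X : Sys Γ) (t : ι) (c : ι → X.C → ℂ) (a : X.C) :
    dual r X t (fun i x => (starRingEnd ℂ) (c i x)) a = (starRingEnd ℂ) (dual r X t c a) := by
  unfold dual
  rw [← cl_conj]
  congr 1
  funext d
  rw [map_prod]

theorem Lam_update (X : Sys Γ) (t : ι) {c : ι → X.C → ℂ} (hc : ∀ i, Bdd (c i)) {h : X.C → ℂ}
    (hh : Bdd h) :
    Lam r X (Function.update c t h) = ∫ a, dual r X t c a * h a ∂X.μ := by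
  unfold Lam dual
  rw [← integral_mul_cl r X t (bdd_prod X _ hc) hh]
  refine integral_congr_ae (Eventually.of_forall fun d => ?_)
  simp only
  rw [← Finset.prod_erase_mul _ _ (Finset.mem_univ t), Function.update_self]
  congr 1
  refine Finset.prod_congr rfl fun j hj => ?_
  rw [Function.update_of_ne (Finset.ne_of_mem_erase hj)]

theorem Lam_eq (X : Sys Γ) (t : ι) {c : ι → X.C → ℂ} (hc : ∀ i, Bdd (c i)) :
    Lam r X c = ∫ a, dual r X t c a * c t a ∂X.μ := by
  rw [← Lam_update r X t hc (hc t), Function.update_eq_self]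

theorem Lam_update_ne_zero (X : Sys Γ) (t : ι) {c : ι → X.C → ℂ} (hc : ∀ i, Bdd (c i))
    (h : Lam r X c ≠ 0) :
    Lam r X (Function.update c t fun x => (starRingEnd ℂ) (dual r X t c x)) ≠ 0 := by
  intro h0
  have hb := dual_bdd r X t hc
  rw [Lam_update r X t hc hb.star] at h0
  have h4 : ∀ a, dual r X t c a * (starRingEnd ℂ) (dual r X t c a)
      = ((‖dual r X t c a‖ ^ 2 : ℝ) : ℂ) := by
    intro a; rw [RCLike.mul_conj]; norm_cast
  simp_rw [h4] at h0
  rw [integral_complex_ofReal] at h0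
  have h3 : ∫ a, ‖dual r X t c a‖ ^ 2 ∂X.μ = 0 := by exact_mod_cast h0
  have hi : Integrable (fun a => ‖dual r X t c a‖ ^ 2) X.μ := by
    obtain ⟨hm, C, hC⟩ := hb
    refine Integrable.of_bound (hm.norm.pow_const 2).aestronglyMeasurable (C ^ 2)
      (Eventually.of_forall fun a => ?_)
    rw [Real.norm_eq_abs, abs_pow, abs_norm]
    exact pow_le_pow_left₀ (norm_nonneg _) (hC a) 2
  have h5 := (integral_eq_zero_iff_of_nonneg (fun a => by positivity) hi).1 h3
  apply h
  rw [Lam_eq r X t hc]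
  have h6 : (fun a => dual r X t c a * c t a) =ᵐ[X.μ] fun _ => 0 := by
    filter_upwards [h5] with a ha
    have h7 : ‖dual r X t c a‖ ^ 2 = 0 := by simpa using ha
    have h8 : dual r X t c a = 0 := by simpa using h7
    simp [h8]
  rw [integral_congr_ae h6]
  simp

/-- the mean of the dual function -/
theorem integral_dual (X : Sys Γ) (hK : KInd r X) (t : ι) {c : ι → X.C → ℂ} (hc : ∀ i, Bdd (c i)) :
    ∫ a, dual r X t c a ∂X.μ = ∏ i ∈ Finset.univ.erase t, ∫ x, c i x ∂X.μ := by
  have h1 := integral_mul_cl r X t (bdd_prod X (Finset.univ.erase t) hc)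
    (Bdd.const (Ω := X.C) (1 : ℂ))
  simp only [mul_one] at h1
  rw [← hK t c hc, h1]
  rfl

theorem Lam_sub_const (X : Sys Γ) (hK : KInd r X) (t : ι) {c : ι → X.C → ℂ} (hc : ∀ i, Bdd (c i))
    (m : ℂ) :
    Lam r X (Function.update c t fun x => c t x - m)
      = Lam r X c - m * ∏ j ∈ Finset.univ.erase t, ∫ x, c j x ∂X.μ := by
  have hb := dual_bdd r X t hc
  rw [Lam_update r X t hc ((hc t).sub (Bdd.const m)), Lam_eq r X t hc, ← integral_dual r X hK t hc]
  calc ∫ a, dual r X t c a * (c t a - m) ∂X.μ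
      = ∫ a, (dual r X t c a * c t a - m * dual r X t c a) ∂X.μ := by
        refine integral_congr_ae (Eventually.of_forall fun a => ?_)
        simp only; ring
    _ = _ := by
        rw [integral_sub ((hb.mul (hc t)).integrable _) ((hb.integrable _).const_mul m),
          integral_const_mul]

theorem exists_mean_zero (X : Sys Γ) (hK : KInd r X) (t₀ : ι) {f : ι → X.C → ℂ}
    (hf : ∀ i, Bdd (f i)) (hne : Lam r X f ≠ ∏ i, ∫ x, f i x ∂X.μ) :
    ∃ c : ι → X.C → ℂ, (∀ i, Bdd (c i)) ∧ Lam r X c ≠ 0 ∧ ∀ i, ∫ x, c i x ∂X.μ = 0 := by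
  have hsub : ∀ (g : X.C → ℂ), Bdd g → ∫ y, (g y - ∫ z, g z ∂X.μ) ∂X.μ = 0 := by
    intro g hg
    rw [integral_sub (hg.integrable _) (integrable_const _)]
    simp
  have hzero : ∀ A : Finset ι, ∃ c : ι → X.C → ℂ, (∀ i, Bdd (c i)) ∧ Lam r X c ≠ 0 ∧
      (∫ y, c t₀ y ∂X.μ = 0) ∧ ∀ i ∈ A, ∫ y, c i y ∂X.μ = 0 := by
    intro A
    induction A using Finset.induction_on with
    | empty =>
      refine ⟨Function.update f t₀ fun y => f t₀ y - ∫ z, f t₀ z ∂X.μ, ?_, ?_, ?_, by simp⟩
      · intro i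
        by_cases h : i = t₀
        · subst h; simpa using (hf i).sub (Bdd.const _)
        · simpa [Function.update_of_ne h] using hf i
      · rw [Lam_sub_const r X hK t₀ hf,
          Finset.mul_prod_erase _ (fun j => ∫ y, f j y ∂X.μ) (Finset.mem_univ t₀)]
        exact sub_ne_zero.2 hne
      · simpa using hsub (f t₀) (hf t₀)
    | insert t A _ ih =>
      obtain ⟨c, hc, hl, h0, hA⟩ := ih
      by_cases ht : t = t₀
      · refine ⟨c, hc, hl, h0, fun i hi => ?_⟩
        rcases Finset.mem_insert.1 hi with h | h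
        · rw [h, ht]; exact h0
        · exact hA i h
      refine ⟨Function.update c t fun y => c t y - ∫ z, c t z ∂X.μ, ?_, ?_, ?_, ?_⟩
      · intro i
        by_cases h : i = t
        · subst h; simpa using (hc i).sub (Bdd.const _)
        · simpa [Function.update_of_ne h] using hc i
      · rw [Lam_sub_const r X hK t hc,
          Finset.prod_eq_zero (Finset.mem_erase.2 ⟨fun h => ht h.symm, Finset.mem_univ t₀⟩) h0]
        simpa using hl
      · rw [Function.update_of_ne (fun h => ht h.symm)]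
        exact h0
      · intro i hi
        by_cases h : i = t
        · subst h; simpa using hsub (c i) (hc i)
        · have : i ∈ A := by simpa [h] using hi
          simpa [Function.update_of_ne h] using hA i this
  obtain ⟨c, hc, hl, -, hA⟩ := hzero Finset.univ
  exact ⟨c, hc, hl, fun i => hA i (Finset.mem_univ i)⟩

variable {X : Sys Γ} (P : Adm X)

omit [DecidableEq ι] in
/-- `Exa` is closed under a.e. equality -/
theorem Exa_congr [DecidableEq ι] {s : ι} {Φ Ψ : P.W.C → ℂ} (h : Φ ∈ Exa P r s) (hΨ : Bdd Ψ)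
    (he : Ψ =ᵐ[P.W.μ] Φ) : Ψ ∈ Exa P r s := by
  obtain ⟨-, g, hg, hgd⟩ := h
  refine ⟨hΨ, g, hg, ?_⟩
  have h1 : MeasurePreserving (fun d : ι → P.W.C => d s) (D r P.W).μ P.W.μ := (evF r P.W s).mp
  filter_upwards [hgd, h1.quasiMeasurePreserving.ae he] with d hd1 hd2
  rw [← hd1]
  exact hd2

omit [DecidableEq ι] in
theorem Exa_conj [DecidableEq ι] {s : ι} {Φ : P.W.C → ℂ} (h : Φ ∈ Exa P r s) :
    (fun a => (starRingEnd ℂ) (Φ a)) ∈ Exa P r s := by
  obtain ⟨hΦ, g, hg, hgd⟩ := h
  refine ⟨hΦ.star, fun z => (starRingEnd ℂ) (g z), Complex.continuous_conj.measurable.comp hg, ?_⟩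
  filter_upwards [hgd] with d hd
  rw [hd]

/-- dual functions, seen on `W` -/
theorem dual_comp_mem {s t b : ι} (hbt : b ≠ t) {c : ι → X.C → ℂ} (hc : ∀ i, Bdd (c i))
    (h : cl r P.W t (fun d => (∏ a ∈ (Finset.univ.erase t).erase b, c a (P.x.f (d a))) *
      c b (P.x.f (d b))) ∈ Exa P r s) :
    (fun w => (starRingEnd ℂ) (dual r X t c (P.x.f w))) ∈ Exa P r s := by
  have h1 : (fun w => dual r X t c (P.x.f w)) ∈ Exa P r s := by
    refine Exa_congr r P h ((dual_bdd r X t hc).comp P.x.meas) ?_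
    have h2 := cl_comp r P.W X P.x t hc
    have h3 : (fun d : ι → P.W.C => (∏ a ∈ (Finset.univ.erase t).erase b, c a (P.x.f (d a))) *
        c b (P.x.f (d b))) = fun d => ∏ i ∈ Finset.univ.erase t, c i (P.x.f (d i)) := by
      funext d
      exact Finset.prod_erase_mul _ _ (Finset.mem_erase.2 ⟨hbt, Finset.mem_univ b⟩)
    rw [h3]
    exact h2.symm
  exact Exa_conj r P h1

end XE

open Vale.Agent.P102.RM.XE (cE_bdd cE_conj integral_mul_cE ae_eq_of_test) in
open Vale.Agent.N102G.XE in
/-- **Block XE** -/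
theorem b_XE_of (hTHE : B_THE Γ) (hID : B_IDEAL Γ) : B_XE Γ := by
  intro X P ι _ _ r hcard hK hM hN hne p q _
  obtain ⟨φ, hφ, hφne⟩ := hne
  obtain ⟨c₀, hc₀, hl₀, hm₀⟩ := exists_mean_zero r X hK p hφ hφne
  have hb : ∀ t : ι, ∃ b : ι, b ≠ t := by
    intro t
    by_contra hcon
    push Not at hcon
    have : Fintype.card ι ≤ 1 := Fintype.card_le_one_iff.2 fun a b => by rw [hcon a, hcon b]
    omega
  obtain ⟨c, hcG, hcl, hcE⟩ := XE_abstract (ι := ι) (F := X.C → ℂ)
    {g | Bdd g ∧ ∫ x, g x ∂X.μ = 0} (fun c => Lam r X c ≠ 0)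
    (fun t c x => (starRingEnd ℂ) (dual r X t c x))
    (fun s => {ψ | (fun w => ψ (P.x.f w)) ∈ Exa P r s})
    (fun s => {ψ | ∃ g : ι → X.C → ℂ, (∀ i, Bdd (g i)) ∧ ψ = dual r X s g}) hb
    (by
      intro s c hc
      have hcb : ∀ i, Bdd (c i) := fun i => (hc i).1
      refine ⟨(dual_bdd r X s hcb).star, ?_⟩
      rw [integral_conj, integral_dual r X hK s hcb]
      obtain ⟨b, hb⟩ := hb s
      rw [Finset.prod_eq_zero (Finset.mem_erase.2 ⟨hb, Finset.mem_univ b⟩) (hc b).2]
      simp)
    (by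
      intro s c hc hl
      exact Lam_update_ne_zero r X s (fun i => (hc i).1) hl)
    (by
      intro s c hc
      refine ⟨fun i x => (starRingEnd ℂ) (c i x), fun i => (hc i).1.star, ?_⟩
      funext a
      exact (dual_conj r X s c a).symm)
    (by
      rintro s t c hc hst ⟨g, hg, hgc⟩
      refine dual_comp_mem r P hst (fun i => (hc i).1) ?_
      have h1 := hTHE X P ι r hcard hK hM hN s t s (Ne.symm hst) (fun a w => c a (P.x.f w)) g
        (fun i => ((hc i).1).comp P.x.meas) hg
      rw [show c s = cl r X s (fun d => ∏ o ∈ Finset.univ.erase s, g o (d o)) from hgc]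
      exact h1)
    (by
      intro s t b c hc hbt hb
      refine dual_comp_mem r P hbt (fun i => (hc i).1) ?_
      exact hID X P ι r hcard hK hM hN s t b hbt.symm (fun a w => c a (P.x.f w))
        (fun i => ((hc i).1).comp P.x.meas) _ hb)
    c₀ (fun i => ⟨hc₀ i, hm₀ i⟩) hl₀
  exact ⟨c, fun i => (hcG i).1, fun i => ⟨hcE i p, hcE i q⟩, fun i => (hcG i).2, hcl⟩

end Vale.Agent.N102G

end
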