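import Vale.Agent.N102G.G3

set_option linter.all false

section
/-!
P102, block EXF / REP (helper177). Standard Borel representation of an invariant sub-σ-algebra.
-/

namespace Vale.Agent.N102G

open Vale.Agent.P102.RM
variable {Γ : Type} [AddCommGroup Γ]

open MeasureTheory Filter Topology ProbabilityTheory Set
open Vale.Agent.P102.RM.ExF (LeAE slot)

section Shift

/-- the shift action on `Γ × J → β` -/
def shiftE (J β : Type) [MeasurableSpace β] : Act Γ (Γ × J → β) where
  t g c mn := c (mn.1 + g, mn.2)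
  meas g := measurable_pi_lambda _ fun mn => measurable_pi_apply _
  zero c := by funext ⟨m, n⟩; simp
  add g h c := by funext ⟨m, n⟩; simp [add_assoc]

@[simp] theorem shiftE_apply {J β : Type} [MeasurableSpace β] (g : Γ) (c : Γ × J → β)
    (mn : Γ × J) : iter (shiftE J β) g c mn = c (mn.1 + g, mn.2) := rfl

end Shift

section Rep

/-- iterates of the transformation of a system -/
def Sys.it (A : Sys Γ) (n : Γ) : A.C → A.C := iter A.S n

open Classical in
/-- the coding map -/
noncomputable def codeMap {A Y : Sys Γ} (y : Fac A Y) (B : ℕ → Set A.C) :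
    A.C → Y.C × (Γ × ℕ → Bool) :=
  fun a => (y.f a, fun mn => decide (A.it mn.1 a ∈ B mn.2))

/-- sub-σ-algebras of a system (a subtype, to keep it out of instance resolution) -/
abbrev Sys.Sub (A : Sys Γ) : Type := {m : MeasurableSpace A.C // m ≤ A.mC}

theorem measurable_codeMap' {A Y : Sys Γ} (y : Fac A Y) (m : A.Sub)
    (hy : Measurable[m.1] y.f) (hS : ∀ n : Γ, Measurable[m.1, m.1] (A.it n))
    {B : ℕ → Set A.C} (hB : ∀ n, MeasurableSet[m.1] (B n)) :
    Measurable[m.1] (codeMap y B) := by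
  refine Measurable.prod (m := m.1) hy ?_
  refine @measurable_pi_lambda _ _ _ m.1 _ _ fun mn => ?_
  refine @measurable_to_bool _ m.1 _ ?_
  classical
  have : (fun a => (codeMap y B a).2 mn) ⁻¹' {true} = A.it mn.1 ⁻¹' (B mn.2) := by
    ext a; simp [codeMap]
  change MeasurableSet[m.1] ((fun a => (codeMap y B a).2 mn) ⁻¹' {true})
  rw [this]
  exact hS _ (hB _)

theorem codeMap_eqv {A Y : Sys Γ} (y : Fac A Y) (B : ℕ → Set A.C) (g : Γ) (a : A.C) :
    codeMap y B (iter A.S g a) = iter (Y.S.prod (shiftE ℕ Bool)) g (codeMap y B a) := by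
  have h : ∀ n : Γ, A.it n (iter A.S g a) = A.it (n + g) a := fun n => by
    unfold Sys.it
    rw [iter_add]
  have h1 : (codeMap y B (iter A.S g a)).1 = iter Y.S g (y.f a) := y.eqv g a
  have h2 : (codeMap y B (iter A.S g a)).2 = iter (shiftE ℕ Bool) g (codeMap y B a).2 := by
    funext mn
    simp only [codeMap, shiftE_apply]
    rw [h]
  exact Prod.ext h1 h2

/-- (R1) an invariant sub-σ-algebra `m` containing `σ(y)` is, modulo null sets, the σ-algebra of a
factor `V` which maps onto `Y` compatibly (everywhere) -/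
theorem exists_rep [Countable Γ] {A Y : Sys Γ} (y : Fac A Y) (m : A.Sub)
    (hy : Measurable[m.1] y.f) (hS : ∀ g, Measurable[m.1, m.1] (iter A.S g)) :
    ∃ (V : Sys Γ) (z : Fac V Y) (e : Fac A V), (∀ a, z.f (e.f a) = y.f a) ∧
      Measurable[m.1] e.f ∧ LeAE A.μ m.1 (MeasurableSpace.comap e.f V.mC) := by
  classical
  obtain ⟨B, hB, hgen⟩ := exists_sets_dense A.μ m.2
  have hcm : Measurable[m.1] (codeMap y B) :=
    measurable_codeMap' y m hy hS hB
  have hc : Measurable (codeMap y B) := hcm.mono m.2 le_rfl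
  let V : Sys Γ := A.image (Y.C × (Γ × ℕ → Bool)) (codeMap y B) hc
    (Y.S.prod (shiftE ℕ Bool)) (codeMap_eqv y B)
  let e : Fac A V := A.imageFac (Y.C × (Γ × ℕ → Bool)) (codeMap y B) hc
    (Y.S.prod (shiftE ℕ Bool)) (codeMap_eqv y B)
  let z : Fac V Y :=
    { f := Prod.fst
      mp := by
        refine ⟨measurable_fst, ?_⟩
        change (A.μ.map (codeMap y B)).map Prod.fst = Y.μ
        rw [Measure.map_map measurable_fst hc]
        exact y.mp.map_eq
      eqv := fun _ _ => rfl }
  refine ⟨V, z, e, fun _ => rfl, hcm, ?_⟩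
  refine hgen.trans_le ?_
  refine MeasurableSpace.generateFrom_le ?_
  rintro _ ⟨n, rfl⟩
  refine ⟨{v | v.2 (0, n) = true}, ?_, ?_⟩
  · have h0 : Measurable fun v : Y.C × (Γ × ℕ → Bool) => v.2 (0, n) := by fun_prop
    exact h0 (measurableSet_singleton true)
  · ext a
    change (codeMap y B a).2 (0, n) = true ↔ a ∈ B n
    simp [codeMap, Sys.it, iter_zero]

section exact
variable {ι : Type} [Fintype ι] [DecidableEq ι]

omit [Fintype ι] [DecidableEq ι] in
theorem measurable_side {V Y : Sys Γ} (z : Fac V Y) (s : ι) :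
    Measurable (z.side s : (ι → V.C) → _) := by
  refine Measurable.prodMk (measurable_pi_lambda _ fun j => measurable_pi_apply _) ?_
  exact z.meas.comp (measurable_pi_apply s)

omit [DecidableEq ι] in
/-- (R4) exactness of the represented factor -/
theorem exists_exact_map {A Y : Sys Γ} (y : Fac A Y) (m : A.Sub)
    {V : Sys Γ} (z : Fac V Y) (e : Fac A V) (hz : ∀ a, z.f (e.f a) = y.f a)
    (he : Measurable[m.1] e.f) (hgen : LeAE A.μ m.1 (MeasurableSpace.comap e.f V.mC))
    (r : Ultrafilter (ι → Γ)) (s : ι)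
    (hex : LeAE (D r A).μ (slot s m.1)
      ((⨆ j, ⨆ (_ : j ≠ s), slot j m.1) ⊔ slot s (MeasurableSpace.comap y.f Y.mC))) :
    ∃ R : ({j : ι // j ≠ s} → V.C) × Y.C → V.C, Measurable R ∧
      ∀ᵐ d ∂(D r V).μ, d s = R (z.side s d) := by
  -- the map to the side of the represented line
  let g : (ι → A.C) → ({j : ι // j ≠ s} → V.C) × Y.C := fun d => z.side s fun i => e.f (d i)
  have hem : Measurable (fun (d : ι → A.C) i => e.f (d i)) :=
    measurable_pi_lambda _ fun i => e.meas.comp (measurable_pi_apply i)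
  have hg : Measurable g := (measurable_side z s).comp hem
  have h1 : ∀ j, j ≠ s → LeAE (D r A).μ (slot j m.1) (MeasurableSpace.comap g inferInstance) := by
    rintro j hj _ ⟨B, hB, rfl⟩
    obtain ⟨_, ⟨C, hC, rfl⟩, hBC⟩ := hgen B hB
    refine ⟨(fun d : ι → A.C => d j) ⁻¹' (e.f ⁻¹' C), ?_, ?_⟩
    · refine ⟨{p | p.1 ⟨j, hj⟩ ∈ C}, ?_, rfl⟩
      exact ((measurable_pi_apply _).comp measurable_fst) hC
    · exact (evF r A j).mp.quasiMeasurePreserving.preimage_ae_eq hBC
  have h2 : LeAE (D r A).μ (slot s (MeasurableSpace.comap y.f Y.mC))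
      (MeasurableSpace.comap g inferInstance) := by
    rintro _ ⟨_, ⟨B, hB, rfl⟩, rfl⟩
    refine ⟨_, ⟨{p | p.2 ∈ B}, measurable_snd hB, rfl⟩, ?_⟩
    refine Filter.EventuallyEq.of_eq ?_
    ext d
    change y.f (d s) ∈ B ↔ z.f (e.f (d s)) ∈ B
    rw [hz]
  have h3 : LeAE (D r A).μ
      ((⨆ j, ⨆ (_ : j ≠ s), slot j m.1) ⊔ slot s (MeasurableSpace.comap y.f Y.mC))
      (MeasurableSpace.comap g inferInstance) := by
    have hj : ∀ j, slot j m.1 ≤ (D r A).mC := fun j => ExF.slot_le j m.2
    refine LeAE.sup (m0 := (D r A).mC) (iSup_le fun j => iSup_le fun _ => hj j)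
      (ExF.slot_le s y.meas.comap_le) ?_ h2
    refine LeAE.iSup (m0 := (D r A).mC) (fun j => iSup_le fun _ => hj j) fun j => ?_
    exact LeAE.iSup (m0 := (D r A).mC) (fun _ => hj j) fun h => h1 j h
  have h4 : LeAE (D r A).μ (slot s m.1) (MeasurableSpace.comap g inferInstance) := hex.trans h3
  obtain ⟨R, hR, hRae⟩ := exists_comp_ae_eq (P := (D r A).μ) (B := fun d : ι → A.C => e.f (d s))
    (A := g) (fun C hC => h4 _ ⟨e.f ⁻¹' C, he hC, rfl⟩)
  refine ⟨R, hR, ?_⟩
  have hset : MeasurableSet {d : ι → V.C | d s = R (z.side s d)} :=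
    measurableSet_eq_fun (measurable_pi_apply s) (hR.comp (measurable_side z s))
  have h5 := (e.D r).mp.map_eq
  change (D r A).μ.map (fun (d : ι → A.C) i => e.f (d i)) = (D r V).μ at h5
  rw [← h5, ae_map_iff hem.aemeasurable hset]
  exact hRae

end exact

end Rep

end Vale.Agent.N102G

end

section
/-!
P102, block EXF / REP (helper177), part 2: the factor `Xe` of `X` generated by finitely many
functions which are measurable with respect to the represented σ-algebra, as a factor of `V`.
-/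

namespace Vale.Agent.N102G

open Vale.Agent.P102.RM
variable {Γ : Type} [AddCommGroup Γ]

open MeasureTheory Filter Topology ProbabilityTheory Set
open Vale.Agent.P102.RM.ExF (LeAE slot)

/-- the map to the product space generated by functions and all their translates -/
def transMap (B : Sys Γ) {J : Type} (g : J → B.C → ℂ) : B.C → (Γ × J → ℂ) :=
  fun v mn => g mn.2 (B.it mn.1 v)

theorem measurable_transMap (B : Sys Γ) {J : Type} {g : J → B.C → ℂ} (hg : ∀ j, Measurable (g j)) :
    Measurable (transMap B g) :=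
  measurable_pi_lambda _ fun mn => (hg mn.2).comp (measurable_iter B.S mn.1)

theorem transMap_eqv (B : Sys Γ) {J : Type} (g : J → B.C → ℂ) (c : Γ) (v : B.C) :
    transMap B g (iter B.S c v) = iter (shiftE J ℂ) c (transMap B g v) := by
  funext mn
  simp only [transMap, shiftE_apply]
  congr 1
  exact (iter_add B.S mn.1 c v).symm

/-- (R2) the factor of `X` generated by finitely many functions `φ j` such that all `φ j ∘ x` are
`m`-measurable modulo null sets is a factor of the represented factor `V` of `m` -/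
theorem exists_Xe [Countable Γ] {X A V : Sys Γ} (x : Fac A X) (e : Fac A V) (m : A.Sub)
    (hgen : LeAE A.μ m.1 (MeasurableSpace.comap e.f V.mC))
    {J : Type} [Countable J] (φ : J → X.C → ℂ) (hφ : ∀ j, Bdd (φ j))
    (hm : ∀ j, LeAE A.μ (MeasurableSpace.comap (fun w => φ j (x.f w)) inferInstance) m.1) :
    ∃ (Xe : Sys Γ) (ax : Fac X Xe) (xi : Fac V Xe),
      (∀ᵐ w ∂A.μ, xi.f (e.f w) = ax.f (x.f w)) ∧
      ∃ ψ : J → Xe.C → ℂ, (∀ j, Bdd (ψ j)) ∧ ∀ j a, ψ j (ax.f a) = φ j a := by
  classical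
  have hφm : ∀ j, Measurable (φ j) := fun j => (hφ j).1
  have hax := measurable_transMap X hφm
  let Xe : Sys Γ := X.image (Γ × J → ℂ) (transMap X φ) hax (shiftE J ℂ) (transMap_eqv X φ)
  let ax : Fac X Xe := X.imageFac (Γ × J → ℂ) (transMap X φ) hax (shiftE J ℂ) (transMap_eqv X φ)
  have hg : ∀ j, ∃ g : V.C → ℂ, Measurable g ∧
      (fun w => φ j (x.f w)) =ᵐ[A.μ] fun w => g (e.f w) := by
    intro j
    refine exists_comp_ae_eq (P := A.μ) (B := fun w => φ j (x.f w)) (A := e.f) fun s hs => ?_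
    exact ((hm j).trans hgen) _ ⟨s, hs, rfl⟩
  choose g hgm hgae using hg
  have hxm := measurable_transMap V hgm
  have hae : ∀ᵐ w ∂A.μ, transMap V g (e.f w) = transMap X φ (x.f w) := by
    have h1 : ∀ᵐ w ∂A.μ, ∀ (mn : Γ × J),
        φ mn.2 (x.f (iter A.S mn.1 w)) = g mn.2 (e.f (iter A.S mn.1 w)) := by
      rw [ae_all_iff]
      intro mn
      exact (iter_mp A.S A.mp mn.1).quasiMeasurePreserving.ae (hgae mn.2)
    filter_upwards [h1] with w hw
    funext mn
    have h2 := hw mn
    rw [Fac.iter, Fac.iter] at h2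
    exact h2.symm
  have hmap : V.μ.map (transMap V g) = Xe.μ := by
    change V.μ.map (transMap V g) = X.μ.map (transMap X φ)
    rw [← e.mp.map_eq, ← x.mp.map_eq, Measure.map_map hxm e.meas, Measure.map_map hax x.meas]
    exact Measure.map_congr hae
  let xi : Fac V Xe := ⟨transMap V g, ⟨hxm, hmap⟩, transMap_eqv V g⟩
  refine ⟨Xe, ax, xi, hae, ?_⟩
  choose C hC using fun j => (hφ j).2
  refine ⟨fun j c => if ‖(c : Γ × J → ℂ) (0, j)‖ ≤ C j then (c : Γ × J → ℂ) (0, j) else 0,
    fun j => ⟨?_, |C j|, fun c => ?_⟩, fun j a => ?_⟩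
  · have h0 : Measurable fun c : Γ × J → ℂ => c (0, j) := measurable_pi_apply _
    exact Measurable.ite (measurableSet_le h0.norm measurable_const) h0 measurable_const
  · dsimp only
    split_ifs with h
    · exact h.trans (le_abs_self _)
    · simp
  · have h1 : (ax.f a : Γ × J → ℂ) (0, j) = φ j a := by
      change φ j (X.it 0 a) = φ j a
      rw [Sys.it, iter_zero]
    change (if ‖(ax.f a : Γ × J → ℂ) (0, j)‖ ≤ C j then (ax.f a : Γ × J → ℂ) (0, j) else 0) = _
    rw [h1, if_pos (hC j a)]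

/-- means and joining integrals of the represented functions -/
theorem integral_rep {X Xe : Sys Γ} (ax : Fac X Xe) {ι : Type} [Fintype ι]
    (r : Ultrafilter (ι → Γ)) {φ : ι → X.C → ℂ} {ψ : ι → Xe.C → ℂ} (hψ : ∀ i, Bdd (ψ i))
    (h : ∀ i a, ψ i (ax.f a) = φ i a) :
    (∀ i, ∫ b, ψ i b ∂Xe.μ = ∫ a, φ i a ∂X.μ) ∧
      ∫ d, ∏ i, ψ i (d i) ∂(D r Xe).μ = ∫ d, ∏ i, φ i (d i) ∂(D r X).μ := by
  constructor
  · intro i
    rw [← ax.mp.map_eq, integral_map ax.meas.aemeasurable
      (by rw [ax.mp.map_eq]; exact (hψ i).1.aestronglyMeasurable)]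
    exact integral_congr_ae (ae_of_all _ fun a => h i a)
  · have hm : Measurable (fun d : ι → Xe.C => ∏ i, ψ i (d i)) :=
      Finset.measurable_prod _ fun i _ => (hψ i).1.comp (measurable_pi_apply i)
    have h1 := (ax.D r).mp.map_eq
    rw [← h1, integral_map (ax.D r).meas.aemeasurable
      (by rw [h1]; exact hm.aestronglyMeasurable)]
    refine integral_congr_ae (ae_of_all _ fun d => ?_)
    change ∏ i, ψ i (ax.f (d i)) = ∏ i, φ i (d i)
    simp only [h]

end Vale.Agent.N102G

end

section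
/-!
P102, block EXF, R3: conditional expectations `Fac.ce` under factor maps, and transfer of
`LineInd` / `GridInd` to a factor over the same base.
-/

namespace Vale.Agent.N102G

open Vale.Agent.P102.RM
variable {Γ : Type} [AddCommGroup Γ]

open MeasureTheory Filter ProbabilityTheory

section ce

variable {A B V Y : Sys Γ}

theorem Fac.ce_meas (p : Fac A B) {f : A.C → ℂ} (hf : Bdd f) : Measurable (p.ce f) := by
  unfold Fac.ce
  have h1 : StronglyMeasurable f := hf.1.stronglyMeasurable
  exact (h1.integral_kernel (κ := p.om)).measurable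

theorem Fac.ce_bdd (p : Fac A B) {f : A.C → ℂ} (hf : Bdd f) : Bdd (p.ce f) := by
  obtain ⟨C, hC⟩ := hf.2
  refine ⟨p.ce_meas hf, C, fun b => ?_⟩
  unfold Fac.ce
  have h1 := norm_integral_le_of_norm_le_const (μ := p.om b) (Eventually.of_forall hC)
  simpa using h1

/-- `ce` is the conditional expectation. -/
theorem Fac.ce_condExp (p : Fac A B) {f : A.C → ℂ} (hf : Bdd f) :
    A.μ[f | MeasurableSpace.comap p.f inferInstance] =ᵐ[A.μ] fun a => p.ce f (p.f a) :=
  condExp_ae_eq_integral_condDistrib_id (μ := A.μ) p.meas (hf.integrable A.μ)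

/-- `ce` does not change under factors over the same base. -/
theorem Fac.ce_comp (e : Fac A V) (y : Fac A Y) (z : Fac V Y) (h : ∀ a, z.f (e.f a) = y.f a)
    {f : V.C → ℂ} (hf : Bdd f) : y.ce (fun a => f (e.f a)) =ᵐ[Y.μ] z.ce f := by
  have hfe : Bdd (fun a => f (e.f a)) := hf.comp e.meas
  have h1 := y.ce_condExp hfe
  have h2 := z.ce_condExp hf
  have h3 : A.μ[f ∘ e.f | (MeasurableSpace.comap z.f Y.mC).comap e.f] =ᵐ[A.μ]
      (V.μ[f | MeasurableSpace.comap z.f Y.mC]) ∘ e.f :=
    condExp_comp_comap z.meas.comap_le e.mp (hf.integrable V.μ)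
  have h4 : (MeasurableSpace.comap z.f Y.mC).comap e.f = MeasurableSpace.comap y.f Y.mC := by
    rw [MeasurableSpace.comap_comp]
    congr 1
    funext a
    exact h a
  rw [h4] at h3
  have h5 : ∀ᵐ a ∂A.μ, y.ce (fun a => f (e.f a)) (y.f a) = z.ce f (y.f a) := by
    have h6 := e.mp.quasiMeasurePreserving.ae h2
    filter_upwards [h1, h3, h6] with a ha1 ha3 ha6
    have : (fun a => f (e.f a)) = f ∘ e.f := rfl
    rw [this] at ha1
    rw [this, ← ha1, ha3, Function.comp_apply, ha6, h a]
  rw [← y.mp.map_eq]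
  exact (ae_map_iff y.meas.aemeasurable (measurableSet_eq_fun (y.ce_meas hfe)
    (z.ce_meas hf))).2 h5

end ce

section trans

variable {ι : Type} [Fintype ι] [DecidableEq ι] {A V Y : Sys Γ} {r : Ultrafilter (ι → Γ)}

/-- transfer of `LineInd` to a factor over the same base -/
theorem LineInd.map (e : Fac A V) (y : Fac A Y) (z : Fac V Y) (h : ∀ a, z.f (e.f a) = y.f a)
    {s : ι} (hl : LineInd r y s) : LineInd r z s := by
  intro f g hf hg
  have hm := (e.D r).mp
  have hbd : ∀ i, Bdd (fun a => f i (e.f a)) := fun i => (hf i).comp e.meas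
  have hyD : Measurable (fun (d : ι → V.C) (i : ι) => z.f (d i)) :=
    measurable_pi_lambda _ fun i => z.meas.comp (measurable_pi_apply i)
  -- left side
  have hL : Bdd (fun d : ι → V.C => g (fun i => z.f (d i)) *
      ∏ j ∈ Finset.univ.erase s, f j (d j)) :=
    (hg.comp hyD).mul (Bdd.prod _ fun j _ => (hf j).comp (measurable_pi_apply j))
  have hR : Bdd (fun d : ι → V.C => g (fun i => z.f (d i)) *
      ∏ j ∈ Finset.univ.erase s, z.ce (f j) (z.f (d j))) :=
    (hg.comp hyD).mul (Bdd.prod _ fun j _ =>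
      (z.ce_bdd (hf j)).comp (z.meas.comp (measurable_pi_apply j)))
  have e1 : ∫ d, g (fun i => z.f (d i)) * ∏ j ∈ Finset.univ.erase s, f j (d j) ∂(D r V).μ =
      ∫ d, g (fun i => z.f (e.f (d i))) * ∏ j ∈ Finset.univ.erase s, f j (e.f (d j))
        ∂(D r A).μ := by
    rw [← hm.map_eq, integral_map (e.D r).meas.aemeasurable
      (hL.1.stronglyMeasurable.aestronglyMeasurable)]
    rfl
  have e2 : ∫ d, g (fun i => z.f (d i)) * ∏ j ∈ Finset.univ.erase s, z.ce (f j) (z.f (d j))
      ∂(D r V).μ = ∫ d, g (fun i => z.f (e.f (d i))) *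
        ∏ j ∈ Finset.univ.erase s, z.ce (f j) (z.f (e.f (d j))) ∂(D r A).μ := by
    rw [← hm.map_eq, integral_map (e.D r).meas.aemeasurable
      (hR.1.stronglyMeasurable.aestronglyMeasurable)]
    rfl
  rw [e1, e2]
  simp_rw [h]
  rw [hl (fun j a => f j (e.f a)) g hbd hg]
  refine integral_congr_ae ?_
  have hae : ∀ j, ∀ᵐ d ∂(D r A).μ,
      y.ce (fun a => f j (e.f a)) (y.f (d j)) = z.ce (f j) (y.f (d j)) := by
    intro j
    have h1 := Fac.ce_comp e y z h (hf j)
    have h2 := (y.mp.comp (evF r A j).mp).quasiMeasurePreserving.ae h1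
    exact h2
  filter_upwards [ae_all_iff.2 hae] with d hd
  congr 1
  exact Finset.prod_congr rfl fun j _ => hd j

/-- transfer of `GridInd` to a factor over the same base -/
theorem GridInd.map (e : Fac A V) (y : Fac A Y) (z : Fac V Y) (h : ∀ a, z.f (e.f a) = y.f a)
    {s s' : ι} (hl : GridInd r y s s') : GridInd r z s s' := by
  intro f g hf hg
  have hm := ((e.D r).D r).mp
  have hbd : ∀ i j, Bdd (fun a => f i j (e.f a)) := fun i j => (hf i j).comp e.meas
  have hev : ∀ i j, Measurable (fun d : ι → ι → V.C => d i j) := fun i j =>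
    (measurable_pi_apply j).comp (measurable_pi_apply i)
  have hyD : Measurable (fun (d : ι → ι → V.C) (i j : ι) => z.f (d i j)) :=
    measurable_pi_lambda _ fun i => measurable_pi_lambda _ fun j => z.meas.comp (hev i j)
  have hL : Bdd (fun d : ι → ι → V.C => g (fun i j => z.f (d i j)) *
      ∏ i ∈ Finset.univ.erase s, ∏ j ∈ Finset.univ.erase s', f i j (d i j)) :=
    (hg.comp hyD).mul (Bdd.prod _ fun i _ => Bdd.prod _ fun j _ => (hf i j).comp (hev i j))
  have hR : Bdd (fun d : ι → ι → V.C => g (fun i j => z.f (d i j)) *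
      ∏ i ∈ Finset.univ.erase s, ∏ j ∈ Finset.univ.erase s', z.ce (f i j) (z.f (d i j))) :=
    (hg.comp hyD).mul (Bdd.prod _ fun i _ => Bdd.prod _ fun j _ =>
      (z.ce_bdd (hf i j)).comp (z.meas.comp (hev i j)))
  have e1 : ∫ d, g (fun i j => z.f (d i j)) * ∏ i ∈ Finset.univ.erase s,
      ∏ j ∈ Finset.univ.erase s', f i j (d i j) ∂(D r (D r V)).μ =
      ∫ d, g (fun i j => z.f (e.f (d i j))) * ∏ i ∈ Finset.univ.erase s,
        ∏ j ∈ Finset.univ.erase s', f i j (e.f (d i j)) ∂(D r (D r A)).μ := by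
    rw [← hm.map_eq, integral_map ((e.D r).D r).meas.aemeasurable
      (hL.1.stronglyMeasurable.aestronglyMeasurable)]
    rfl
  have e2 : ∫ d, g (fun i j => z.f (d i j)) * ∏ i ∈ Finset.univ.erase s,
      ∏ j ∈ Finset.univ.erase s', z.ce (f i j) (z.f (d i j)) ∂(D r (D r V)).μ =
      ∫ d, g (fun i j => z.f (e.f (d i j))) * ∏ i ∈ Finset.univ.erase s,
        ∏ j ∈ Finset.univ.erase s', z.ce (f i j) (z.f (e.f (d i j))) ∂(D r (D r A)).μ := by
    rw [← hm.map_eq, integral_map ((e.D r).D r).meas.aemeasurable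
      (hR.1.stronglyMeasurable.aestronglyMeasurable)]
    rfl
  rw [e1, e2]
  simp_rw [h]
  rw [hl (fun i j a => f i j (e.f a)) g hbd hg]
  refine integral_congr_ae ?_
  have hae : ∀ i j, ∀ᵐ d ∂(D r (D r A)).μ,
      y.ce (fun a => f i j (e.f a)) (y.f (d i j)) = z.ce (f i j) (y.f (d i j)) := by
    intro i j
    have h1 := Fac.ce_comp e y z h (hf i j)
    have h2 := (y.mp.comp ((evF r A j).mp.comp (evF r (D r A) i).mp)).quasiMeasurePreserving.ae h1
    exact h2
  filter_upwards [ae_all_iff.2 fun i => ae_all_iff.2 fun j => hae i j] with d hd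
  congr 1
  exact Finset.prod_congr rfl fun i _ => Finset.prod_congr rfl fun j _ => hd i j

end trans

end Vale.Agent.N102G

end

section
/-!
P102, block EXF: the exact σ-algebra of an admissible pair, and its self-contained exactness,
from the ideal property.
-/

namespace Vale.Agent.N102G

open Vale.Agent.P102.RM
variable {Γ : Type} [AddCommGroup Γ]

open MeasureTheory Filter ProbabilityTheory ExF

/-- the σ-algebra of `Y` on `W` -/
@[reducible] def Fac.sa {A B : Sys Γ} (y : Fac A B) : MeasurableSpace A.C :=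
  MeasurableSpace.comap y.f inferInstance

theorem Fac.sa_le {A B : Sys Γ} (y : Fac A B) : y.sa ≤ A.mC := y.meas.comap_le

section
variable {ι : Type} [Fintype ι] [DecidableEq ι]

omit [Fintype ι] [DecidableEq ι] in
theorem comap_side {V Y : Sys Γ} (y : Fac V Y) (s : ι) :
    MeasurableSpace.comap (y.side s) inferInstance = sigG (ι := ι) y.sa s := by
  have h1 : MeasurableSpace.comap (y.side s) inferInstance =
      MeasurableSpace.comap (fun d : ι → V.C => fun j : {j : ι // j ≠ s} => d j)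
        MeasurableSpace.pi ⊔ MeasurableSpace.comap (fun d : ι → V.C => y.f (d s)) Y.mC := by
    exact MeasurableSpace.comap_prodMk _ _
  rw [h1]
  congr 1
  · rw [MeasurableSpace.comap_process_pi]
    rw [iSup_subtype]
  · rw [slot, Fac.sa, MeasurableSpace.comap_comp]
    rfl

omit [Fintype ι] [DecidableEq ι] in
theorem Fac.side_meas {V Y : Sys Γ} (y : Fac V Y) (s : ι) : Measurable (y.side s) :=
  (measurable_pi_lambda _ fun _ => measurable_pi_apply _).prodMk
    (y.meas.comp (measurable_pi_apply s))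

variable {X : Sys Γ} {P : Adm X} {r : Ultrafilter (ι → Γ)}

omit [DecidableEq ι] in
/-- the functions in `Exa` are measurable for the exact σ-algebra of slot `s` -/
theorem exa_measurable {s : ι} {Φ : P.W.C → ℂ} (h : Φ ∈ Exa P r s) :
    Measurable[mE P.y.sa (D r P.W).μ s] Φ := by
  obtain ⟨⟨hm, -⟩, g, hg, hae⟩ := h
  intro U hU
  refine ⟨hm hU, (measurable_pi_apply s) (hm hU), P.y.side s ⁻¹' (g ⁻¹' U), ?_, ?_⟩
  · rw [← comap_side]
    exact ⟨g ⁻¹' U, hg hU, rfl⟩
  · filter_upwards [hae] with d hd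
    apply propext
    change Φ (d s) ∈ U ↔ g (P.y.side s d) ∈ U
    rw [hd]

omit [DecidableEq ι] in
/-- indicators of exact sets are in `Exa` -/
theorem exa_indicator {s : ι} {K : Set P.W.C}
    (hK : MeasurableSet[mE P.y.sa (D r P.W).μ s] K) :
    K.indicator (fun _ => (1 : ℂ)) ∈ Exa P r s := by
  obtain ⟨hK0, -, B, hB, hae⟩ := hK
  rw [← comap_side] at hB
  obtain ⟨B', hB', rfl⟩ := hB
  refine ⟨Bdd.indicator hK0, B'.indicator (fun _ => (1 : ℂ)), measurable_const.indicator hB', ?_⟩
  filter_upwards [hae] with d hd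
  have h1 : (d s ∈ K) = (P.y.side s d ∈ B') := hd
  by_cases h2 : d s ∈ K
  · have h3 : P.y.side s d ∈ B' := h1 ▸ h2
    rw [Set.indicator_of_mem h2, Set.indicator_of_mem h3]
  · have h3 : P.y.side s d ∉ B' := fun h => h2 (h1 ▸ h)
    rw [Set.indicator_of_notMem h2, Set.indicator_of_notMem h3]

omit [DecidableEq ι] in
/-- conditional expectation of a real function given slot `t`, through `cl` -/
theorem condExp_ae_eq_cl (r : Ultrafilter (ι → Γ)) (A : Sys Γ) (t : ι) {F : (ι → A.C) → ℝ}
    (hF : Measurable F) {C : ℝ} (hC : ∀ d, |F d| ≤ C) :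
    (D r A).μ[F | slot t A.mC] =ᵐ[(D r A).μ]
      fun d => (cl r A t (fun d => (F d : ℂ)) (d t)).re := by
  have hi : Integrable F (D r A).μ :=
    Integrable.of_bound hF.aestronglyMeasurable C (Eventually.of_forall hC)
  have hev : @Measurable (D r A).C A.C (D r A).mC A.mC (fun d : (D r A).C => d t) :=
    measurable_pi_apply (X := fun _ : ι => A.C) t
  have h1 := condExp_ae_eq_integral_condDistrib_id (μ := (D r A).μ)
    (X := fun d : (D r A).C => d t) hev hi
  refine h1.trans (Eventually.of_forall fun d => ?_)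
  have h2 : cl r A t (fun d => (F d : ℂ)) (d t) =
      ((∫ y, F y ∂condDistrib id (fun d : (D r A).C => d t) (D r A).μ (d t) : ℝ) : ℂ) := by
    unfold cl cE
    exact integral_ofReal
  simp only [h2, Complex.ofReal_re]

/-- the ideal property gives the closure hypothesis -/
theorem closureHyp_of_ideal {I : Set ι}
    (h : ∀ s ∈ I, ∀ (t b : ι), t ≠ b → ∀ (f : ι → P.W.C → ℂ), (∀ i, Bdd (f i)) →
      ∀ Φ ∈ Exa P r s, cl r P.W t (fun d => (∏ a ∈ (Finset.univ.erase t).erase b, f a (d a)) *
        Φ (d b)) ∈ Exa P r s) :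
    ClosureHyp P.y.sa (D r P.W).μ I := by
  intro s hs t b hbt A hA K hK
  have hK0 : MeasurableSet K := mE_le s _ hK
  set S : Set (ι → P.W.C) := (⋂ a ∈ (Finset.univ.erase t).erase b,
    (fun w : ι → P.W.C => w a) ⁻¹' A a) ∩ (fun w : ι → P.W.C => w b) ⁻¹' K with hS
  have hSm : MeasurableSet S :=
    (Finset.measurableSet_biInter _ fun a _ => measurable_pi_apply a (hA a)).inter
      (measurable_pi_apply b hK0)
  have h1 := h s hs t b (Ne.symm hbt) (fun a => (A a).indicator (fun _ => (1 : ℂ)))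
    (fun a => Bdd.indicator (hA a)) _ (exa_indicator hK)
  have h2 : (fun d : ι → P.W.C => (∏ a ∈ (Finset.univ.erase t).erase b,
      (A a).indicator (fun _ => (1 : ℂ)) (d a)) * K.indicator (fun _ => (1 : ℂ)) (d b)) =
      fun d => ((S.indicator (fun _ => (1 : ℝ)) d : ℝ) : ℂ) := by
    funext d
    by_cases hd : d ∈ S
    · rw [Set.indicator_of_mem hd]
      obtain ⟨h3, h4⟩ := hd
      have h4' : d b ∈ K := h4
      rw [Set.indicator_of_mem h4']
      rw [Finset.prod_eq_one]
      · simp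
      · intro a ha
        have : d a ∈ A a := by
          have := Set.mem_iInter₂.1 h3 a ha
          exact this
        rw [Set.indicator_of_mem this]
    · rw [Set.indicator_of_notMem hd]
      by_cases h4 : d b ∈ K
      · have h3 : ∃ a ∈ (Finset.univ.erase t).erase b, d a ∉ A a := by
          by_contra hcon
          push Not at hcon
          exact hd ⟨Set.mem_iInter₂.2 hcon, h4⟩
        obtain ⟨a, ha, had⟩ := h3
        rw [Finset.prod_eq_zero ha (Set.indicator_of_notMem had _)]
        simp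
      · rw [Set.indicator_of_notMem h4]
        simp
  rw [h2] at h1
  have h3 := condExp_ae_eq_cl r P.W t (F := S.indicator (fun _ => (1 : ℝ)))
    (measurable_const.indicator hSm) (C := 1) (fun d => by
      by_cases hd : d ∈ S <;> simp [hd])
  have hg := exa_measurable h1
  have hg2 : Measurable[slot t (mE P.y.sa (D r P.W).μ s)] (fun d : ι → P.W.C =>
      (cl r P.W t (fun d => ((S.indicator (fun _ => (1 : ℝ)) d : ℝ) : ℂ)) (d t)).re) := by
    have h4 : Measurable[mE P.y.sa (D r P.W).μ s] (fun w : P.W.C =>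
      (cl r P.W t (fun d => ((S.indicator (fun _ => (1 : ℝ)) d : ℝ) : ℂ)) w).re) :=
      Complex.measurable_re.comp hg
    exact h4.comp (comap_measurable _)
  exact ⟨_, hg2.stronglyMeasurable, h3⟩

/-- The exact σ-algebra (slots in `I`) of the pair. -/
@[reducible] noncomputable def Adm.mX (P : Adm X) (r : Ultrafilter (ι → Γ)) (I : Set ι) :
    MeasurableSpace P.W.C :=
  mEx P.y.sa (D r P.W).μ I

omit [DecidableEq ι] in
theorem Adm.sa_le_mX (P : Adm X) (r : Ultrafilter (ι → Γ)) (I : Set ι) :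
    P.y.sa ≤ P.mX r I := le_mEx P.y.sa_le I

omit [DecidableEq ι] in
theorem Adm.mX_le (P : Adm X) (r : Ultrafilter (ι → Γ)) {I : Set ι} (hI : I.Nonempty) :
    P.mX r I ≤ P.W.mC := mEx_le hI

omit [DecidableEq ι] in
theorem Adm.measurable_S_mX (P : Adm X) (r : Ultrafilter (ι → Γ)) (I : Set ι) (g : Γ) :
    @Measurable _ _ (P.mX r I) (P.mX r I) (iter P.W.S g) := by
  rw [measurable_iff_comap_le]
  refine comap_mEx_le (measurable_iter P.W.S g) ?_ ((D r P.W).mp g) I
  rintro _ ⟨_, ⟨B, hB, rfl⟩, rfl⟩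
  refine ⟨iter P.Y.S g ⁻¹' B, measurable_iter P.Y.S g hB, ?_⟩
  ext a
  simp only [Set.mem_preimage, P.y.eqv]

omit [DecidableEq ι] in
/-- functions exact in all slots of `I` are `mX`-measurable -/
theorem exa_measurable_mX {I : Set ι} {Φ : P.W.C → ℂ} (h : ∀ s ∈ I, Φ ∈ Exa P r s) :
    Measurable[P.mX r I] Φ := by
  intro U hU
  rw [MeasurableSpace.measurableSet_iInf]
  intro s
  rw [MeasurableSpace.measurableSet_iInf]
  intro hs
  exact exa_measurable (h s hs) hU

/-- **Self-contained exactness** for an admissible pair with the ideal property. -/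
theorem Adm.exact_mX {I : Set ι}
    (h : ∀ s ∈ I, ∀ (t b : ι), t ≠ b → ∀ (f : ι → P.W.C → ℂ), (∀ i, Bdd (f i)) →
      ∀ Φ ∈ Exa P r s, cl r P.W t (fun d => (∏ a ∈ (Finset.univ.erase t).erase b, f a (d a)) *
        Φ (d b)) ∈ Exa P r s) {s : ι} (hs : s ∈ I) :
    LeAE (D r P.W).μ (slot s (P.mX r I))
      ((⨆ j, ⨆ (_ : j ≠ s), slot j (P.mX r I)) ⊔ slot s P.y.sa) :=
  exact_self_contained P.y.sa_le (fun j => limM_map_eval r P.W j) (closureHyp_of_ideal h) hs

end

end Vale.Agent.N102G

end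

section
/-!
P102, block EXF, R4: from exactness of σ-algebras mod null sets to the exactness functions of `EP`.
-/

namespace Vale.Agent.N102G

open Vale.Agent.P102.RM
variable {Γ : Type} [AddCommGroup Γ]

open MeasureTheory Filter ProbabilityTheory ExF

section
variable {ι : Type} [Fintype ι] [DecidableEq ι] {r : Ultrafilter (ι → Γ)}

omit [DecidableEq ι] in
/-- slots of σ-algebras contained mod null sets. -/
theorem leAE_slot {A : Sys Γ} (m n : Unit → MeasurableSpace A.C) (h : LeAE A.μ (m ()) (n ()))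
    (s : ι) : LeAE (D r A).μ (slot s (m ())) (slot s (n ())) := by
  rintro _ ⟨B, hB, rfl⟩
  obtain ⟨C, hC, hBC⟩ := h B hB
  exact ⟨_, ⟨C, hC, rfl⟩, (evF r A s).mp.quasiMeasurePreserving.preimage_ae_eq hBC⟩

omit [DecidableEq ι] in
/-- R4: the exactness function of a factor `V` of `A` that represents the σ-algebra `m ()`. -/
theorem exists_exact_fun {A V Y : Sys Γ} (e : Fac A V) (y : Fac A Y) (z : Fac V Y)
    (h : ∀ a, z.f (e.f a) = y.f a) (m : Unit → MeasurableSpace A.C) (hm : m () ≤ A.mC)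
    (he : MeasurableSpace.comap e.f V.mC ≤ m ())
    (hgen : LeAE A.μ (m ()) (MeasurableSpace.comap e.f V.mC))
    (s : ι) (hex : LeAE (D r A).μ (slot s (m ()))
      ((⨆ j, ⨆ (_ : j ≠ s), slot j (m ())) ⊔ slot s y.sa)) :
    ∃ R : ({j : ι // j ≠ s} → V.C) × Y.C → V.C, Measurable R ∧
      ∀ᵐ d ∂(D r V).μ, d s = R (z.side s d) := by
  have hmV : ∀ j : ι, slot j (m ()) ≤ (D r A).mC := fun j => slot_le j hm
  have hYle : slot s y.sa ≤ (D r A).mC := slot_le s y.sa_le
  -- σ(e (d s)) ⊂ σ(z.side s (e ∘ d)) mod null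
  have h1 : LeAE (D r A).μ (slot s (MeasurableSpace.comap e.f V.mC))
      ((⨆ j, ⨆ (_ : j ≠ s), slot j (MeasurableSpace.comap e.f V.mC)) ⊔ slot s y.sa) := by
    refine (LeAE.le_trans (slot_mono he) hex).trans ?_
    refine LeAE.sup (iSup_le fun j => iSup_le fun _ => hmV j) hYle ?_
      (LeAE.of_le le_sup_right)
    refine LeAE.iSup (fun j => iSup_le fun _ => hmV j) fun j => ?_
    refine LeAE.iSup (fun _ => hmV j) fun hj => ?_
    exact (leAE_slot m (fun _ => MeasurableSpace.comap e.f V.mC) hgen j).trans_le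
      (le_sup_of_le_left (le_iSup_of_le j (le_iSup_of_le hj le_rfl)))
  have hside : MeasurableSpace.comap (fun d : (D r A).C => z.side s (fun j => e.f (d j)))
      inferInstance =
      (⨆ j, ⨆ (_ : j ≠ s), slot j (MeasurableSpace.comap e.f V.mC)) ⊔ slot s y.sa := by
    have h2 : (fun d : ι → A.C => z.side s (fun j => e.f (d j))) =
        z.side s ∘ (fun (d : ι → A.C) j => e.f (d j)) := rfl
    rw [h2, ← MeasurableSpace.comap_comp, comap_side, sigG]
    rw [MeasurableSpace.comap_sup, MeasurableSpace.comap_iSup]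
    congr 1
    · congr 1
      funext j
      rw [MeasurableSpace.comap_iSup]
      congr 1
      funext _
      rw [slot, slot, MeasurableSpace.comap_comp, MeasurableSpace.comap_comp]
      rfl
    · rw [slot, slot, MeasurableSpace.comap_comp, Fac.sa, Fac.sa, MeasurableSpace.comap_comp,
        MeasurableSpace.comap_comp]
      congr 1
      funext d
      exact h (d s)
  have hg : Measurable (fun d : (D r A).C => z.side s (fun j => e.f (d j))) :=
    (z.side_meas s).comp (e.D r).meas
  have hh : Measurable (fun d : (D r A).C => e.f (d s)) :=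
    e.meas.comp (measurable_pi_apply (X := fun _ : ι => A.C) s)
  have hLe : LeAE (D r A).μ (V.mC.comap (fun d : (D r A).C => e.f (d s)))
      (MeasurableSpace.comap (fun d : (D r A).C => z.side s (fun j => e.f (d j)))
        inferInstance) := by
    rw [hside]
    have h3 : V.mC.comap (fun d : (D r A).C => e.f (d s)) =
        slot s (MeasurableSpace.comap e.f V.mC) := by
      rw [slot, MeasurableSpace.comap_comp]
      rfl
    rw [h3]
    exact h1
  obtain ⟨R, hR, hae⟩ := exists_factor_of_leAE (P := (D r A).μ) hg hh hLe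
  refine ⟨R, hR, ?_⟩
  rw [← (e.D r).mp.map_eq]
  have hms : MeasurableSet {d : (D r V).C | d s = R (z.side s d)} :=
    measurableSet_eq_fun (measurable_pi_apply (X := fun _ : ι => V.C) s)
      (hR.comp (z.side_meas s))
  exact (ae_map_iff (e.D r).meas.aemeasurable hms).2 hae

end

end Vale.Agent.N102G

end

section
/-!
P102, block EXF: assembly of the exact factor.
-/

namespace Vale.Agent.N102G

open Vale.Agent.P102.RM
variable {Γ : Type} [AddCommGroup Γ]

open MeasureTheory Filter ProbabilityTheory ExF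

/-- **Block EXF** from the line and grid independence and the ideal property. -/
theorem b_exf_of [Countable Γ] (hLINE : B_LINE Γ) (hGRID : B_GRID Γ) (hIDEAL : B_IDEAL Γ) : B_EXF Γ := by
  intro X P ι _ _ r hcard hK hM hN p q hpq hφ
  obtain ⟨φ, hφb, hφe, hφ0, hφn⟩ := hφ
  classical
  let I : Set ι := {p, q}
  have hpI : p ∈ I := Set.mem_insert _ _
  have hqI : q ∈ I := Set.mem_insert_of_mem _ rfl
  have hI : I.Nonempty := ⟨p, hpI⟩
  let m : P.W.Sub := ⟨P.mX r I, P.mX_le r hI⟩
  have hideal : ∀ s ∈ I, ∀ (t b : ι), t ≠ b → ∀ (f : ι → P.W.C → ℂ), (∀ i, Bdd (f i)) →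
      ∀ Φ ∈ Exa P r s, cl r P.W t (fun d => (∏ a ∈ (Finset.univ.erase t).erase b, f a (d a)) *
        Φ (d b)) ∈ Exa P r s :=
    fun s _ t b htb f hf Φ hΦ => hIDEAL X P ι r hcard hK hM hN s t b htb f hf Φ hΦ
  have hex : ∀ s ∈ I, LeAE (D r P.W).μ (slot s m.1)
      ((⨆ j, ⨆ (_ : j ≠ s), slot j m.1) ⊔ slot s (MeasurableSpace.comap P.y.f P.Y.mC)) :=
    fun s hs => Adm.exact_mX hideal hs
  have hy : Measurable[m.1] P.y.f := by
    rw [measurable_iff_comap_le]
    exact P.sa_le_mX r I
  obtain ⟨V, z, e, hz, he, hgen⟩ := exists_rep P.y m hy (P.measurable_S_mX r I)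
  obtain ⟨Rp, mRp, hRp⟩ := exists_exact_map P.y m z e hz he hgen r p (hex p hpI)
  obtain ⟨Rq, mRq, hRq⟩ := exists_exact_map P.y m z e hz he hgen r q (hex q hqI)
  -- the exact part of `X`
  have hφm : ∀ i, LeAE P.W.μ (MeasurableSpace.comap (fun w => φ i (P.x.f w)) inferInstance)
      m.1 := by
    intro i
    refine LeAE.of_le ?_
    have h1 : Measurable[m.1] (fun w => φ i (P.x.f w)) := by
      refine exa_measurable_mX (I := I) ?_
      rintro s (rfl | hs)
      · exact (hφe i).1
      · rw [Set.mem_singleton_iff] at hs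
        rw [hs]
        exact (hφe i).2
    exact measurable_iff_comap_le.1 h1
  obtain ⟨Xe, ax, xi, hxi, ψ, hψ, hψφ⟩ := exists_Xe P.x e m hgen φ hφb hφm
  obtain ⟨hint0, hintD⟩ := integral_rep ax r hψ hψφ
  refine ⟨{
    E := {
      V := V
      y := z
      Rp := Rp
      Rq := Rq
      mRp := mRp
      mRq := mRq
      hRp := hRp
      hRq := hRq
      line := fun s => LineInd.map e P.y z hz (hLINE X P ι r hM hK s)
      grid := fun s s' => GridInd.map e P.y z hz (hGRID X P ι r hM hK s s') }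
    e := e
    hy := hz
    Xe := Xe
    ax := ax
    xi := xi
    hxi := hxi
    nt := ⟨ψ, hψ, fun i => ?_, ?_⟩ }⟩
  · rw [hint0, hφ0]
  · rw [hintD]
    exact hφn

end Vale.Agent.N102G

end
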