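import Vale.Agent.N102G.G4

set_option linter.all false

section
/-! P102, dynamic inputs of the block END (helper41). -/

namespace Vale.Agent.N102G

open Vale.Agent.P102.RM
variable {Γ : Type} [AddCommGroup Γ]

open MeasureTheory ProbabilityTheory Filter

section

variable {ι : Type} [Fintype ι]

/-- equivariance of the line kernel -/
theorem lineK_equiv (r : Ultrafilter (ι → Γ)) {V Y : Sys Γ} (y : Fac V Y) (g : Γ) :
    ∀ᵐ η ∂(D r Y).μ, y.lineK r (fun i => iter Y.S g (η i)) =
      (y.lineK r η).map (fun v i => iter V.S g (v i)) := by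
  have hA : Measurable (fun (d : (D r V).C) (i : ι) => y.f (d i)) := (y.D r).mp.measurable
  have hτ : Measurable (fun (v : ι → V.C) (i : ι) => iter V.S g (v i)) :=
    measurable_iter (diag ι V) g
  have hmp : MeasurePreserving (fun (v : ι → V.C) (i : ι) => iter V.S g (v i)) (D r V).μ
      (D r V).μ := (D r V).mp g
  have hlaw : (D r V).μ.map (fun d : (D r V).C => ((diag ι Y).e g (fun i => y.f (d i)),
      (fun (v : ι → V.C) (i : ι) => iter V.S g (v i)) (id d))) =
      (D r V).μ.map (fun d : (D r V).C => ((fun i => y.f (d i)), id d)) := by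
    have h1 : (fun d : (D r V).C => ((diag ι Y).e g (fun i => y.f (d i)),
        (fun (v : ι → V.C) (i : ι) => iter V.S g (v i)) (id d))) =
        (fun d : (D r V).C => ((fun i => y.f (d i)), id d)) ∘
          (fun (v : ι → V.C) (i : ι) => iter V.S g (v i)) := by
      funext d
      simp only [Function.comp, id, Prod.mk.injEq, and_true]
      funext i
      simp [y.eqv]
    rw [h1, ← Measure.map_map (hA.prodMk measurable_id) hτ, hmp.map_eq]
  have h2 := condDistrib_equivariant (P := (D r V).μ) hA measurable_id ((diag ι Y).e g) hτ hlaw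
  rw [show (D r V).μ.map (fun (d : (D r V).C) (i : ι) => y.f (d i)) = (D r Y).μ from
    (y.D r).mp.map_eq] at h2
  filter_upwards [h2] with η hη
  exact hη

/-- a factor which is independent of the base keeps its law in almost every fibre -/
theorem lineK_map_indep (r : Ultrafilter (ι → Γ)) {V Y X' : Sys Γ} (y : Fac V Y) (ξ : Fac V X')
    (h : IndepFun ξ.f y.f V.μ) (q : ι) :
    ∀ᵐ η ∂(D r Y).μ, (y.lineK r η).map (fun v => ξ.f (v q)) = X'.μ := by
  have hA : Measurable (fun (d : (D r V).C) (i : ι) => y.f (d i)) := (y.D r).mp.measurable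
  have h1 : IndepFun (ξ.D r).f (y.D r).f (D r V).μ := indep_D r ξ y h
  have hB : Measurable (fun (v : ι → V.C) => ξ.f (v q)) := ξ.meas.comp (measurable_pi_apply q)
  have h2 : IndepFun (fun (d : (D r V).C) (i : ι) => y.f (d i))
      (fun d : (D r V).C => ξ.f (d q)) (D r V).μ :=
    h1.symm.comp (φ := id) (ψ := fun e : ι → X'.C => e q) measurable_id (measurable_pi_apply q)
  have h3 : (D r V).μ.map (fun d : (D r V).C => ξ.f (d q)) = X'.μ := by
    have := (ξ.mp.comp (evF r V q).mp).map_eq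
    exact this
  have h4 : (D r V).μ.map (fun d : (D r V).C => ((fun i => y.f (d i)), ξ.f (d q))) =
      (D r V).μ.map (fun (d : (D r V).C) (i : ι) => y.f (d i)) ⊗ₘ Kernel.const _ X'.μ := by
    rw [(indepFun_iff_map_prod_eq_prod_map_map hA.aemeasurable hB.aemeasurable).1 h2, h3,
      Measure.compProd_const]
  have h5 := condDistrib_ae_eq_of_measure_eq_compProd (μ := (D r V).μ)
    (fun (d : (D r V).C) (i : ι) => y.f (d i)) hB.aemeasurable h4
  have h6 := condDistrib_comp (μ := (D r V).μ) (mβ := MeasurableSpace.pi)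
    (fun (d : (D r V).C) (i : ι) => y.f (d i))
    (Y := (_root_.id : (D r V).C → (ι → V.C))) measurable_id.aemeasurable hB
  rw [show (D r V).μ.map (fun (d : (D r V).C) (i : ι) => y.f (d i)) = (D r Y).μ from
    (y.D r).mp.map_eq] at h5 h6
  filter_upwards [h5, h6] with η h7 h8
  have h9 : (y.lineK r η).map (fun v => ξ.f (v q)) =
      ((condDistrib (_root_.id : (D r V).C → (ι → V.C))
        (fun (d : (D r V).C) (i : ι) => y.f (d i)) (D r V).μ).map
          (fun v : ι → V.C => ξ.f (v q))) η := by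
    rw [Kernel.map_apply _ hB]; rfl
  rw [h9, ← h8]
  exact h7

variable [DecidableEq ι]

/-- the exact part of `X` is independent of the base -/
theorem ExF.indep {X : Sys Γ} {P : Adm X} {r : Ultrafilter (ι → Γ)} {p q : ι} (F : ExF P r p q) :
    IndepFun F.xi.f F.E.y.f F.E.V.μ := by
  have h1 : IndepFun (F.ax.f ∘ P.x.f) P.y.f P.W.μ :=
    P.ind.comp (φ := F.ax.f) (ψ := id) F.ax.meas measurable_id
  have h2 : IndepFun (fun w => F.xi.f (F.e.f w)) (fun w => F.E.y.f (F.e.f w)) P.W.μ := by
    refine IndepFun.congr h1 ?_ ?_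
    · filter_upwards [F.hxi] with w hw using hw.symm
    · exact Eventually.of_forall fun w => (F.hy w).symm
  rw [indepFun_iff_map_prod_eq_prod_map_map F.xi.meas.aemeasurable F.E.y.meas.aemeasurable]
  have h3 := (indepFun_iff_map_prod_eq_prod_map_map (F.xi.meas.comp F.e.meas).aemeasurable
    (F.E.y.meas.comp F.e.meas).aemeasurable).1 h2
  rw [← F.e.mp.map_eq, Measure.map_map (F.xi.meas.prodMk F.E.y.meas) F.e.meas,
    Measure.map_map F.xi.meas F.e.meas, Measure.map_map F.E.y.meas F.e.meas]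
  exact h3

theorem ExF.lineK_xi {X : Sys Γ} {P : Adm X} {r : Ultrafilter (ι → Γ)} {p q : ι}
    (F : ExF P r p q) : ∀ᵐ η ∂(D r P.Y).μ,
      MeasurePreserving F.xi.f ((F.E.y.lineK r η).map fun v => v q) F.Xe.μ := by
  filter_upwards [lineK_map_indep r F.E.y F.xi F.indep q] with η hη
  refine ⟨F.xi.meas, ?_⟩
  rw [Measure.map_map F.xi.meas (measurable_pi_apply q)]
  exact hη

omit [DecidableEq ι] in
/-- choice of a good line all of whose translates are related to one line -/
theorem exists_lines [Countable Γ] (r : Ultrafilter (ι → Γ)) {Y : Sys Γ}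
    {Good : (ι → Y.C) → Prop}
    {R : (ι → Y.C) → (ι → Y.C) → Prop} (hG : ∀ᵐ η ∂(D r Y).μ, Good η)
    (hR : ∀ᵐ η ∂(D r Y).μ, ∀ᵐ η' ∂(D r Y).μ, R η η') :
    ∃ η η', Good η ∧ R η η' ∧ ∀ g, R (fun i => iter Y.S g (η i)) η' := by
  have hS : ∀ g, MeasurePreserving (fun (η : ι → Y.C) (i : ι) => iter Y.S g (η i)) (D r Y).μ
      (D r Y).μ := fun g => (D r Y).mp g
  have h2 : ∀ᵐ η ∂(D r Y).μ, ∀ g, ∀ᵐ η' ∂(D r Y).μ, R (fun i => iter Y.S g (η i)) η' :=
    ae_all_iff.2 fun g => (hS g).quasiMeasurePreserving.ae hR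
  obtain ⟨η, ⟨h3, h5⟩, h6⟩ := ((hG.and hR).and h2).exists
  obtain ⟨η', h7, h8⟩ := (h5.and (ae_all_iff.2 h6)).exists
  exact ⟨η, η', h3, h7, h8⟩

end

end Vale.Agent.N102G

end

section
/-! P102, block CE: the constancy of the groups of characters and the end of the proof. -/

set_option linter.unusedSectionVars false

namespace Vale.Agent.N102G

open Vale.Agent.P102.RM
variable {Γ : Type} [AddCommGroup Γ]

open MeasureTheory ProbabilityTheory Filter Topology

variable {ι : Type} [Fintype ι] [DecidableEq ι]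

/-- over almost every base line of the second pair, the two lines below have isomorphic groups of
characters -/
theorem ae_ciso {X : Sys Γ} {P : Adm X} {r : Ultrafilter (ι → Γ)} (hc : 3 ≤ Fintype.card ι)
    {p q : ι} (hpq : p ≠ q) (F : ExF P r p q)
    (hT : ∀ᵐ η ∂(D r P.Y).μ, Total (F.E.y.lineK r η) p q) (d : PD F) :
    ∀ᵐ η ∂(D r d.Y0).μ, CIso p q (F.E.y.lineK r (fun i => d.v1.f (η i))) F.xi.f
      (F.E.y.lineK r (fun i => d.v2.f (η i))) F.xi.f := by
  have hT1 : ∀ᵐ η ∂(D r d.Y0).μ, Total (F.E.y.lineK r (fun i => d.v1.f (η i))) p q :=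
    (d.v1.D r).mp.quasiMeasurePreserving.ae hT
  have hT2 : ∀ᵐ η ∂(D r d.Y0).μ, Total (F.E.y.lineK r (fun i => d.v2.f (η i))) p q :=
    (d.v2.D r).mp.quasiMeasurePreserving.ae hT
  have hx1 : ∀ᵐ z ∂(D r d.Z).μ, F.xi.f (d.f1.f (z q)) = F.xi.f (d.f2.f (z q)) :=
    (evF r d.Z q).mp.quasiMeasurePreserving.ae d.hx
  have hmy : Measurable (fun (z : (D r d.Z).C) (i : ι) => d.y0.f (z i)) :=
    (d.y0.D r).mp.measurable
  have hx2 : ∀ᵐ η ∂((D r d.Z).μ.map (fun (z : (D r d.Z).C) (i : ι) => d.y0.f (z i))),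
      ∀ᵐ z ∂(d.y0.lineK r η), F.xi.f (d.f1.f (z q)) = F.xi.f (d.f2.f (z q)) := by
    unfold Fac.lineK
    exact ae_condDistrib_of_ae (D r d.Z).μ hmy measurable_id
      (P := fun _ z => F.xi.f (d.f1.f (z q)) = F.xi.f (d.f2.f (z q))) hx1
  rw [show (D r d.Z).μ.map (fun (z : (D r d.Z).C) (i : ι) => d.y0.f (z i)) = (D r d.Y0).μ from
    (d.y0.D r).mp.map_eq] at hx2
  filter_upwards [hT1, hT2, hx2, d.ki, d.m1, d.m2] with η h1 h2 h3 h4 h5 h6
  have hK0 : IsProbabilityMeasure (d.y0.lineK r η) := by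
    unfold Fac.lineK; infer_instance
  refine ciso_of_pull hc hpq h4 d.f1.meas d.f2.meas h5 h6 h1 h2 F.xi.meas F.xi.meas ?_
  have hs : MeasurableSet {z | F.xi.f (d.f1.f z) = F.xi.f (d.f2.f z)} :=
    measurableSet_eq_fun (F.xi.meas.comp d.f1.meas) (F.xi.meas.comp d.f2.meas)
  have hmq : Measurable (fun z : ι → d.Z.C => z q) := measurable_pi_apply q
  exact (ae_map_iff hmq.aemeasurable hs).2 h3

/-- independence of the points of almost every line of the exact factor -/
theorem ae_ki {X : Sys Γ} {P : Adm X} {r : Ultrafilter (ι → Γ)} {p q : ι} (F : ExF P r p q)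
    (d : PD F) : ∀ᵐ η ∂(D r P.Y).μ, KI (F.E.y.lineK r η) := by
  have h : ∀ᵐ η ∂(D r d.Y0).μ, KI (F.E.y.lineK r ((d.v1.D r).f η)) := by
    filter_upwards [d.ki, d.m1] with η h1 h2
    have hK0 : IsProbabilityMeasure (d.y0.lineK r η) := by
      unfold Fac.lineK; infer_instance
    have h3 := h1.map (w := d.f1.f) d.f1.meas
    have h4 : (d.y0.lineK r η).map (lmap ι d.f1.f) = F.E.y.lineK r ((d.v1.D r).f η) := h2
    rw [h4] at h3
    exact h3
  have h2 := ae_map_of_ae (m := (D r d.Y0).μ) (f := (d.v1.D r).f) (d.v1.D r).meas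
    (P := fun η => KI (F.E.y.lineK r η)) h
  rw [(d.v1.D r).mp.map_eq] at h2
  exact h2

/-- the time differences along `r`, Fubini for the base lines -/
theorem ae_ae_ciso {X : Sys Γ} {P : Adm X} {r : Ultrafilter (ι → Γ)} (hc : 3 ≤ Fintype.card ι)
    {p q : ι} (hpq : p ≠ q) (F : ExF P r p q)
    (hT : ∀ᵐ η ∂(D r P.Y).μ, Total (F.E.y.lineK r η) p q) (d : PD F) :
    ∀ᵐ η ∂(D r P.Y).μ, ∀ᵐ η' ∂(D r P.Y).μ,
      CIso p q (F.E.y.lineK r η) F.xi.f (F.E.y.lineK r η') F.xi.f := by
  have h1 := indep_D r d.v1 d.v2 d.indY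
  rw [indepFun_iff_map_prod_eq_prod_map_map (d.v1.D r).meas.aemeasurable
    (d.v2.D r).meas.aemeasurable, (d.v1.D r).mp.map_eq, (d.v2.D r).mp.map_eq] at h1
  exact ae_ae_of_ae_pair (d.v1.D r).meas (d.v2.D r).meas h1
    (P := fun a b => CIso p q (F.E.y.lineK r a) F.xi.f (F.E.y.lineK r b) F.xi.f)
    (ae_ciso hc hpq F hT d)

end Vale.Agent.N102G

end

section
/-!
P102 (Rokhlin), campaign RM. Assembly of the blocks: `CoreThm`, hence mixing of order 2 implies
mixing of all orders.
-/

namespace Vale.Agent.N102G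

open Vale.Agent.P102.RM
variable {Γ : Type} [AddCommGroup Γ]

open MeasureTheory Filter Topology ProbabilityTheory

/-- the one point system -/
noncomputable def ptSys : Sys Γ where
  C := Unit
  μ := Measure.dirac ()
  S := ⟨fun _ x => x, fun _ => measurable_id, fun _ => rfl, fun _ _ _ => rfl⟩
  mp := fun _ => MeasurePreserving.id _

/-- the trivial admissible pair -/
noncomputable def triv (X : Sys Γ) : Adm X where
  W := X
  Y := ptSys
  x := Fac.id X
  y := ⟨fun _ => (), ⟨measurable_const, by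
      show X.μ.map (fun _ => ()) = Measure.dirac ()
      rw [Measure.map_const]; simp⟩, fun _ _ => rfl⟩
  ind := indepFun_const_right _ _

end Vale.Agent.N102G

end

section
/-! The frame vector: what is left of the static structure for a general group. -/

namespace Vale.Agent.N102G

open Vale.Agent.P102.RM
variable {Γ : Type} [AddCommGroup Γ]

open MeasureTheory Filter Topology ProbabilityTheory Vale.Agent.P102.SF
open scoped ComplexConjugate

/-- the correlation function of `F` -/
noncomputable def cor {G Ω : Type*} [MeasurableSpace Ω] (μ : Measure Ω) (T : G → Ω → Ω)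
    (F : Ω → ℂ) (g : G) : ℂ := ∫ x, F (T g x) * conj (F x) ∂μ

/-- a bounded function of mean zero whose translates are either proportional or form a Bessel
system -/
def Frame {G Ω : Type*} [Sub G] [MeasurableSpace Ω] (μ : Measure Ω) (T : G → Ω → Ω)
    (F : Ω → ℂ) : Prop :=
  Bdd F ∧ ∫ x, F x ∂μ = 0 ∧ ∫ x, ‖F x‖ ^ 2 ∂μ ≠ 0 ∧
    ∀ (n : ℕ) (g : Fin n → G) (z : Fin n → ℂ),
      (∀ i j, i ≠ j → ‖cor μ T F (g i - g j)‖ ≠ ∫ x, ‖F x‖ ^ 2 ∂μ) →
      ∫ x, ‖∑ i, z i * F (T (g i) x)‖ ^ 2 ∂μ ≤ ∑ i, ‖z i‖ ^ 2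

theorem integral_mp {Ω X E : Type*} [MeasurableSpace Ω] [MeasurableSpace X] {μ : Measure Ω}
    {ν : Measure X} [NormedAddCommGroup E] [NormedSpace ℝ E] {π : Ω → X}
    (hπ : MeasurePreserving π μ ν) {h : X → E} (hm : AEStronglyMeasurable h ν) :
    ∫ x, h (π x) ∂μ = ∫ y, h y ∂ν := by
  have h1 := hm
  rw [← hπ.map_eq] at h1
  have h2 := integral_map hπ.measurable.aemeasurable h1
  rw [hπ.map_eq] at h2
  exact h2.symm

theorem integral_mul_conj {Ω : Type*} [MeasurableSpace Ω] (μ : Measure Ω) (h : Ω → ℂ) :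
    ∫ x, h x * conj (h x) ∂μ = ((∫ x, ‖h x‖ ^ 2 ∂μ : ℝ) : ℂ) := by
  rw [← integral_complex_ofReal]
  refine integral_congr_ae (Eventually.of_forall fun x => ?_)
  show h x * conj (h x) = ((‖h x‖ ^ 2 : ℝ) : ℂ)
  rw [Complex.mul_conj, Complex.normSq_eq_norm_sq]

theorem bdd_sum {Ω κ : Type*} [MeasurableSpace Ω] (s : Finset κ) {f : κ → Ω → ℂ}
    (hf : ∀ i ∈ s, Bdd (f i)) : Bdd (fun a => ∑ i ∈ s, f i a) := BM.sum s hf

/-- frames pull back along factor maps -/
theorem Frame.comp {G Ω X : Type*} [Sub G] [MeasurableSpace Ω] [MeasurableSpace X]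
    {μ : Measure Ω} {ν : Measure X} {T : G → Ω → Ω} {R : G → X → X} {π : Ω → X}
    (hπ : MeasurePreserving π μ ν) (hR : ∀ g, Measurable (R g))
    (he : ∀ g, ∀ᵐ x ∂μ, π (T g x) = R g (π x)) {F : X → ℂ} (h : Frame ν R F) :
    Frame μ T (fun x => F (π x)) := by
  obtain ⟨hb, h0, hn, hf⟩ := h
  have e1 : ∫ x, ‖F (π x)‖ ^ 2 ∂μ = ∫ y, ‖F y‖ ^ 2 ∂ν :=
    integral_mp hπ (h := fun y => ‖F y‖ ^ 2) (hb.1.norm.pow_const 2).aestronglyMeasurable
  have e2 : ∀ g, cor μ T (fun x => F (π x)) g = cor ν R F g := by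
    intro g
    unfold cor
    rw [← integral_mp hπ (h := fun y => F (R g y) * conj (F y))
      ((hb.comp (hR g)).mul hb.star).1.aestronglyMeasurable]
    refine integral_congr_ae ?_
    filter_upwards [he g] with x hx
    rw [hx]
  refine ⟨hb.comp hπ.measurable, ?_, ?_, fun n g z hg => ?_⟩
  · rw [integral_mp hπ hb.1.aestronglyMeasurable, h0]
  · rw [e1]; exact hn
  · simp only [e1, e2] at hg
    refine le_of_eq_of_le ?_ (hf n g z hg)
    have hm : Bdd fun y => ∑ i, z i * F (R (g i) y) :=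
      bdd_sum _ fun i _ => (Bdd.const _).mul (hb.comp (hR _))
    rw [← integral_mp hπ (h := fun y => ‖∑ i, z i * F (R (g i) y)‖ ^ 2)
      (hm.1.norm.pow_const 2).aestronglyMeasurable]
    refine integral_congr_ae ?_
    filter_upwards [ae_all_iff.2 fun i => he (g i)] with x hx
    simp only [hx]

/-- from the analysis form to the synthesis form of the Bessel inequality -/
theorem synth_of_bessel {Ω : Type*} [MeasurableSpace Ω] (μ : Measure Ω) [IsFiniteMeasure μ]
    {n : ℕ} (f : Fin n → Ω → ℂ) (hf : ∀ i, Bdd (f i))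
    (h : ∀ h : Ω → ℂ, Bdd h → ∑ i, ‖∫ x, h x * conj (f i x) ∂μ‖ ^ 2 ≤ ∫ x, ‖h x‖ ^ 2 ∂μ)
    (z : Fin n → ℂ) : ∫ x, ‖∑ i, z i * f i x‖ ^ 2 ∂μ ≤ ∑ i, ‖z i‖ ^ 2 := by
  set H : Ω → ℂ := fun x => ∑ i, z i * f i x with hH
  have hb : Bdd H := bdd_sum _ fun i _ => (Bdd.const _).mul (hf i)
  have h1 := h H hb
  have h2 : ((∫ x, ‖H x‖ ^ 2 ∂μ : ℝ) : ℂ) = ∑ i, conj (z i) * ∫ x, H x * conj (f i x) ∂μ := by
    rw [← integral_mul_conj]
    have e : ∀ x, H x * conj (H x) = ∑ i, conj (z i) * (H x * conj (f i x)) := by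
      intro x
      conv_lhs => rw [show conj (H x) = conj (∑ i, z i * f i x) from rfl]
      rw [map_sum, Finset.mul_sum]
      refine Finset.sum_congr rfl fun i _ => ?_
      rw [map_mul]; ring
    simp only [e]
    rw [integral_finsetSum _ fun i _ => ((hb.mul (hf i).star).integrable μ).const_mul _]
    exact Finset.sum_congr rfl fun i _ => integral_const_mul _ _
  have h3 : ∫ x, ‖H x‖ ^ 2 ∂μ ≤ ∑ i, ‖z i‖ * ‖∫ x, H x * conj (f i x) ∂μ‖ := by
    have h4 : ‖((∫ x, ‖H x‖ ^ 2 ∂μ : ℝ) : ℂ)‖ ≤ ∑ i, ‖z i‖ * ‖∫ x, H x * conj (f i x) ∂μ‖ := by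
      rw [h2]
      refine (norm_sum_le _ _).trans (le_of_eq (Finset.sum_congr rfl fun i _ => ?_))
      rw [norm_mul, RCLike.norm_conj]
    rw [Complex.norm_real] at h4
    exact (le_abs_self _).trans h4
  have h5 : ∑ i, ‖z i‖ * ‖∫ x, H x * conj (f i x) ∂μ‖ ≤
      ∑ i, (‖z i‖ ^ 2 / 2 + ‖∫ x, H x * conj (f i x) ∂μ‖ ^ 2 / 2) :=
    Finset.sum_le_sum fun i _ => by
      nlinarith [sq_nonneg (‖z i‖ - ‖∫ x, H x * conj (f i x) ∂μ‖)]
  rw [Finset.sum_add_distrib, ← Finset.sum_div, ← Finset.sum_div] at h5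
  show ∫ x, ‖H x‖ ^ 2 ∂μ ≤ _
  linarith

section static

variable {ι : Type} [Fintype ι] [DecidableEq ι] {V X : Type} [MeasurableSpace V]
  [StandardBorelSpace V] [Nonempty V] [MeasurableSpace X]

theorem frame_static (hc : 3 ≤ Fintype.card ι) {p q : ι} (hpq : p ≠ q)
    {K : Measure (ι → V)} [IsProbabilityMeasure K] (hi : KI K) (ht : Total K p q)
    (S : Act Γ V) (T : Act Γ X) {ξ : V → X} {μ : Measure X} [IsProbabilityMeasure μ]
    (hT : ∀ g, MeasurePreserving (iter T g) μ μ) (hξ : MeasurePreserving ξ (marg K q) μ)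
    (hS : ∀ g v, ξ (iter S g v) = iter T g (ξ v))
    (h : ∀ g, CIso p q K ξ (K.map (lmap ι (S.e g))) ξ) {f : X → ℂ} (hf : Bdd f)
    (h0 : ∫ x, f x ∂μ = 0) (hn : ∫ x, ‖f x‖ ^ 2 ∂μ ≠ 0) : ∃ F, Frame μ (iter T) F := by
  classical
  let St : Static (marg K q) (MeasurableEquiv.refl X) ξ (Gam K p q) :=
    { e := fun u => rep u
      β := LinearEquiv.refl _ _
      meas := fun u => rep_measurable _
      norm := fun u g => rep_norm _ g
      add := fun u v => rep_add _ _
      orth := fun u hu => rep_int hc hi hpq hu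
      equiv := fun f hf u => rfl }
  have hsq : ∀ h : X → ℂ, Bdd h → ∫ v, ‖h (ξ v)‖ ^ 2 ∂(marg K q) = ∫ x, ‖h x‖ ^ 2 ∂μ :=
    fun h hh => integral_mp hξ (h := fun y => ‖h y‖ ^ 2)
      (hh.1.norm.pow_const 2).aestronglyMeasurable
  -- a character which is seen by `f`
  obtain ⟨u, hu⟩ : ∃ u : Gam K p q, cf K p q ξ f u ≠ 0 := by
    by_contra hcon
    push Not at hcon
    apply hn
    refine le_antisymm (le_of_forall_pos_le_add fun ε hε => ?_)
      (integral_nonneg fun x => by positivity)
    obtain ⟨t, ht'⟩ := spanned hc hi hpq ht (BM.comp hf hξ.measurable) hε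
    have e : ∀ u : Gam K p q, ∫ w, f (ξ w) * conj (rep u w) ∂(marg K q) = 0 := hcon
    simp only [e, zero_mul, Finset.sum_const_zero, sub_zero] at ht'
    rw [hsq f hf] at ht'
    linarith
  have hu0 : u ≠ 0 := by
    rintro rfl
    apply hu
    have h1 := St.coef_zero hξ f hf
    rw [h0, norm_zero, norm_eq_zero] at h1
    exact h1
  let u' : Gam' K p q ξ := ⟨u, AddSubgroup.subset_closure ⟨f, hf, hu⟩⟩
  have hβ : ∀ g, ∃ b : Gam K p q, ∀ h : X → ℂ, Bdd h →
      ‖cf K p q ξ (fun x => h (iter T g x)) b‖ = ‖cf K p q ξ h u‖ := by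
    intro g
    obtain ⟨θ, hθ⟩ := h g
    obtain ⟨σ, hσ⟩ := shift_equiv K (S.e g) (T.e g) p q hξ.measurable
      (Eventually.of_forall fun v => hS g v)
    exact ⟨σ (θ u'), fun h hh => (hσ h hh (θ u')).trans (hθ h hh u')⟩
  choose b hb using hβ
  -- the projection of the character
  have hr : Bdd fun v => conj (rep u v) := Bdd.star (rep_bm u)
  set P : X → ℂ := cE (marg K q) ξ fun v => conj (rep u v) with hP
  have hPb : Bdd P := hr.cE
  set F : X → ℂ := fun x => conj (P x) with hF
  have hFb : Bdd F := hPb.star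
  have hcf : ∀ h : X → ℂ, Bdd h → cf K p q ξ h u = ∫ x, h x * conj (F x) ∂μ := by
    intro h hh
    have h1 := integral_comp_mul_cE_map (μ := marg K q) hξ.measurable hr hh
    rw [hξ.map_eq] at h1
    simp only [hF, Complex.conj_conj]
    exact h1
  have hip : ∀ g (h : X → ℂ), Bdd h →
      ‖∫ x, h x * conj (F (iter T g x)) ∂μ‖ = ‖cf K p q ξ h (b g)‖ := by
    intro g h hh
    have hh' : Bdd fun x => h (iter T (-g) x) := hh.comp (measurable_iter T _)
    have h1 := hb g _ hh'
    have e : (fun x => h (iter T (-g) (iter T g x))) = h := by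
      funext x
      rw [← iter_add, neg_add_cancel, iter_zero]
    rw [e] at h1
    rw [h1, hcf _ hh', ← integral_mp (hT g) (h := fun x => h (iter T (-g) x) * conj (F x))
      (hh'.mul hFb.star).1.aestronglyMeasurable]
    congr 2
    funext x
    rw [← iter_add, neg_add_cancel, iter_zero]
  refine ⟨F, hFb, ?_, ?_, fun n g z hg => ?_⟩
  · have h1 := hcf (fun _ => 1) (Bdd.const 1)
    have h2 : cf K p q ξ (fun _ => (1 : ℂ)) u = 0 := St.coef_const 1 u hu0
    rw [h2] at h1
    simp only [one_mul] at h1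
    rw [integral_conj] at h1
    exact (map_eq_zero _).1 h1.symm
  · intro hz
    apply hu
    rw [hcf f hf]
    have h1 : (fun x => ‖F x‖ ^ 2) =ᵐ[μ] 0 := by
      rw [← integral_eq_zero_iff_of_nonneg (fun x => by positivity)]
      · exact hz
      · have := (BM.memLp (ν := μ) hFb).integrable_norm_pow (by norm_num)
        simpa using this
    refine (integral_congr_ae ?_).trans (integral_zero _ _)
    filter_upwards [h1] with x hx
    have h2 : F x = 0 := by
      have : ‖F x‖ ^ 2 = 0 := hx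
      exact norm_eq_zero.1 (pow_eq_zero_iff two_ne_zero |>.1 this)
    rw [h2, map_zero, mul_zero]
  · have hinj : Function.Injective fun i => b (g i) := by
      intro i j hij
      by_contra hne
      apply hg i j hne
      have hh : Bdd fun x => F (iter T (g i) x) := hFb.comp (measurable_iter T _)
      have h1 := hip (g i) _ hh
      have h2 := hip (g j) _ hh
      have hij' : b (g i) = b (g j) := hij
      rw [← hij', ← h1, integral_mul_conj μ fun x => F (iter T (g i) x),
        integral_mp (hT (g i)) (h := fun x => ‖F x‖ ^ 2)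
          (hFb.1.norm.pow_const 2).aestronglyMeasurable, Complex.norm_real,
        Real.norm_of_nonneg (integral_nonneg fun x => by positivity)] at h2
      rw [← h2]
      unfold cor
      rw [← integral_mp (hT (g j)) (h := fun x => F (iter T (g i - g j) x) * conj (F x))
        ((hFb.comp (measurable_iter T _)).mul hFb.star).1.aestronglyMeasurable]
      congr 2
      funext x
      rw [← iter_add, sub_add_cancel]
    refine synth_of_bessel μ (fun i x => F (iter T (g i) x))
      (fun i => hFb.comp (measurable_iter T _)) (fun h hh => ?_) z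
    have h1 := St.bessel (fun v => h (ξ v)) (BM.comp hh hξ.measurable)
      (Finset.univ.image fun i => b (g i)) (fun u => cf K p q ξ h u) (fun u _ => rfl)
    rw [Finset.sum_image fun i _ j _ hij => hinj hij, hsq h hh] at h1
    have h2 : 0 ≤ ∫ x, ‖h x‖ ^ 2 ∂μ - ∑ i, ‖cf K p q ξ h (b (g i))‖ ^ 2 := by
      rw [← h1]
      exact integral_nonneg fun x => by positivity
    simp only [hip _ h hh]
    linarith

end static

/-- block CE for a countable group -/
theorem ce_frame [Countable Γ] (X : Sys Γ) (P : Adm X) (ι : Type) [Fintype ι] [DecidableEq ι]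
    (r : Ultrafilter (ι → Γ)) (hc : 3 ≤ Fintype.card ι)
    (p q : ι) (hpq : p ≠ q) (F : ExF P r p q)
    (hT : ∀ᵐ η ∂(D r P.Y).μ, Total (F.E.y.lineK r η) p q) (d : PD F) :
    ∃ f, Frame X.μ (iter X.S) f := by
  have hgood : ∀ᵐ η ∂(D r P.Y).μ, (Total (F.E.y.lineK r η) p q ∧ KI (F.E.y.lineK r η)) ∧
      ((∀ g, F.E.y.lineK r (fun i => iter P.Y.S g (η i)) =
        (F.E.y.lineK r η).map (fun v i => iter F.E.V.S g (v i))) ∧
      MeasurePreserving F.xi.f ((F.E.y.lineK r η).map fun v : ι → F.E.V.C => v q) F.Xe.μ) :=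
    (hT.and (ae_ki F d)).and ((ae_all_iff.2 fun g => lineK_equiv r F.E.y g).and F.lineK_xi)
  obtain ⟨η, η', ⟨⟨ht, hki⟩, heq, hxi⟩, hR, hR'⟩ :=
    exists_lines r hgood (ae_ae_ciso hc hpq F hT d)
  have hprob : IsProbabilityMeasure (F.E.y.lineK r η) := by
    unfold Fac.lineK; infer_instance
  have hiso : ∀ g, CIso p q (F.E.y.lineK r η) F.xi.f
      ((F.E.y.lineK r η).map (lmap ι (F.E.V.S.e g))) F.xi.f := by
    intro g
    have h1 := hR.trans (hR' g).symm
    rw [heq g] at h1
    exact h1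
  obtain ⟨φ, hφ, h0, hne⟩ := F.nt
  have hn : ∫ x, ‖φ p x‖ ^ 2 ∂F.Xe.μ ≠ 0 := by
    intro hz
    apply hne
    have h1 : (fun x => ‖φ p x‖ ^ 2) =ᵐ[F.Xe.μ] 0 := by
      rw [← integral_eq_zero_iff_of_nonneg (fun x => by positivity)]
      · exact hz
      · have := (BM.memLp (ν := F.Xe.μ) (hφ p)).integrable_norm_pow (by norm_num)
        simpa using this
    have h2 := (evF r F.Xe p).mp.quasiMeasurePreserving.ae h1
    refine (integral_congr_ae ?_).trans (integral_zero _ _)
    filter_upwards [h2] with x hx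
    have h3 : φ p (x p) = 0 := by
      have : ‖φ p (x p)‖ ^ 2 = 0 := hx
      exact norm_eq_zero.1 (pow_eq_zero_iff two_ne_zero |>.1 this)
    exact Finset.prod_eq_zero (Finset.mem_univ p) h3
  obtain ⟨f, hf⟩ := frame_static hc hpq hki ht F.E.V.S F.Xe.S F.Xe.mp hxi F.xi.eqv hiso
    (hφ p) (h0 p) hn
  exact ⟨_, hf.comp F.ax.mp (measurable_iter F.Xe.S)
    fun g => Eventually.of_forall fun x => F.ax.eqv g x⟩

/-- **The core theorem** for a countable abelian group. -/
theorem core_frame [Countable Γ] (X : Sys Γ) (hX : ∀ f, ¬ Frame X.μ (iter X.S) f) (k : ℕ)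
    (r : Ultrafilter (Fin (k + 1) → Γ)) (hk : 2 ≤ k)
    (hK : KInd r X) (φ : Fin (k + 1) → X.C → ℂ) (hφ : ∀ i, Bdd (φ i))
    (h0 : ∀ i, ∫ x, φ i x ∂X.μ = 0) : ∫ d, ∏ i, φ i (d i) ∂(D r X).μ = 0 := by
  have hL : B_LINE Γ := b_line b_up
  have hTHE := H244.b_the_of hL
  have hIDEAL := H244.b_ideal_of hL
  by_contra hn
  have hc : 3 ≤ Fintype.card (Fin (k + 1)) := by simp; omega
  obtain ⟨P, _, hM, hN⟩ := b_SAT X (triv X) (Fin (k + 1)) r
  have hpq : (0 : Fin (k + 1)) ≠ Fin.last k := by
    intro h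
    have := congrArg Fin.val h
    simp at this
    omega
  have hne : ∫ d, ∏ i, φ i (d i) ∂(D r X).μ ≠ ∏ i, ∫ x, φ i x ∂X.μ := by
    rw [Finset.prod_eq_zero (Finset.mem_univ (0 : Fin (k + 1))) (h0 0)]
    exact hn
  obtain ⟨F⟩ := b_exf_of hL (b_grid b_up) hIDEAL X P (Fin (k + 1)) r hc hK hM hN 0
    (Fin.last k) hpq (b_XE_of hTHE hIDEAL X P (Fin (k + 1)) r hc hK hM hN ⟨φ, hφ, hne⟩ 0
      (Fin.last k) hpq)
  obtain ⟨d⟩ := b_pd b_SAT hL X P (Fin (k + 1)) r hc hK hM 0 (Fin.last k) hpq F
  obtain ⟨f, hf⟩ := ce_frame X P (Fin (k + 1)) r hc 0 (Fin.last k) hpq F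
    (tot_of_med Vale.Agent.P102.RM.medThm (Fin (k + 1)) r 0 (Fin.last k) hpq hc P.Y F.E) d
  exact hX f hf

end Vale.Agent.N102G

end

section
/-!
# P102, block RED : from a bad sequence of time vectors to a bad limit joining
-/

namespace Vale.Agent.N102G

open Vale.Agent.P102.RM
variable {Γ : Type} [AddCommGroup Γ]

open MeasureTheory Filter Topology ProbabilityTheory

variable {k : ℕ} {X : Sys Γ}

/-- expansion of the integral of the product of centered indicators in the limit law -/
theorem lim_expand (L : Measure (Fin (k + 1) → X.C)) [IsProbabilityMeasure L]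
    (A : Fin (k + 1) → Set X.C) (hA : ∀ i, MeasurableSet (A i)) :
    ∫ d, ∏ i, cind X.μ (A i) (d i) ∂L =
      ∑ s : Finset (Fin (k + 1)), (∏ i ∈ sᶜ, (-X.μ.real (A i))) *
        L.real (Set.univ.pi fun i => if i ∈ s then A i else Set.univ) := by
  have h1 : ∀ d : Fin (k + 1) → X.C, ∏ i, cind X.μ (A i) (d i) =
      ∑ s : Finset (Fin (k + 1)), (∏ i ∈ sᶜ, (-X.μ.real (A i))) *
        (Set.univ.pi fun i => if i ∈ s then A i else Set.univ).indicator
          (1 : (Fin (k + 1) → X.C) → ℝ) d := by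
    intro d
    have h2 : ∀ i, cind X.μ (A i) (d i) =
        (A i).indicator (1 : X.C → ℝ) (d i) + (-X.μ.real (A i)) := by
      intro i; unfold cind; ring
    simp only [h2]
    rw [Finset.prod_add, Finset.powerset_univ]
    refine Finset.sum_congr rfl fun s _ => ?_
    rw [mul_comm]
    congr 1
    by_cases hx : ∀ i ∈ s, d i ∈ A i
    · have e1 : d ∈ Set.univ.pi fun i => if i ∈ s then A i else Set.univ := by
        intro i _
        by_cases hi : i ∈ s
        · simp only [hi, if_true]; exact hx i hi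
        · simp only [hi, if_false]; exact Set.mem_univ _
      rw [Set.indicator_of_mem e1]
      refine Finset.prod_eq_one fun i hi => ?_
      rw [Set.indicator_of_mem (hx i hi)]
      rfl
    · push Not at hx
      obtain ⟨i, hi, hxi⟩ := hx
      have e1 : d ∉ Set.univ.pi fun i => if i ∈ s then A i else Set.univ := by
        intro hall
        have := hall i (Set.mem_univ i)
        simp only [hi, if_true] at this
        exact hxi this
      rw [Set.indicator_of_notMem e1]
      exact Finset.prod_eq_zero hi (Set.indicator_of_notMem hxi _)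
  simp only [h1]
  have hm : ∀ s : Finset (Fin (k + 1)), MeasurableSet
      (Set.univ.pi fun i => if i ∈ s then A i else (Set.univ : Set X.C)) := by
    intro s
    refine MeasurableSet.univ_pi fun i => ?_
    split_ifs
    · exact hA i
    · exact MeasurableSet.univ
  rw [integral_finsetSum]
  · refine Finset.sum_congr rfl fun s _ => ?_
    rw [integral_const_mul]
    congr 1
    exact integral_indicator_one (hm s)
  · intro s _
    exact ((integrable_const (1:ℝ)).indicator (hm s)).const_mul _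

end Vale.Agent.N102G

end

section
/-! The local theorem for standard Borel systems and ultrafilters of time vectors. -/

namespace Vale.Agent.N102G

open Vale.Agent.P102.RM
variable {Γ : Type} [AddCommGroup Γ]

open MeasureTheory Filter Topology ProbabilityTheory Vale.Agent.P102.RM
open scoped ComplexConjugate

/-- pairwise mixing along the ultrafilter `r` of time vectors -/
def PairMix {ι : Type} (r : Ultrafilter (ι → Γ)) (X : Sys Γ) : Prop :=
  ∀ i j, i ≠ j → ∀ A B : Set X.C, MeasurableSet A → MeasurableSet B →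
    Tendsto (fun t : ι → Γ => X.μ.real (iter X.S (t i) ⁻¹' A ∩ iter X.S (t j) ⁻¹' B)) r
      (𝓝 (X.μ.real A * X.μ.real B))

/-- any `k` coordinates of the limit law are independent (sets) -/
def BoxInd {k : ℕ} (r : Ultrafilter (Fin (k + 1) → Γ)) (X : Sys Γ) : Prop :=
  ∀ A : Fin (k + 1) → Set X.C, (∀ i, MeasurableSet (A i)) → ∀ i0, A i0 = Set.univ →
    (limM r X).real (Set.univ.pi A) = ∏ i, X.μ.real (A i)

theorem tendsto_box {ι : Type} [Fintype ι] (r : Ultrafilter (ι → Γ)) (X : Sys Γ)
    (A : ι → Set X.C) (hA : ∀ i, MeasurableSet (A i)) :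
    Tendsto (fun t : ι → Γ => X.μ.real (⋂ i, iter X.S (t i) ⁻¹' A i)) r
      (𝓝 ((limM r X).real (Set.univ.pi A))) :=
  (ENNReal.tendsto_toReal (measure_ne_top _ _)).comp ((isLim_limM r X).2 A hA)

theorem kInd_of_box {k : ℕ} {r : Ultrafilter (Fin (k + 1) → Γ)} {X : Sys Γ} (h : BoxInd r X) :
    KInd r X := by
  intro i0 φ hφ
  have hm : Measurable fun (d : Fin (k + 1) → X.C) (j : {j : Fin (k + 1) // j ≠ i0}) => d j :=
    measurable_pi_lambda _ fun j => measurable_pi_apply _
  have hmap : (limM r X).map (fun d (j : {j : Fin (k + 1) // j ≠ i0}) => d j) =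
      Measure.pi fun _ : {j : Fin (k + 1) // j ≠ i0} => X.μ := by
    symm
    refine Measure.pi_eq fun s hs => ?_
    rw [Measure.map_apply hm (MeasurableSet.univ_pi hs)]
    obtain ⟨A, hAdef⟩ : ∃ A : Fin (k + 1) → Set X.C, A = fun i => if h : i ≠ i0 then s ⟨i, h⟩
        else Set.univ := ⟨_, rfl⟩
    have hA : ∀ i, MeasurableSet (A i) := by
      intro i; rw [hAdef]; dsimp only; split_ifs
      · exact hs _
      · exact MeasurableSet.univ
    have hA0 : A i0 = Set.univ := by rw [hAdef]; simp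
    have hAj : ∀ j : {j : Fin (k + 1) // j ≠ i0}, A j = s j := by
      intro j; rw [hAdef]; dsimp only; rw [dif_pos j.2]
    have e1 : (fun (d : Fin (k + 1) → X.C) (j : {j : Fin (k + 1) // j ≠ i0}) => d j) ⁻¹'
        (Set.univ.pi s) = Set.univ.pi A := by
      ext d
      simp only [Set.mem_preimage, Set.mem_pi, Set.mem_univ, true_implies]
      constructor
      · intro h i
        by_cases hi : i = i0
        · rw [hi, hA0]; exact Set.mem_univ _
        · have := h ⟨i, hi⟩
          rw [← hAj] at this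
          exact this
      · intro h j
        rw [← hAj]; exact h j
    rw [e1]
    have h2 := h A hA i0 hA0
    have h3 : ∏ i, X.μ.real (A i) = ∏ j : {j : Fin (k + 1) // j ≠ i0}, X.μ.real (s j) := by
      rw [Fintype.prod_eq_mul_prod_subtype_ne (fun i => X.μ.real (A i)) i0, hA0, probReal_univ,
        one_mul]
      exact Finset.prod_congr rfl fun j _ => by rw [hAj]
    rw [h3] at h2
    rw [← ENNReal.ofReal_toReal (measure_ne_top (limM r X) (Set.univ.pi A)), ← measureReal_def, h2,
      ENNReal.ofReal_prod_of_nonneg fun j _ => measureReal_nonneg]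
    refine Finset.prod_congr rfl fun j _ => ?_
    rw [measureReal_def, ENNReal.ofReal_toReal (measure_ne_top _ _)]
  have e1 : ∀ F : Fin (k + 1) → ℂ, ∏ i ∈ Finset.univ.erase i0, F i =
      ∏ j : {j : Fin (k + 1) // j ≠ i0}, F j := by
    intro F
    rw [← Finset.prod_subtype (Finset.univ.erase i0) (p := fun j => j ≠ i0)
      (by intro x; simp) F]
  simp only [e1]
  have h2 : ∫ d, ∏ j : {j : Fin (k + 1) // j ≠ i0}, φ j (d j) ∂(limM r X) =
      ∫ v, ∏ j : {j : Fin (k + 1) // j ≠ i0}, φ j (v j)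
        ∂((limM r X).map
          (fun d (j : {j : Fin (k + 1) // j ≠ i0}) => d j)) := by
    rw [integral_map hm.aemeasurable]
    have hm2 : Measurable fun v : {j : Fin (k + 1) // j ≠ i0} → X.C =>
        ∏ j : {j : Fin (k + 1) // j ≠ i0}, φ j (v j) :=
      Finset.measurable_prod _ fun j _ => (hφ j).1.comp (measurable_pi_apply j)
    exact hm2.aestronglyMeasurable
  change ∫ d, ∏ j : {j : Fin (k + 1) // j ≠ i0}, φ j (d j) ∂(limM r X) = _
  rw [h2, hmap]
  exact integral_fintype_prod_eq_prod (𝕜 := ℂ) (fun j : {j : Fin (k + 1) // j ≠ i0} => φ j)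

theorem lim_value_of_box {k : ℕ} {r : Ultrafilter (Fin (k + 1) → Γ)} {X : Sys Γ} (h : BoxInd r X)
    (A : Fin (k + 1) → Set X.C) (hA : ∀ i, MeasurableSet (A i)) :
    ∫ d, ∏ i, cind X.μ (A i) (d i) ∂(limM r X) =
      (limM r X).real (Set.univ.pi A) - ∏ i, X.μ.real (A i) := by
  rw [lim_expand (limM r X) A hA]
  have hterm : ∀ s ∈ (Finset.univ : Finset (Finset (Fin (k + 1)))).erase Finset.univ,
      (∏ i ∈ sᶜ, (-X.μ.real (A i))) *
        (limM r X).real (Set.univ.pi fun i => if i ∈ s then A i else Set.univ) =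
      (∏ i ∈ sᶜ, (-X.μ.real (A i))) * ∏ i ∈ s, X.μ.real (A i) := by
    intro s hs
    have hs' : s ≠ Finset.univ := Finset.ne_of_mem_erase hs
    obtain ⟨i0, hi0⟩ : ∃ i0, i0 ∉ s := by
      by_contra hcon
      push Not at hcon
      exact hs' (Finset.eq_univ_iff_forall.2 hcon)
    rw [h (fun i => if i ∈ s then A i else Set.univ) (fun i => by
        split_ifs
        · exact hA i
        · exact MeasurableSet.univ) i0 (by simp [hi0])]
    congr 1
    rw [← Finset.prod_subset (Finset.subset_univ s)]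
    · refine Finset.prod_congr rfl fun i hi => ?_
      rw [if_pos hi]
    · intro i _ hi
      rw [if_neg hi, probReal_univ]
  have hsum : ∑ s ∈ (Finset.univ : Finset (Finset (Fin (k + 1)))).erase Finset.univ,
        (∏ i ∈ sᶜ, (-X.μ.real (A i))) * ∏ i ∈ s, X.μ.real (A i) = - ∏ i, X.μ.real (A i) := by
    have h4 : ∑ s : Finset (Fin (k + 1)), (∏ i ∈ sᶜ, (-X.μ.real (A i))) *
        ∏ i ∈ s, X.μ.real (A i) = 0 := by
      have h5 := Finset.prod_add (fun i => X.μ.real (A i)) (fun i => -X.μ.real (A i))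
        (Finset.univ : Finset (Fin (k + 1)))
      simp only [add_neg_cancel, Finset.powerset_univ] at h5
      have h6 : ∏ _i : Fin (k + 1), (0:ℝ) = 0 := by
        rw [Finset.prod_const, Finset.card_univ, Fintype.card_fin]
        exact zero_pow (Nat.succ_ne_zero k)
      rw [← h6, h5]
      refine Finset.sum_congr rfl fun s _ => ?_
      rw [mul_comm]
      rfl
    rw [← Finset.add_sum_erase _ _ (Finset.mem_univ (Finset.univ : Finset (Fin (k + 1))))] at h4
    simp only [Finset.compl_univ, Finset.prod_empty, one_mul] at h4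
    linarith
  rw [← Finset.add_sum_erase _ _ (Finset.mem_univ (Finset.univ : Finset (Fin (k + 1)))),
    Finset.sum_congr rfl hterm, hsum]
  simp only [Finset.compl_univ, Finset.prod_empty, one_mul, Finset.mem_univ, if_true]
  ring

/-- **The local theorem for standard Borel systems.** -/
theorem loc_std [Countable Γ] (X : Sys Γ) (hX : ∀ f, ¬ Frame X.μ (iter X.S) f) (k : ℕ) :
    ∀ (r : Ultrafilter (Fin k → Γ)), PairMix r X →
    ∀ A : Fin k → Set X.C, (∀ i, MeasurableSet (A i)) →
    Tendsto (fun t : Fin k → Γ => X.μ.real (⋂ i, iter X.S (t i) ⁻¹' A i)) r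
      (𝓝 (∏ i, X.μ.real (A i))) := by
  induction k with
  | zero =>
    intro r _ A _
    simp
  | succ k ih =>
    intro r hr A hA
    rcases Nat.lt_or_ge k 2 with hk | hk
    · interval_cases k
      · have h1 : (fun t : Fin (0 + 1) → Γ => X.μ.real (⋂ i, iter X.S (t i) ⁻¹' A i)) =
            fun _ => ∏ i, X.μ.real (A i) := by
          funext t
          have e : (⋂ i, iter X.S (t i) ⁻¹' A i) = iter X.S (t 0) ⁻¹' A 0 := by
            ext x
            simp [Fin.forall_fin_one]
          rw [e, measureReal_def, (iter_mp X.S X.mp (t 0)).measure_preimage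
            (hA 0).nullMeasurableSet]
          simp [measureReal_def]
        rw [h1]
        exact tendsto_const_nhds
      · have h1 := hr 0 1 (by decide) (A 0) (A 1) (hA 0) (hA 1)
        rw [Fin.prod_univ_two]
        refine h1.congr fun t => ?_
        congr 1
        ext x
        simp only [Set.mem_inter_iff, Set.mem_preimage, Set.mem_iInter]
        refine ⟨fun h i => ?_, fun h => ⟨h 0, h 1⟩⟩
        fin_cases i
        · exact h.1
        · exact h.2
    · -- any `k` coordinates are independent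
      have hbox : BoxInd r X := by
        intro B hB i0 h0
        have h1 := ih (r.map fun t j => t (i0.succAbove j)) (by
          intro i j hij C D hC hD
          have h2 := hr (i0.succAbove i) (i0.succAbove j)
            (fun h => hij (Fin.succAbove_right_injective h)) C D hC hD
          rw [Ultrafilter.coe_map, tendsto_map'_iff]
          exact h2) (fun j => B (i0.succAbove j)) fun j => hB _
        rw [Ultrafilter.coe_map, tendsto_map'_iff] at h1
        have h3 := tendsto_box r X B hB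
        refine tendsto_nhds_unique h3 ?_
        rw [Fin.prod_univ_succAbove _ i0, h0, probReal_univ, one_mul]
        refine h1.congr fun t => ?_
        simp only [Function.comp_apply]
        congr 1
        ext x
        simp only [Set.mem_iInter, Set.mem_preimage]
        constructor
        · intro hx i
          rcases Fin.eq_self_or_eq_succAbove i0 i with rfl | ⟨j, rfl⟩
          · rw [h0]; exact Set.mem_univ _
          · exact hx j
        · intro hx i
          exact hx _
      · have hK := kInd_of_box hbox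
        have h1 := core_frame X hX k r hk hK (fun i x => ((cind X.μ (A i) x : ℝ) : ℂ))
          (fun i => ⟨Complex.measurable_ofReal.comp (measurable_cind (hA i)), 1, fun x => by
            rw [Complex.norm_real]
            exact abs_cind_le _ _⟩)
          (fun i => by
            rw [integral_complex_ofReal, integral_cind (hA i), Complex.ofReal_zero])
        have e1 : ∀ d : Fin (k + 1) → X.C, ∏ i, ((cind X.μ (A i) (d i) : ℝ) : ℂ) =
            ((∏ i, cind X.μ (A i) (d i) : ℝ) : ℂ) := fun d => by push_cast; rfl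
        simp only [e1] at h1
        change ∫ d, ((∏ i, cind X.μ (A i) (d i) : ℝ) : ℂ) ∂(limM r X) = 0 at h1
        rw [integral_complex_ofReal, lim_value_of_box hbox A hA, Complex.ofReal_eq_zero] at h1
        have h2 := tendsto_box r X A hA
        rw [show (limM r X).real (Set.univ.pi A) = ∏ i, X.μ.real (A i) by linarith] at h2
        exact h2

end Vale.Agent.N102G

end
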