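import Vale.Agent.N102G.G5
import Vale.Agent.N102G.Defs
import Mathlib.Topology.MetricSpace.UniformConvergence
import Mathlib.Topology.Algebra.OpenSubgroup
import Mathlib.MeasureTheory.Function.SimpleFuncDenseLp

set_option linter.all false

/-! From countable groups and standard spaces to separable groups and all probability spaces. -/

namespace Vale.Agent.N102G

open Vale.Agent.P102.RM
open MeasureTheory Filter Topology ProbabilityTheory Set
open scoped ComplexConjugate symmDiff NNReal ENNReal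

/-! ### Correlations of bounded functions from correlations of sets -/

section corr

variable {α Ω Ω' X : Type*} [MeasurableSpace Ω] [MeasurableSpace Ω'] [MeasurableSpace X]
  {μ : Measure Ω} {ν : Measure Ω'} {ρ : Measure X} [IsProbabilityMeasure μ]
  [IsProbabilityMeasure ν] [IsProbabilityMeasure ρ]

theorem integrable_comp_mul {φ : Ω → X} (hφ : MeasurePreserving φ μ ρ) {w : Ω → ℂ}
    (hw : Measurable w) {C : ℝ} (hC : ∀ x, ‖w x‖ ≤ C) {f : X → ℂ} (hf : Integrable f ρ) :
    Integrable (fun x => f (φ x) * w x) μ :=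
  (hφ.integrable_comp_of_integrable hf).mul_bdd hw.aestronglyMeasurable
    (Eventually.of_forall hC)

theorem lip_corr {φ : Ω → X} (hφ : MeasurePreserving φ μ ρ) {w : Ω → ℂ}
    (hw : Measurable w) {C : ℝ≥0} (hC : ∀ x, ‖w x‖ ≤ C) :
    LipschitzWith C fun f : X →₁[ρ] ℂ => ∫ x, f (φ x) * w x ∂μ := by
  refine LipschitzWith.of_dist_le_mul fun f g => ?_
  have hf := L1.integrable_coeFn f
  have hg := L1.integrable_coeFn g
  rw [dist_eq_norm, ← integral_sub (integrable_comp_mul hφ hw hC hf)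
    (integrable_comp_mul hφ hw hC hg), L1.dist_eq_integral_dist]
  have h1 : ∫ a, dist (f a) (g a) ∂ρ = ∫ x, ‖f (φ x) - g (φ x)‖ ∂μ := by
    simp only [dist_eq_norm]
    exact (integral_mp hφ (h := fun a => ‖f a - g a‖) (hf.sub hg).norm.aestronglyMeasurable).symm
  rw [h1, ← integral_const_mul]
  refine (norm_integral_le_integral_norm _).trans (integral_mono ?_ ?_ fun x => ?_)
  · exact ((integrable_comp_mul hφ hw hC hf).sub (integrable_comp_mul hφ hw hC hg)).norm
  · exact (hφ.integrable_comp_of_integrable (hf.sub hg).norm).const_mul _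
  · show ‖f (φ x) * w x - g (φ x) * w x‖ ≤ C * ‖f (φ x) - g (φ x)‖
    rw [← sub_mul, norm_mul, mul_comm]
    exact mul_le_mul_of_nonneg_right (hC x) (norm_nonneg _)

theorem tendsto_corr_aux {l : Filter α} {φ : α → Ω → X} (hφ : ∀ a, MeasurePreserving (φ a) μ ρ)
    {φ0 : Ω' → X} (hφ0 : MeasurePreserving φ0 ν ρ) {w : α → Ω → ℂ} {w0 : Ω' → ℂ} {C : ℝ}
    (hw : ∀ a, Measurable (w a)) (hC : ∀ a x, ‖w a x‖ ≤ C) (hw0 : Measurable w0)
    (hC0 : ∀ x, ‖w0 x‖ ≤ C)
    (h : ∀ A : Set X, MeasurableSet A →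
      Tendsto (fun a => ∫ x, A.indicator (1 : X → ℂ) (φ a x) * w a x ∂μ) l
        (𝓝 (∫ y, A.indicator (1 : X → ℂ) (φ0 y) * w0 y ∂ν)))
    {f : X → ℂ} (hf : Integrable f ρ) :
    Tendsto (fun a => ∫ x, f (φ a x) * w a x ∂μ) l (𝓝 (∫ y, f (φ0 y) * w0 y ∂ν)) := by
  refine Integrable.induction (μ := ρ)
    (fun f : X → ℂ => Tendsto (fun a => ∫ x, f (φ a x) * w a x ∂μ) l
      (𝓝 (∫ y, f (φ0 y) * w0 y ∂ν))) ?_ ?_ ?_ ?_ hf
  · intro c s hs _
    have e : ∀ y : X, (s.indicator fun _ => c) y = c * s.indicator (1 : X → ℂ) y := by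
      intro y
      by_cases hy : y ∈ s <;> simp [hy]
    simp only [e, mul_assoc, integral_const_mul]
    exact (h s hs).const_mul c
  · intro f g _ hf hg h1 h2
    simp only [Pi.add_apply, add_mul]
    rw [integral_add (integrable_comp_mul hφ0 hw0 hC0 hf) (integrable_comp_mul hφ0 hw0 hC0 hg)]
    refine (h1.add h2).congr fun a => ?_
    rw [integral_add (integrable_comp_mul (hφ a) (hw a) (hC a) hf)
      (integrable_comp_mul (hφ a) (hw a) (hC a) hg)]
  · have hC' : ∀ a x, ‖w a x‖ ≤ (C.toNNReal : ℝ) := fun a x =>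
      (hC a x).trans (Real.le_coe_toNNReal C)
    have hC0' : ∀ x, ‖w0 x‖ ≤ (C.toNNReal : ℝ) := fun x =>
      (hC0 x).trans (Real.le_coe_toNNReal C)
    exact (LipschitzWith.uniformEquicontinuous
      (fun a (f : X →₁[ρ] ℂ) => ∫ x, f (φ a x) * w a x ∂μ) C.toNNReal
      fun a => lip_corr (hφ a) (hw a) (hC' a)).equicontinuous.isClosed_setOfPred_tendsto
      (lip_corr hφ0 hw0 hC0').continuous
  · intro f g hfg _ h1
    have e0 : ∫ y, f (φ0 y) * w0 y ∂ν = ∫ y, g (φ0 y) * w0 y ∂ν := by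
      refine integral_congr_ae ?_
      filter_upwards [hφ0.quasiMeasurePreserving.ae hfg] with y hy
      rw [hy]
    rw [← e0]
    refine h1.congr fun a => integral_congr_ae ?_
    filter_upwards [(hφ a).quasiMeasurePreserving.ae hfg] with y hy
    rw [hy]

theorem integral_ind_mul_ind {φ ψ : Ω → X} (hφ : Measurable φ) (hψ : Measurable ψ) {A B : Set X}
    (hA : MeasurableSet A) (hB : MeasurableSet B) :
    ∫ x, A.indicator (1 : X → ℂ) (φ x) * B.indicator (1 : X → ℂ) (ψ x) ∂μ =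
      ((μ.real (φ ⁻¹' A ∩ ψ ⁻¹' B) : ℝ) : ℂ) := by
  have e : (fun x => A.indicator (1 : X → ℂ) (φ x) * B.indicator (1 : X → ℂ) (ψ x)) =
      (φ ⁻¹' A ∩ ψ ⁻¹' B).indicator fun _ => (1 : ℂ) := by
    funext x
    by_cases h1 : φ x ∈ A <;> by_cases h2 : ψ x ∈ B <;> simp [h1, h2]
  rw [e, integral_indicator_const _ ((hφ hA).inter (hψ hB))]
  simp

theorem tendsto_corr {l : Filter α} {φ ψ : α → Ω → X} (hφ : ∀ a, MeasurePreserving (φ a) μ ρ)
    (hψ : ∀ a, MeasurePreserving (ψ a) μ ρ) {φ0 ψ0 : Ω' → X} (hφ0 : MeasurePreserving φ0 ν ρ)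
    (hψ0 : MeasurePreserving ψ0 ν ρ)
    (h : ∀ A B : Set X, MeasurableSet A → MeasurableSet B →
      Tendsto (fun a => μ.real (φ a ⁻¹' A ∩ ψ a ⁻¹' B)) l (𝓝 (ν.real (φ0 ⁻¹' A ∩ ψ0 ⁻¹' B))))
    {f g : X → ℂ} (hf : Bdd f) (hg : Bdd g) :
    Tendsto (fun a => ∫ x, f (φ a x) * g (ψ a x) ∂μ) l (𝓝 (∫ y, f (φ0 y) * g (ψ0 y) ∂ν)) := by
  obtain ⟨C, hC⟩ := hg.2
  refine tendsto_corr_aux hφ hφ0 (w := fun a x => g (ψ a x)) (w0 := fun y => g (ψ0 y)) (C := C)
    (fun a => hg.1.comp (hψ a).measurable) (fun a x => hC _) (hg.1.comp hψ0.measurable)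
    (fun x => hC _) (fun A hA => ?_) (hf.integrable ρ)
  simp only [mul_comm (A.indicator (1 : X → ℂ) _)]
  have hi : ∀ y, ‖A.indicator (1 : X → ℂ) y‖ ≤ 1 := fun y => by
    by_cases hy : y ∈ A <;> simp [hy]
  have hm : Measurable (A.indicator (1 : X → ℂ)) := measurable_one.indicator hA
  refine tendsto_corr_aux hψ hψ0 (w := fun a x => A.indicator (1 : X → ℂ) (φ a x))
    (w0 := fun y => A.indicator (1 : X → ℂ) (φ0 y)) (C := 1)
    (fun a => hm.comp (hφ a).measurable) (fun a x => hi _) (hm.comp hφ0.measurable)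
    (fun x => hi _) (fun B hB => ?_) (hg.integrable ρ)
  simp only [mul_comm (B.indicator (1 : X → ℂ) _)]
  rw [integral_ind_mul_ind hφ0.measurable hψ0.measurable hA hB]
  simp only [integral_ind_mul_ind (hφ _).measurable (hψ _).measurable hA hB]
  exact (Complex.continuous_ofReal.tendsto _).comp (h A B hA hB)

theorem tendsto_corr_indep {l : Filter α} {φ ψ : α → Ω → X}
    (hφ : ∀ a, MeasurePreserving (φ a) μ ρ) (hψ : ∀ a, MeasurePreserving (ψ a) μ ρ)
    (h : ∀ A B : Set X, MeasurableSet A → MeasurableSet B →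
      Tendsto (fun a => μ.real (φ a ⁻¹' A ∩ ψ a ⁻¹' B)) l (𝓝 (ρ.real A * ρ.real B)))
    {f g : X → ℂ} (hf : Bdd f) (hg : Bdd g) :
    Tendsto (fun a => ∫ x, f (φ a x) * g (ψ a x) ∂μ) l
      (𝓝 ((∫ y, f y ∂ρ) * ∫ y, g y ∂ρ)) := by
  have h1 := tendsto_corr (ν := ρ.prod ρ) hφ hψ (φ0 := Prod.fst) (ψ0 := Prod.snd)
    measurePreserving_fst measurePreserving_snd (fun A B hA hB => by
      have e : (Prod.fst ⁻¹' A ∩ Prod.snd ⁻¹' B : Set (X × X)) = A ×ˢ B := rfl
      rw [e, measureReal_prod_prod]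
      exact h A B hA hB) hf hg
  rw [integral_prod_mul] at h1
  exact h1

end corr

/-! ### Actions -/

section act

variable {G Ω : Type*} [AddCommGroup G] [MeasurableSpace Ω] {μ : Measure Ω}
  [IsProbabilityMeasure μ] {T : G → Ω → Ω}

theorem IsAction.meas (hT : IsAction μ T) (g : G) : Measurable (T g) := (hT.mp g).measurable

theorem IsAction.sub (hT : IsAction μ T) (g h : G) : ∀ᵐ x ∂μ, T g x = T (g - h) (T h x) := by
  have := hT.add (g - h) h
  rwa [sub_add_cancel] at this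

theorem IsAction.comp {Γ : Type*} [AddCommGroup Γ] (hT : IsAction μ T) (j : Γ →+ G) :
    IsAction μ fun γ => T (j γ) :=
  ⟨fun γ => hT.mp _, by simpa using hT.zero, fun a b => by simpa using hT.add (j a) (j b)⟩

theorem IsAction.real_pre (hT : IsAction μ T) (g : G) {A : Set Ω} (hA : MeasurableSet A) :
    μ.real (T g ⁻¹' A) = μ.real A := by
  rw [measureReal_def, (hT.mp g).measure_preimage hA.nullMeasurableSet, measureReal_def]

theorem IsAction.symmDiff_eq (hT : IsAction μ T) (s t : G) {A : Set Ω} (hA : MeasurableSet A) :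
    μ ((T s ⁻¹' A) ∆ (T t ⁻¹' A)) = μ ((T (s - t) ⁻¹' A) ∆ A) := by
  rw [← (hT.mp t).measure_preimage ((hT.meas _ hA).symmDiff hA).nullMeasurableSet]
  refine measure_congr ?_
  filter_upwards [hT.sub s t] with x hx
  apply propext
  show x ∈ (T s ⁻¹' A) ∆ (T t ⁻¹' A) ↔ x ∈ T t ⁻¹' ((T (s - t) ⁻¹' A) ∆ A)
  simp only [Set.mem_preimage, Set.mem_symmDiff, hx]

theorem IsAction.inter_eq (hT : IsAction μ T) (s t : G) {A B : Set Ω} (hA : MeasurableSet A)
    (hB : MeasurableSet B) :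
    μ.real (T s ⁻¹' A ∩ T t ⁻¹' B) = μ.real (B ∩ T (s - t) ⁻¹' A) := by
  rw [← hT.real_pre t (hB.inter (hT.meas _ hA))]
  refine measureReal_congr ?_
  filter_upwards [hT.sub s t] with x hx
  apply propext
  show x ∈ T s ⁻¹' A ∩ T t ⁻¹' B ↔ x ∈ T t ⁻¹' (B ∩ T (s - t) ⁻¹' A)
  simp only [Set.mem_preimage, Set.mem_inter_iff, hx, and_comm]

theorem IsAction.cor_eq (hT : IsAction μ T) {F : Ω → ℂ} (hF : Bdd F) (s t : G) :
    ∫ x, F (T s x) * conj (F (T t x)) ∂μ = cor μ T F (s - t) := by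
  unfold cor
  rw [← integral_mp (hT.mp t) (h := fun x => F (T (s - t) x) * conj (F x))
    ((hF.comp (hT.meas _)).mul hF.star).1.aestronglyMeasurable]
  refine integral_congr_ae ?_
  filter_upwards [hT.sub s t] with x hx
  rw [hx]

theorem abs_iInter_sub_le {ι : Type*} [Fintype ι] (B C : ι → Set Ω)
    (hB : ∀ i, MeasurableSet (B i)) (hC : ∀ i, MeasurableSet (C i)) :
    |μ.real (⋂ i, B i) - μ.real (⋂ i, C i)| ≤ ∑ i, μ.real (B i ∆ C i) := by
  have hs : (⋂ i, B i) ∆ (⋂ i, C i) ⊆ ⋃ i, B i ∆ C i := by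
    intro x hx
    rw [Set.mem_symmDiff] at hx
    rw [Set.mem_iUnion]
    rcases hx with ⟨h1, h2⟩ | ⟨h1, h2⟩
    · rw [Set.mem_iInter] at h1 h2
      push Not at h2
      obtain ⟨i, hi⟩ := h2
      exact ⟨i, Or.inl ⟨h1 i, hi⟩⟩
    · rw [Set.mem_iInter] at h1 h2
      push Not at h2
      obtain ⟨i, hi⟩ := h2
      exact ⟨i, Or.inr ⟨h1 i, hi⟩⟩
  refine (abs_measureReal_sub_le_measureReal_symmDiff
    (MeasurableSet.iInter hB).nullMeasurableSet (MeasurableSet.iInter hC).nullMeasurableSet).trans ?_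
  refine (measureReal_mono hs).trans ?_
  exact measureReal_iUnion_fintype_le _

/-- nearby times have nearby correlations -/
theorem tendsto_near [TopologicalSpace G] (hT : IsAction μ T) (hc : ContInMeasure μ T)
    {P ι : Type*} [Fintype ι] {L : Filter P} {s t : P → ι → G}
    (h : ∀ i, Tendsto (fun p => s p i - t p i) L (𝓝 0)) (A : ι → Set Ω)
    (hA : ∀ i, MeasurableSet (A i)) {c : ℝ}
    (ht : Tendsto (fun p => μ.real (⋂ i, T (t p i) ⁻¹' A i)) L (𝓝 c)) :
    Tendsto (fun p => μ.real (⋂ i, T (s p i) ⁻¹' A i)) L (𝓝 c) := by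
  have h1 : ∀ i, Tendsto (fun p => μ.real ((T (s p i) ⁻¹' A i) ∆ (T (t p i) ⁻¹' A i))) L
      (𝓝 0) := by
    intro i
    have h2 := (ENNReal.tendsto_toReal ENNReal.zero_ne_top).comp ((hc (A i) (hA i)).comp (h i))
    refine h2.congr fun p => ?_
    simp only [Function.comp_apply]
    rw [measureReal_def, hT.symmDiff_eq _ _ (hA i)]
  have h3 := tendsto_finsetSum Finset.univ fun i _ => h1 i
  rw [Finset.sum_const_zero] at h3
  have h4 : Tendsto (fun p => μ.real (⋂ i, T (s p i) ⁻¹' A i) -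
      μ.real (⋂ i, T (t p i) ⁻¹' A i)) L (𝓝 0) := by
    refine squeeze_zero_norm (fun p => ?_) h3
    exact abs_iInter_sub_le _ _ (fun i => hT.meas _ (hA i)) fun i => hT.meas _ (hA i)
  have h5 := h4.add ht
  simpa using h5

theorem tendsto_near₂ [TopologicalSpace G] (hT : IsAction μ T) (hc : ContInMeasure μ T)
    {P : Type*} {L : Filter P} {s t s' t' : P → G}
    (h : Tendsto (fun p => s p - t p) L (𝓝 0)) (h' : Tendsto (fun p => s' p - t' p) L (𝓝 0))
    {A B : Set Ω} (hA : MeasurableSet A) (hB : MeasurableSet B) {c : ℝ}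
    (ht : Tendsto (fun p => μ.real (T (t p) ⁻¹' A ∩ T (t' p) ⁻¹' B)) L (𝓝 c)) :
    Tendsto (fun p => μ.real (T (s p) ⁻¹' A ∩ T (s' p) ⁻¹' B)) L (𝓝 c) := by
  have e : ∀ a b : G, (⋂ i : Bool, T (cond i a b) ⁻¹' cond i A B) = T a ⁻¹' A ∩ T b ⁻¹' B := by
    intro a b
    ext x
    simp [Bool.forall_bool, and_comm]
  have h1 := tendsto_near hT hc (ι := Bool) (L := L) (s := fun p i => cond i (s p) (s' p))
    (t := fun p i => cond i (t p) (t' p)) (fun i => by cases i <;> assumption)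
    (fun i => cond i A B) (fun i => by cases i <;> assumption) (c := c)
    (by simpa only [e] using ht)
  simpa only [e] using h1

/-- continuity of the correlation function -/
theorem continuous_cor [TopologicalSpace G] [IsTopologicalAddGroup G] (hT : IsAction μ T)
    (hc : ContInMeasure μ T) {F : Ω → ℂ} (hF : Bdd F) : Continuous (cor μ T F) := by
  rw [continuous_iff_continuousAt]
  intro g0
  have h1 := tendsto_corr (μ := μ) (ν := μ) (ρ := μ) (l := 𝓝 g0) (φ := T) (ψ := fun _ => T 0)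
    hT.mp (fun _ => hT.mp 0) (hT.mp g0) (hT.mp 0) (fun A B hA hB => by
      refine tendsto_near₂ hT hc (s := fun g => g) (t := fun _ => g0) (s' := fun _ => 0)
        (t' := fun _ => 0) ?_ ?_ hA hB tendsto_const_nhds
      · have : Tendsto (fun g : G => g - g0) (𝓝 g0) (𝓝 (g0 - g0)) :=
          (continuous_id.sub continuous_const).tendsto g0
        simpa using this
      · simpa using tendsto_const_nhds) hF hF.star
  simp only [hT.cor_eq hF, sub_zero] at h1
  exact h1

end act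

/-! ### Countable groups on arbitrary probability spaces -/

section countable

variable {Γ : Type} [AddCommGroup Γ] [Countable Γ] {Ω : Type*} [MeasurableSpace Ω]
  {μ : Measure Ω} [IsProbabilityMeasure μ] {T : Γ → Ω → Ω}

theorem loc_countable (hT : IsAction μ T) (hX : ∀ f, ¬ Frame μ T f) {k : ℕ}
    (l : Filter (Fin k → Γ)) (h : PairIndep μ T l) : JointIndep μ T l := by
  classical
  intro A hA
  rw [tendsto_iff_ultrafilter]
  intro r hr
  let φ : Ω → (Γ × Fin k → Bool) := fun x mn => decide (T mn.1 x ∈ A mn.2)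
  have hφ : Measurable φ := by
    refine measurable_pi_lambda _ fun mn => ?_
    refine measurable_to_bool ?_
    have e : (fun x => φ x mn) ⁻¹' {true} = T mn.1 ⁻¹' A mn.2 := by
      ext x; simp [φ]
    rw [e]
    exact hT.meas _ (hA _)
  have he : ∀ g, ∀ᵐ x ∂μ, φ (T g x) = iter (shiftE (Fin k) Bool) g (φ x) := by
    intro g
    filter_upwards [ae_all_iff.2 fun m => hT.add m g] with x hx
    funext mn
    simp only [φ, shiftE_apply, hx]
  have hP : IsProbabilityMeasure (μ.map φ) := Measure.isProbabilityMeasure_map hφ.aemeasurable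
  let X : Sys Γ :=
    { C := Γ × Fin k → Bool
      μ := μ.map φ
      S := shiftE (Fin k) Bool
      mp := fun g => by
        refine ⟨measurable_iter _ g, ?_⟩
        rw [Measure.map_map (measurable_iter _ g) hφ]
        have h1 : iter (shiftE (Fin k) Bool) g ∘ φ =ᵐ[μ] φ ∘ T g :=
          (he g).mono fun x hx => hx.symm
        rw [Measure.map_congr h1, ← Measure.map_map hφ (hT.meas g), (hT.mp g).map_eq] }
  have hπ : MeasurePreserving φ μ X.μ := ⟨hφ, rfl⟩
  have hreal : ∀ B : Set X.C, MeasurableSet B → X.μ.real B = μ.real (φ ⁻¹' B) := by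
    intro B hB
    rw [measureReal_def, measureReal_def, hπ.measure_preimage hB.nullMeasurableSet]
  have hXf : ∀ f, ¬ Frame X.μ (iter X.S) f := fun f hf =>
    hX _ (hf.comp hπ (measurable_iter X.S) he)
  have hpm : PairMix r X := by
    intro i j hij B C hB hC
    have h1 := (h i j hij (φ ⁻¹' B) (φ ⁻¹' C) (hφ hB) (hφ hC)).mono_left hr
    rw [← hreal B hB, ← hreal C hC] at h1
    refine h1.congr fun t => ?_
    rw [hreal _ ((measurable_iter X.S _ hB).inter (measurable_iter X.S _ hC))]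
    refine measureReal_congr ?_
    filter_upwards [he (t i), he (t j)] with x h1 h2
    apply propext
    show (φ (T (t i) x) ∈ B ∧ φ (T (t j) x) ∈ C) ↔ (iter X.S (t i) (φ x) ∈ B ∧
      iter X.S (t j) (φ x) ∈ C)
    rw [h1, h2]
  let cyl : Fin k → Set X.C := fun i => {c | c (0, i) = true}
  have hcyl : ∀ i, MeasurableSet (cyl i) := fun i =>
    (measurable_pi_apply ((0 : Γ), i) : Measurable fun c : Γ × Fin k → Bool => c (0, i))
      (measurableSet_singleton true)
  have h2 := loc_std X hXf k r hpm cyl hcyl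
  have e1 : ∀ g i, φ ⁻¹' (iter X.S g ⁻¹' cyl i) = T g ⁻¹' A i := by
    intro g i
    ext x
    show φ x (0 + g, i) = true ↔ _
    simp [φ]
  have e2 : ∀ i, X.μ.real (cyl i) = μ.real (A i) := by
    intro i
    rw [hreal _ (hcyl i), ← hT.real_pre 0 (hA i)]
    congr 1
    ext x
    show φ x (0, i) = true ↔ _
    simp [φ]
  simp only [e2] at h2
  refine h2.congr fun t => ?_
  rw [hreal _ (MeasurableSet.iInter fun i => measurable_iter X.S (t i) (hcyl i)),
    Set.preimage_iInter]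
  simp only [e1]

end countable

/-! ### Separable groups -/

section separable

variable {G Ω : Type*} [AddCommGroup G] [TopologicalSpace G] [IsTopologicalAddGroup G]
  [MeasurableSpace Ω] {μ : Measure Ω} [IsProbabilityMeasure μ] {T : G → Ω → Ω}

theorem exists_frame {Γ : Type} [AddCommGroup Γ] [Countable Γ] (hT : IsAction μ T)
    (hc : ContInMeasure μ T) (j : Γ →+ G) (hj : DenseRange j) {k : ℕ}
    {l : Filter (Fin k → G)} (hp : PairIndep μ T l) (hn : ¬ JointIndep μ T l) :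
    ∃ f, Frame μ (fun γ => T (j γ)) f := by
  by_contra hX
  push Not at hX
  apply hn
  let δ : (Fin k → G) × (Fin k → Γ) → Fin k → G := fun p i => j (p.2 i) - p.1 i
  let L : Filter ((Fin k → G) × (Fin k → Γ)) := comap Prod.fst l ⊓ comap δ (𝓝 0)
  have h1 : Tendsto Prod.fst L l := tendsto_comap.mono_left inf_le_left
  have h2 : Tendsto δ L (𝓝 0) := tendsto_comap.mono_left inf_le_right
  have h3 : ∀ i, Tendsto (fun p : (Fin k → G) × (Fin k → Γ) => j (p.2 i) - p.1 i) L (𝓝 0) :=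
    fun i => ((continuous_apply i).tendsto 0).comp h2
  have h4 : ∀ i, Tendsto (fun p : (Fin k → G) × (Fin k → Γ) => p.1 i - j (p.2 i)) L (𝓝 0) := by
    intro i
    have := (h3 i).neg
    simpa using this
  have h5 := loc_countable (hT.comp j) hX (L.map Prod.snd) (by
    intro i i' hii A B hA hB
    rw [tendsto_map'_iff]
    exact tendsto_near₂ hT hc (h3 i) (h3 i') hA hB ((hp i i' hii A B hA hB).comp h1))
  intro A hA
  have h6 := h5 A hA
  rw [tendsto_map'_iff] at h6
  have h7 := tendsto_near hT hc (L := L) (s := fun p i => p.1 i) (t := fun p i => j (p.2 i)) h4 A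
    hA h6
  have h8 : l ≤ L.map Prod.fst := by
    intro S hS
    rw [mem_map, mem_inf_iff] at hS
    obtain ⟨S1, ⟨S1', hS1, hS1'⟩, S2, ⟨U, hU, hU'⟩, hS⟩ := hS
    filter_upwards [hS1] with t ht
    have hd : DenseRange fun (γ : Fin k → Γ) (i : Fin k) => j (γ i) :=
      DenseRange.piMap fun _ => hj
    have hU2 : (fun s : Fin k → G => s - t) ⁻¹' U ∈ 𝓝 t := by
      have : Tendsto (fun s : Fin k → G => s - t) (𝓝 t) (𝓝 (t - t)) :=
        (continuous_id.sub continuous_const).tendsto t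
      rw [sub_self] at this
      exact this hU
    obtain ⟨γ, hγ⟩ := hd.mem_nhds hU2
    have h9 : (t, γ) ∈ Prod.fst ⁻¹' S := by
      rw [hS]
      exact ⟨hS1' ht, hU' hγ⟩
    exact h9
  have h10 : Tendsto (fun t : Fin k → G => μ.real (⋂ i, T (t i) ⁻¹' A i)) (L.map Prod.fst)
      (𝓝 (∏ i, μ.real (A i))) := tendsto_map'_iff.2 h7
  exact h10.mono_left h8

theorem integrable_sq {F : Ω → ℂ} (hF : Bdd F) : Integrable (fun x => ‖F x‖ ^ 2) μ := by
  obtain ⟨h1, C, h2⟩ := hF
  refine Integrable.of_bound (h1.norm.pow_const 2).aestronglyMeasurable (C ^ 2)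
    (Eventually.of_forall fun x => ?_)
  rw [Real.norm_of_nonneg (by positivity)]
  exact pow_le_pow_left₀ (norm_nonneg _) (h2 x) 2

theorem integral_norm_sub_sq {h F : Ω → ℂ} (hh : Bdd h) (hF : Bdd F) (c : ℂ) :
    ∫ x, ‖h x - c * F x‖ ^ 2 ∂μ = ∫ x, ‖h x‖ ^ 2 ∂μ -
      2 * (conj c * ∫ x, h x * conj (F x) ∂μ).re + ‖c‖ ^ 2 * ∫ x, ‖F x‖ ^ 2 ∂μ := by
  have i1 : Integrable (fun x => ‖h x‖ ^ 2) μ := integrable_sq hh
  have i2 : Integrable (fun x => ‖F x‖ ^ 2) μ := integrable_sq hF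
  have i3 : Integrable (fun x => conj c * (h x * conj (F x))) μ :=
    ((hh.mul hF.star).integrable μ).const_mul _
  have e : ∀ x, ‖h x - c * F x‖ ^ 2 =
      ‖h x‖ ^ 2 - 2 * (conj c * (h x * conj (F x))).re + ‖c‖ ^ 2 * ‖F x‖ ^ 2 := by
    intro x
    rw [Complex.sq_norm, Complex.normSq_sub, Complex.normSq_mul, map_mul,
      ← Complex.sq_norm, ← Complex.sq_norm, ← Complex.sq_norm]
    have : h x * (conj c * conj (F x)) = conj c * (h x * conj (F x)) := by ring
    rw [this]
    ring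
  have i4 : Integrable (fun x => 2 * (conj c * (h x * conj (F x))).re) μ := i3.re.const_mul 2
  have i5 : Integrable (fun x => ‖h x‖ ^ 2 - 2 * (conj c * (h x * conj (F x))).re) μ := i1.sub i4
  simp only [e]
  rw [integral_add i5 (i2.const_mul _), integral_sub i1 i4, integral_const_mul,
    integral_const_mul]
  have := integral_re i3
  simp only [RCLike.re_to_complex] at this
  rw [this, integral_const_mul]

/-- the group of the elements of which `F` is an eigenfunction -/
def eigGroup (hT : IsAction μ T) (F : Ω → ℂ) : AddSubgroup G where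
  carrier := {g | ∃ c : ℂ, ‖c‖ = 1 ∧ ∀ᵐ x ∂μ, F (T g x) = c * F x}
  zero_mem' := ⟨1, norm_one, by
    filter_upwards [hT.zero] with x hx
    rw [hx, one_mul]⟩
  add_mem' := by
    rintro a b ⟨c, hc, ha⟩ ⟨d, hd, hb⟩
    refine ⟨c * d, by rw [norm_mul, hc, hd, one_mul], ?_⟩
    filter_upwards [hT.add a b, (hT.mp b).quasiMeasurePreserving.ae ha, hb] with x h1 h2 h3
    rw [h1, h2, h3, mul_assoc]
  neg_mem' := by
    rintro a ⟨c, hc, ha⟩
    have hc0 : c ≠ 0 := by
      intro h
      rw [h, norm_zero] at hc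
      exact zero_ne_one hc
    refine ⟨c⁻¹, by rw [norm_inv, hc, inv_one], ?_⟩
    filter_upwards [hT.add a (-a), (hT.mp (-a)).quasiMeasurePreserving.ae ha, hT.zero]
      with x h1 h2 h3
    rw [add_neg_cancel, h3] at h1
    rw [← h1] at h2
    rw [h2, ← mul_assoc, inv_mul_cancel₀ hc0, one_mul]

theorem mem_eigGroup (hT : IsAction μ T) {F : Ω → ℂ} (hF : Bdd F)
    (hn : ∫ x, ‖F x‖ ^ 2 ∂μ ≠ 0) (g : G) :
    g ∈ eigGroup hT F ↔ ‖cor μ T F g‖ = ∫ x, ‖F x‖ ^ 2 ∂μ := by
  set a := ∫ x, ‖F x‖ ^ 2 ∂μ with ha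
  have ha0 : 0 < a := lt_of_le_of_ne (integral_nonneg fun x => by positivity) hn.symm
  constructor
  · rintro ⟨c, hc, h⟩
    have e : cor μ T F g = c * a := by
      unfold cor
      rw [ha, ← integral_mul_conj, ← integral_const_mul]
      refine integral_congr_ae ?_
      filter_upwards [h] with x hx
      rw [hx, mul_assoc]
    rw [e, norm_mul, hc, one_mul, Complex.norm_real, Real.norm_of_nonneg ha0.le]
  · intro h
    have hh : Bdd fun x => F (T g x) := hF.comp (hT.meas g)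
    have hc : ‖cor μ T F g / a‖ = 1 := by
      rw [norm_div, h, Complex.norm_real, Real.norm_of_nonneg ha0.le, div_self ha0.ne']
    refine ⟨cor μ T F g / a, hc, ?_⟩
    have h1 := integral_norm_sub_sq (μ := μ) hh hF (cor μ T F g / a)
    rw [integral_mp (hT.mp g) (h := fun x => ‖F x‖ ^ 2)
      (hF.1.norm.pow_const 2).aestronglyMeasurable, hc, ← ha] at h1
    have h2 : (conj (cor μ T F g / a) * ∫ x, F (T g x) * conj (F x) ∂μ).re = a := by
      have e : ∫ x, F (T g x) * conj (F x) ∂μ = cor μ T F g := rfl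
      rw [e, map_div₀, Complex.conj_ofReal, div_mul_eq_mul_div, mul_comm, Complex.mul_conj,
        Complex.normSq_eq_norm_sq, h, ← Complex.ofReal_div, Complex.ofReal_re]
      field_simp
    rw [h2] at h1
    have h3 : ∫ x, ‖F (T g x) - cor μ T F g / a * F x‖ ^ 2 ∂μ = 0 := by rw [h1]; ring
    have hb : Bdd fun x => F (T g x) - cor μ T F g / a * F x := hh.sub ((Bdd.const _).mul hF)
    rw [integral_eq_zero_iff_of_nonneg (fun x => by positivity) (integrable_sq hb)] at h3
    filter_upwards [h3] with x hx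
    have : ‖F (T g x) - cor μ T F g / a * F x‖ ^ 2 = 0 := hx
    exact sub_eq_zero.1 (norm_eq_zero.1 (pow_eq_zero_iff two_ne_zero |>.1 this))

/-- the analysis form of the Bessel inequality for `F` itself -/
theorem sum_cor_le (hT : IsAction μ T) {F : Ω → ℂ} (hF : Bdd F) {n : ℕ} (g : Fin n → G)
    (h : ∀ z : Fin n → ℂ, ∫ x, ‖∑ i, z i * F (T (g i) x)‖ ^ 2 ∂μ ≤ ∑ i, ‖z i‖ ^ 2) :
    ∑ i, ‖cor μ T F (g i)‖ ^ 2 ≤ ∫ x, ‖F x‖ ^ 2 ∂μ := by
  have h1 := h fun i => conj (cor μ T F (g i))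
  have hb : Bdd fun x => ∑ i, conj (cor μ T F (g i)) * F (T (g i) x) :=
    bdd_sum _ fun i _ => (Bdd.const _).mul (hF.comp (hT.meas _))
  have h2 := integral_norm_sub_sq (μ := μ) hb hF 1
  have h3 : ∫ x, (∑ i, conj (cor μ T F (g i)) * F (T (g i) x)) * conj (F x) ∂μ =
      ((∑ i, ‖cor μ T F (g i)‖ ^ 2 : ℝ) : ℂ) := by
    simp only [Finset.sum_mul, mul_assoc]
    rw [integral_finsetSum _ fun i _ =>
      (((hF.comp (hT.meas _)).mul hF.star).integrable μ).const_mul _]
    push_cast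
    refine Finset.sum_congr rfl fun i _ => ?_
    rw [integral_const_mul]
    have e : ∫ x, F (T (g i) x) * conj (F x) ∂μ = cor μ T F (g i) := rfl
    rw [e, mul_comm, Complex.mul_conj, Complex.normSq_eq_norm_sq]
    push_cast
    rfl
  rw [h3, map_one, one_mul, Complex.ofReal_re, norm_one] at h2
  have h4 : 0 ≤ ∫ x, ‖∑ i, conj (cor μ T F (g i)) * F (T (g i) x) - 1 * F x‖ ^ 2 ∂μ :=
    integral_nonneg fun x => by positivity
  simp only [RCLike.norm_conj] at h1
  linarith

theorem bessel_of_frame {Γ : Type*} [AddCommGroup Γ] (hT : IsAction μ T)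
    (hc : ContInMeasure μ T) (j : Γ →+ G) (hj : DenseRange j) {F : Ω → ℂ}
    (hF : Frame μ (fun γ => T (j γ)) F) :
    IsOpen (eigGroup hT F : Set G) ∧ BesselVector μ T (eigGroup hT F) F := by
  classical
  obtain ⟨hb, h0, hn, hf⟩ := hF
  set H := eigGroup hT F with hH
  set a := ∫ x, ‖F x‖ ^ 2 ∂μ with ha
  have ha0 : 0 < a := lt_of_le_of_ne (integral_nonneg fun x => by positivity) hn.symm
  have hmem : ∀ g, g ∈ H ↔ ‖cor μ T F g‖ = a := mem_eigGroup hT hb hn
  have hcont := continuous_cor hT hc hb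
  have hf' : ∀ (n : ℕ) (γ : Fin n → Γ), (∀ i i', i ≠ i' → j (γ i) - j (γ i') ∉ H) →
      ∀ z : Fin n → ℂ, ∫ x, ‖∑ i, z i * F (T (j (γ i)) x)‖ ^ 2 ∂μ ≤ ∑ i, ‖z i‖ ^ 2 := by
    intro n γ hγ z
    refine hf n γ z fun i i' hii h => hγ i i' hii ?_
    rw [hmem, ← map_sub]
    exact h
  have hclosed : IsClosed (H : Set G) := by
    have e : (H : Set G) = {g | ‖cor μ T F g‖ = a} := Set.ext hmem
    rw [e]
    exact isClosed_eq hcont.norm continuous_const
  set U : Set G := {g | a / 2 < ‖cor μ T F g‖} with hU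
  have hUo : IsOpen U := isOpen_lt continuous_const hcont.norm
  have hU0 : (0 : G) ∈ U := by
    show a / 2 < ‖cor μ T F 0‖
    rw [(hmem 0).1 H.zero_mem]
    linarith
  obtain ⟨S, hS⟩ : ∃ S : Finset Γ, ∀ γ, j γ ∈ U → ∃ s ∈ S, j γ - j s ∈ H := by
    by_contra hcon
    push Not at hcon
    obtain ⟨γ, hγ1, hγ2⟩ := exists_seq_of_forall_finset_exists (fun γ : Γ => j γ ∈ U)
      (fun s γ => j γ - j s ∉ H) fun S _ => hcon S
    obtain ⟨n, hn'⟩ := exists_nat_gt (4 / a)
    have h1 := sum_cor_le hT hb (fun i : Fin n => j (γ i)) (hf' n (fun i => γ i) (by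
      intro i i' hii
      rcases lt_or_gt_of_ne hii with h | h
      · intro h2
        apply hγ2 i i' h
        have := H.neg_mem h2
        rwa [neg_sub] at this
      · exact hγ2 i' i h))
    have h2 : ∑ _i : Fin n, (a / 2) ^ 2 ≤ ∑ i : Fin n, ‖cor μ T F (j (γ i))‖ ^ 2 :=
      Finset.sum_le_sum fun i _ => pow_le_pow_left₀ (by positivity) (le_of_lt (hγ1 i)) 2
    rw [Finset.sum_const, Finset.card_univ, Fintype.card_fin, nsmul_eq_mul] at h2
    rw [div_lt_iff₀ ha0] at hn'
    rw [← ha] at h1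
    nlinarith
  have hcos : ∀ s : G, IsClosed {g : G | g - s ∈ H} := fun s =>
    hclosed.preimage (continuous_id.sub continuous_const)
  have hopen : IsOpen (H : Set G) := by
    have h1 : U ⊆ ⋃ s ∈ S, {g : G | g - j s ∈ H} := by
      refine (hj.open_subset_closure_inter hUo).trans ?_
      refine closure_minimal ?_ (S.finite_toSet.isClosed_biUnion fun s _ => hcos _)
      rintro _ ⟨h1, γ, rfl⟩
      obtain ⟨s, hs, h2⟩ := hS γ h1
      exact Set.mem_biUnion hs h2
    have h2 : IsClosed (⋃ s ∈ S.filter (fun s => j s ∉ H), {g : G | g - j s ∈ H}) :=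
      (S.filter fun s => j s ∉ H).finite_toSet.isClosed_biUnion fun s _ => hcos _
    refine H.isOpen_of_mem_nhds (g := 0) (mem_of_superset
      ((hUo.sdiff h2).mem_nhds ⟨hU0, ?_⟩) ?_)
    · intro h3
      simp only [Set.mem_iUnion, Finset.mem_filter] at h3
      obtain ⟨s, ⟨_, hs⟩, h4⟩ := h3
      apply hs
      have := H.neg_mem h4
      simpa using this
    · rintro g ⟨hg1, hg2⟩
      have h3 := h1 hg1
      simp only [Set.mem_iUnion] at h3
      obtain ⟨s, hs, h4⟩ := h3
      by_cases h5 : j s ∈ H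
      · have := H.add_mem h4 h5
        simpa using this
      · exact absurd (Set.mem_biUnion (Finset.mem_coe.2 (Finset.mem_filter.2 ⟨hs, h5⟩)) h4) hg2
  refine ⟨hopen, hb.1, hb.2, h0, fun hz => hn ?_, fun h hh => ?_, fun n g z hg => ?_⟩
  · refine (integral_congr_ae ?_).trans (integral_zero _ _)
    filter_upwards [hz] with x hx
    rw [hx]; simp
  · obtain ⟨c, -, hc⟩ := hh
    exact ⟨c, hc⟩
  · have h1 : ∀ i, ∃ γ : Γ, g i - j γ ∈ H := by
      intro i
      have h2 : (fun s : G => g i - s) ⁻¹' (H : Set G) ∈ 𝓝 (g i) := by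
        refine (hopen.preimage (continuous_const.sub continuous_id)).mem_nhds ?_
        show g i - g i ∈ H
        rw [sub_self]
        exact H.zero_mem
      exact hj.mem_nhds h2
    choose γ hγ using h1
    choose c hc1 hc2 using hγ
    have h3 := hf' n γ (fun i i' hii h => hg i i' hii (by
      have h4 : g i - j (γ i) ∈ H := ⟨c i, hc1 i, hc2 i⟩
      have h5 : g i' - j (γ i') ∈ H := ⟨c i', hc1 i', hc2 i'⟩
      have := H.sub_mem (H.add_mem h4 h) h5
      convert this using 1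
      abel)) fun i => z i * c i
    simp only [norm_mul, hc1, mul_one] at h3
    refine le_of_eq_of_le (integral_congr_ae ?_) h3
    filter_upwards [ae_all_iff.2 fun i => hT.sub (g i) (j (γ i)),
      ae_all_iff.2 fun i => (hT.mp (j (γ i))).quasiMeasurePreserving.ae (hc2 i)] with x h4 h5
    simp only [h4, h5, mul_assoc]

/-- **The structure theorem.** -/
theorem structure_thm [TopologicalSpace.SeparableSpace G] (hT : IsAction μ T)
    (hc : ContInMeasure μ T) {k : ℕ} {l : Filter (Fin k → G)} (hp : PairIndep μ T l)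
    (hn : ¬ JointIndep μ T l) :
    ∃ (H : AddSubgroup G) (f : Ω → ℂ), IsOpen (H : Set G) ∧ BesselVector μ T H f := by
  let j : (ℕ →₀ ℤ) →+ G :=
    (Finsupp.linearCombination ℤ (TopologicalSpace.denseSeq G)).toAddMonoidHom
  have hj : DenseRange j := by
    refine (TopologicalSpace.denseRange_denseSeq G).mono ?_
    rintro _ ⟨n, rfl⟩
    exact ⟨Finsupp.single n 1, by simp [j]⟩
  obtain ⟨f, hf⟩ := exists_frame hT hc j hj hp hn
  exact ⟨_, f, bessel_of_frame hT hc j hj hf⟩

end separable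

end Vale.Agent.N102G
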