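import Vale.Agent.N102G.G6
import Mathlib.MeasureTheory.Measure.ContinuousPreimage
import Mathlib.MeasureTheory.Measure.Haar.Unique
import Mathlib.Topology.Instances.ZMultiples
import Mathlib.Topology.Connected.Clopen
import Mathlib.Analysis.Fourier.AddCircleMulti
import Mathlib.MeasureTheory.Measure.HasOuterApproxClosed

set_option linter.all false

/-! Consequences of the structure theorem. -/

namespace Vale.Agent.N102G

open Vale.Agent.P102.RM
open MeasureTheory Filter Topology ProbabilityTheory Set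
open scoped ComplexConjugate symmDiff NNReal ENNReal

section conseq

variable {G Ω : Type*} [AddCommGroup G] [TopologicalSpace G] [IsTopologicalAddGroup G]
  [MeasurableSpace Ω] {μ : Measure Ω} [IsProbabilityMeasure μ] {T : G → Ω → Ω}

theorem BesselVector.bdd {H : AddSubgroup G} {f : Ω → ℂ} (h : BesselVector μ T H f) : Bdd f :=
  ⟨h.1, h.2.1⟩

theorem BesselVector.pos {H : AddSubgroup G} {f : Ω → ℂ} (h : BesselVector μ T H f) :
    0 < ∫ x, ‖f x‖ ^ 2 ∂μ := by
  refine lt_of_le_of_ne (integral_nonneg fun x => by positivity) fun h0 => h.2.2.2.1 ?_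
  have h1 := (integral_eq_zero_iff_of_nonneg (fun x => by positivity)
    (integrable_sq h.bdd)).1 h0.symm
  filter_upwards [h1] with x hx
  have : ‖f x‖ ^ 2 = 0 := hx
  exact norm_eq_zero.1 (pow_eq_zero_iff two_ne_zero |>.1 this)

theorem BesselVector.norm_cor (hT : IsAction μ T) {H : AddSubgroup G} {f : Ω → ℂ}
    (h : BesselVector μ T H f) {g : G} (hg : g ∈ H) : ‖cor μ T f g‖ = ∫ x, ‖f x‖ ^ 2 ∂μ := by
  obtain ⟨c, hc⟩ := h.2.2.2.2.1 g hg
  refine (mem_eigGroup hT h.bdd h.pos.ne' g).1 ⟨c, ?_, hc⟩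
  have h1 : ∫ x, ‖f (T g x)‖ ^ 2 ∂μ = ∫ x, ‖f x‖ ^ 2 ∂μ :=
    integral_mp (hT.mp g) (h := fun x => ‖f x‖ ^ 2) (h.1.norm.pow_const 2).aestronglyMeasurable
  have h2 : ∫ x, ‖f (T g x)‖ ^ 2 ∂μ = ‖c‖ ^ 2 * ∫ x, ‖f x‖ ^ 2 ∂μ := by
    rw [← integral_const_mul]
    refine integral_congr_ae ?_
    filter_upwards [hc] with x hx
    rw [hx, norm_mul, mul_pow]
  have h3 : ‖c‖ ^ 2 = 1 := by
    have h4 := h.pos
    rw [h2] at h1
    field_simp at h1
    exact h1
  exact (pow_eq_one_iff_of_nonneg (norm_nonneg c) two_ne_zero).1 h3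

theorem joint_of_small (hT : IsAction μ T) {k : ℕ} (hk : k < 2) (l : Filter (Fin k → G)) :
    JointIndep μ T l := by
  intro A hA
  interval_cases k
  · simpa using tendsto_const_nhds
  · have h1 : (fun t : Fin 1 → G => μ.real (⋂ i, T (t i) ⁻¹' A i)) = fun _ => ∏ i, μ.real (A i) := by
      funext t
      have e : (⋂ i, T (t i) ⁻¹' A i) = T (t 0) ⁻¹' A 0 := by
        ext x
        simp [Fin.forall_fin_one]
      rw [e, hT.real_pre _ (hA 0)]
      simp
    rw [h1]
    exact tendsto_const_nhds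

/-- the local theorem for connected groups -/
theorem joint_of_connected [TopologicalSpace.SeparableSpace G] [PreconnectedSpace G]
    (hT : IsAction μ T) (hc : ContInMeasure μ T) {k : ℕ} {l : Filter (Fin k → G)}
    (hp : PairIndep μ T l) : JointIndep μ T l := by
  by_contra hn
  obtain ⟨H, f, hH, hf⟩ := structure_thm hT hc hp hn
  have hall : ∀ g, g ∈ H := by
    have h1 : IsClopen (H : Set G) := ⟨H.isClosed_of_isOpen hH, hH⟩
    have h2 := h1.eq_univ ⟨0, H.zero_mem⟩
    intro g
    have : g ∈ (H : Set G) := by rw [h2]; trivial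
    exact this
  have hk : 2 ≤ k := by
    by_contra hk
    exact hn (joint_of_small hT (by omega) l)
  have hl : l.NeBot := by
    rcases l.eq_or_neBot with h | h
    · exfalso
      apply hn
      intro A _
      rw [h]
      exact tendsto_bot
    · exact h
  let i : Fin k := ⟨0, by omega⟩
  let j : Fin k := ⟨1, by omega⟩
  have hij : i ≠ j := by
    intro h
    have := congrArg Fin.val h
    simp [i, j] at this
  have h1 := tendsto_corr_indep (μ := μ) (ρ := μ) (l := l) (φ := fun t => T (t i))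
    (ψ := fun t => T (t j)) (fun t => hT.mp _) (fun t => hT.mp _) (hp i j hij) hf.bdd hf.bdd.star
  rw [hf.2.2.1, zero_mul] at h1
  have h2 := h1.norm
  simp only [hT.cor_eq hf.bdd, hf.norm_cor hT (hall _), norm_zero] at h2
  exact hf.pos.ne' (tendsto_nhds_unique tendsto_const_nhds h2)

/-- the structure theorem for mixing actions -/
theorem structure_mixing [TopologicalSpace.SeparableSpace G] (hT : IsAction μ T)
    (hc : ContInMeasure μ T) (hm : Mixing μ T) (hn : ¬ MixingAllOrders μ T) :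
    ∃ (H : AddSubgroup G) (f : Ω → ℂ), IsCompact (H : Set G) ∧ IsOpen (H : Set G) ∧
      BesselVector μ T H f := by
  have h1 : ∃ (k : ℕ) (l : Filter (Fin k → G)), PairIndep μ T l ∧ ¬ JointIndep μ T l := by
    by_contra hcon
    push Not at hcon
    apply hn
    intro k A hA ε hε
    let s : Set G → Set (Fin k → G) := fun K => {t | ∀ i j, i ≠ j → t i - t j ∉ K}
    have hb : (⨅ (K : Set G) (_ : IsCompact K), 𝓟 (s K)).HasBasis IsCompact s := by
      refine hasBasis_biInf_principal' (fun K hK K' hK' => ⟨K ∪ K', hK.union hK', ?_, ?_⟩)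
        ⟨∅, isCompact_empty⟩
      · exact fun t ht i j hij h => ht i j hij (Or.inl h)
      · exact fun t ht i j hij h => ht i j hij (Or.inr h)
    have h2 := hcon k _ (fun i j hij B C hB hC => by
      have h3 : Tendsto (fun t : Fin k → G => t i - t j)
          (⨅ (K : Set G) (_ : IsCompact K), 𝓟 (s K)) (cocompact G) := by
        rw [hb.tendsto_iff hasBasis_cocompact]
        exact fun K hK => ⟨K, hK, fun t ht => ht i j hij⟩
      have h4 := (hm C B hC hB).comp h3
      rw [mul_comm] at h4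
      refine h4.congr fun t => ?_
      simp only [Function.comp_apply]
      rw [hT.inter_eq _ _ hB hC]) A hA
    rw [Metric.tendsto_nhds] at h2
    obtain ⟨K, hK, h3⟩ := hb.eventually_iff.1 (h2 ε hε)
    exact ⟨K, hK, fun t ht => by
      have := h3 ht
      rwa [Real.dist_eq] at this⟩
  obtain ⟨k, l, hp, hj⟩ := h1
  obtain ⟨H, f, hH, hf⟩ := structure_thm hT hc hp hj
  refine ⟨H, f, ?_, hH, hf⟩
  have h2 := tendsto_corr_indep (μ := μ) (ρ := μ) (l := cocompact G) (φ := T)
    (ψ := fun _ => T 0) hT.mp (fun _ => hT.mp 0) (fun A B hA hB => by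
      have h4 := hm B A hB hA
      rw [mul_comm] at h4
      refine h4.congr fun g => ?_
      rw [hT.inter_eq _ _ hA hB, sub_zero]) hf.bdd hf.bdd.star
  rw [hf.2.2.1, zero_mul] at h2
  have h3 := h2.norm
  simp only [hT.cor_eq hf.bdd, sub_zero, norm_zero] at h3
  obtain ⟨K, hK, h4⟩ := hasBasis_cocompact.eventually_iff.1 (h3.eventually_lt_const hf.pos)
  refine hK.of_isClosed_subset (H.isClosed_of_isOpen hH) fun g hg => ?_
  by_contra h5
  have h6 := h4 h5
  rw [hf.norm_cor hT hg] at h6
  exact lt_irrefl _ h6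

theorem allOrders_of_noCompactOpen [TopologicalSpace.SeparableSpace G]
    (hG : ∀ H : AddSubgroup G, IsOpen (H : Set G) → ¬ IsCompact (H : Set G)) (hT : IsAction μ T)
    (hc : ContInMeasure μ T) (hm : Mixing μ T) : MixingAllOrders μ T := by
  by_contra hn
  obtain ⟨H, f, h1, h2, -⟩ := structure_mixing hT hc hm hn
  exact hG H h2 h1

end conseq

/-! ### Measurable actions of locally compact groups are continuous in measure -/

section lcsc

variable {G Ω : Type*} [AddCommGroup G] [TopologicalSpace G] [IsTopologicalAddGroup G]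
  [LocallyCompactSpace G] [SecondCountableTopology G] [MeasurableSpace G] [BorelSpace G]
  [MeasurableSpace Ω] {μ : Measure Ω} [IsProbabilityMeasure μ] {T : G → Ω → Ω}

theorem tendsto_translate {S : Set G} (hS : MeasurableSet S)
    (hf : (Measure.addHaar : Measure G) S ≠ ∞) :
    Tendsto (fun h : G => (Measure.addHaar : Measure G) (((fun s : G => h + s) ⁻¹' S) ∆ S))
      (𝓝 0) (𝓝 0) := by
  have h1 : Continuous fun p : G × G => p.1 + p.2 := by fun_prop
  have h2 : Continuous fun h : G => (⟨fun s : G => h + s, by fun_prop⟩ : C(G, G)) :=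
    ContinuousMap.continuous_of_continuous_uncurry _ h1
  have h3 : (⟨fun s : G => 0 + s, by fun_prop⟩ : C(G, G)) = ContinuousMap.id G := by
    ext s
    simp
  exact tendsto_measure_symmDiff_preimage_nhds_zero (μ := (Measure.addHaar : Measure G))
    (ν := (Measure.addHaar : Measure G)) (l := 𝓝 (0 : G))
    (f := fun h : G => (⟨fun s : G => h + s, by fun_prop⟩ : C(G, G)))
    (g := ContinuousMap.id G) (s := S) (by rw [← h3]; exact h2.tendsto 0)
    (Eventually.of_forall fun h => measurePreserving_add_left _ h)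
    (MeasurePreserving.id _) hS.nullMeasurableSet hf

theorem cont_of_measurable (hT : IsAction μ T) (hm : Measurable (Function.uncurry T)) :
    ContInMeasure μ T := by
  intro A hA
  obtain ⟨K, hK, hK0⟩ := exists_compact_mem_nhds (0 : G)
  set m : Measure G := Measure.addHaar with hmdef
  have hKc : IsCompact (closure K) := hK.closure
  set K0 := closure K with hK0def
  have hK00 : K0 ∈ 𝓝 (0 : G) := mem_of_superset hK0 subset_closure
  have hK0m : MeasurableSet K0 := isClosed_closure.measurableSet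
  have hpos : m K0 ≠ 0 := (Measure.measure_pos_of_mem_nhds m hK00).ne'
  have hfin : m K0 ≠ ∞ := hKc.measure_lt_top.ne
  set K1 := closure ((fun p : G × G => p.1 + p.2) '' (K0 ×ˢ K0)) with hK1
  have hK1c : IsCompact K1 := ((hKc.prod hKc).image (by fun_prop)).closure
  have hK1m : MeasurableSet K1 := isClosed_closure.measurableSet
  have hK01 : ∀ h ∈ K0, ∀ s ∈ K0, h + s ∈ K1 := fun h hh s hs =>
    subset_closure ⟨(h, s), ⟨hh, hs⟩, rfl⟩
  set D : G → Set (G × Ω) := fun h =>
    ((fun p : G × Ω => T (h + p.1) p.2) ⁻¹' A) ∆ ((fun p : G × Ω => T p.1 p.2) ⁻¹' A) with hD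
  have hD1 : ∀ h, MeasurableSet (D h) := by
    intro h
    refine MeasurableSet.symmDiff ?_ ?_
    · exact (hm.comp (Measurable.prodMk (measurable_fst.const_add h) measurable_snd)) hA
    · exact hm hA
  set ν : Measure G := m.restrict K0 with hν
  have hν1 : ν univ = m K0 := by simp [hν]
  haveI : IsFiniteMeasure ν := ⟨by rw [hν1]; exact hfin.lt_top⟩
  have key : ∀ h : G, μ ((T h ⁻¹' A) ∆ A) * m K0 = ∫⁻ x, ν ((fun s => (s, x)) ⁻¹' D h) ∂μ := by
    intro h
    rw [← Measure.prod_apply_symm (hD1 h), Measure.prod_apply (hD1 h)]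
    have : ∀ s : G, μ (Prod.mk s ⁻¹' D h) = μ ((T h ⁻¹' A) ∆ A) := by
      intro s
      have e : Prod.mk s ⁻¹' D h = (T (h + s) ⁻¹' A) ∆ (T s ⁻¹' A) := rfl
      rw [e, hT.symmDiff_eq _ _ hA, add_sub_cancel_right]
    simp only [this, lintegral_const, hν1]
  have h0 : Tendsto (fun h : G => ∫⁻ x, ν ((fun s => (s, x)) ⁻¹' D h) ∂μ) (𝓝 0)
      (𝓝 (∫⁻ _, 0 ∂μ)) := by
    refine tendsto_lintegral_filter_of_dominated_convergence (fun _ => m K0) ?_ ?_
      (by simpa using hfin) ?_
    · exact Eventually.of_forall fun h => measurable_measure_prodMk_right (hD1 h)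
    · exact Eventually.of_forall fun h => Eventually.of_forall fun x =>
        (measure_mono (subset_univ _)).trans hν1.le
    · refine Eventually.of_forall fun x => ?_
      set S : Set G := {s | s ∈ K1 ∧ T s x ∈ A} with hS
      have hSm : MeasurableSet S := by
        refine hK1m.inter ?_
        have : Measurable fun s : G => T s x :=
          hm.comp (Measurable.prodMk measurable_id measurable_const)
        exact this hA
      have hSf : m S ≠ ∞ :=
        ne_of_lt (lt_of_le_of_lt (measure_mono (t := K1) fun s hs => hs.1) hK1c.measure_lt_top)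
      refine tendsto_of_tendsto_of_tendsto_of_le_of_le' tendsto_const_nhds
        (tendsto_translate hSm hSf) (Eventually.of_forall fun _ => bot_le) ?_
      filter_upwards [hK00] with h hh
      rw [hν, Measure.restrict_apply' hK0m]
      refine measure_mono ?_
      rintro s ⟨hs, hs0⟩
      have m1 : s ∈ ((fun s : G => h + s) ⁻¹' S) ↔ T (h + s) x ∈ A :=
        ⟨fun h => h.2, fun h' => ⟨hK01 h hh s hs0, h'⟩⟩
      have m2 : s ∈ S ↔ T s x ∈ A :=
        ⟨fun h => h.2, fun h' => ⟨by
          have := hK01 0 (mem_of_mem_nhds hK00) s hs0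
          rwa [zero_add] at this, h'⟩⟩
      simp only [hD, Set.mem_preimage, Set.mem_symmDiff] at hs
      rw [Set.mem_symmDiff, m1, m2]
      exact hs
  simp only [lintegral_zero] at h0
  have h1 := ENNReal.Tendsto.mul_const (b := (m K0)⁻¹) ((tendsto_congr key).2 h0)
    (Or.inr (ENNReal.inv_ne_top.2 hpos))
  simp only [mul_assoc, ENNReal.mul_inv_cancel hpos hfin, mul_one, zero_mul] at h1
  exact h1

end lcsc

/-! ### The groups `ℝ^d × ℤ^m` -/

theorem noCompactOpen_real {d m : ℕ} (hd : 1 ≤ d) (H : AddSubgroup ((Fin d → ℝ) × (Fin m → ℤ)))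
    (ho : IsOpen (H : Set ((Fin d → ℝ) × (Fin m → ℤ)))) :
    ¬ IsCompact (H : Set ((Fin d → ℝ) × (Fin m → ℤ))) := by
  intro hc
  let e : ℝ →+ (Fin d → ℝ) × (Fin m → ℤ) :=
    { toFun := fun s => (fun _ => s, 0)
      map_zero' := rfl
      map_add' := fun s t => by ext <;> simp }
  have he : Continuous e := by
    show Continuous fun s : ℝ => ((fun _ => s, 0) : (Fin d → ℝ) × (Fin m → ℤ))
    fun_prop
  have h1 : IsOpen ((H.comap e : AddSubgroup ℝ) : Set ℝ) := ho.preimage he
  have h2 : IsClopen ((H.comap e : AddSubgroup ℝ) : Set ℝ) :=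
    ⟨(H.comap e).isClosed_of_isOpen h1, h1⟩
  have h3 := h2.eq_univ ⟨0, (H.comap e).zero_mem⟩
  have h4 : IsCompact ((fun p : (Fin d → ℝ) × (Fin m → ℤ) => p.1 ⟨0, hd⟩) '' H) :=
    hc.image (by fun_prop)
  have h5 : ((fun p : (Fin d → ℝ) × (Fin m → ℤ) => p.1 ⟨0, hd⟩) '' H) = univ := by
    refine eq_univ_of_forall fun s => ⟨e s, ?_, rfl⟩
    have : s ∈ ((H.comap e : AddSubgroup ℝ) : Set ℝ) := by rw [h3]; trivial
    exact this
  rw [h5] at h4
  exact noncompact_univ ℝ h4

theorem compact_eq_bot {m : ℕ} (H : AddSubgroup (Fin m → ℤ))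
    (hc : IsCompact (H : Set (Fin m → ℤ))) : H = ⊥ := by
  have hf : (H : Set (Fin m → ℤ)).Finite := hc.finite_of_discrete
  rw [eq_bot_iff]
  intro v hv
  by_contra h0
  have h1 : v ≠ 0 := h0
  have hinj : Function.Injective fun n : ℕ => n • v := by
    intro a b hab
    obtain ⟨i, hi⟩ := Function.ne_iff.1 h1
    have h2 := congrFun hab i
    simp only [Pi.smul_apply, nsmul_eq_mul] at h2
    have h3 := mul_right_cancel₀ hi h2
    exact_mod_cast h3
  exact Set.infinite_of_injective_forall_mem hinj (fun n => H.nsmul_mem hv n) hf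

theorem contInMeasure_of_discrete {G Ω : Type*} [AddCommGroup G] [TopologicalSpace G]
    [DiscreteTopology G] [MeasurableSpace Ω] {μ : Measure Ω} [IsProbabilityMeasure μ]
    {T : G → Ω → Ω} (hT : IsAction μ T) : ContInMeasure μ T := by
  intro A hA
  rw [nhds_discrete, tendsto_pure_left]
  intro s hs
  have h1 := hT.symmDiff_eq 0 0 hA
  rw [sub_zero, symmDiff_self] at h1
  rw [← h1]
  simpa using mem_of_mem_nhds hs

/-! ### The spectral density of a Bessel vector of a `ℤ^m`-action -/

section spec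

open UnitAddTorus

theorem ae_nonneg_of_closed {X : Type*} [MeasurableSpace X] [TopologicalSpace X] [BorelSpace X]
    {ν : Measure X} [IsFiniteMeasure ν] [ν.WeaklyRegular] {g : X → ℝ} (hg : Integrable g ν)
    (h : ∀ F : Set X, IsClosed F → 0 ≤ ∫ x in F, g x ∂ν) : 0 ≤ᵐ[ν] g := by
  refine ae_nonneg_of_forall_setIntegral_nonneg hg fun s hs _ => ?_
  have h1 : ∀ n : ℕ, ∃ F ⊆ s, IsClosed F ∧ ν (s \ F) < ((n : ℝ≥0∞) + 1)⁻¹ := fun n =>
    hs.exists_isClosed_sdiff_lt (measure_ne_top _ _) (by simp)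
  choose F hF1 hF2 hF3 using h1
  have h2 : Tendsto (fun n => ν (s \ F n)) atTop (𝓝 0) := by
    refine tendsto_of_tendsto_of_tendsto_of_le_of_le tendsto_const_nhds ?_ (fun _ => bot_le)
      fun n => (hF3 n).le
    have h3 := ENNReal.tendsto_inv_nat_nhds_zero.comp (tendsto_add_atTop_nat 1)
    refine h3.congr fun n => ?_
    simp
  have h4 := hg.tendsto_setIntegral_nhds_zero (s := fun n => s \ F n) h2
  refine le_of_tendsto' h4 fun n => ?_
  rw [setIntegral_sdiff (hF2 n).measurableSet hg.integrableOn (hF1 n)]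
  linarith [h _ (hF2 n)]

variable {m : ℕ}

/-- Haar probability measure on the torus -/
noncomputable abbrev haarT (m : ℕ) : Measure (UnitAddTorus (Fin m)) :=
  Measure.pi fun _ => AddCircle.haarAddCircle

theorem integral_mFourier (v : Fin m → ℤ) :
    ∫ θ, mFourier v θ ∂(haarT m) = if v = 0 then 1 else 0 := by
  have h1 := orthonormal_iff_ite.1 (orthonormal_mFourier (d := Fin m)) 0 v
  rw [ContinuousMap.inner_toLp] at h1
  simp only [mFourier_zero, ContinuousMap.one_apply, map_one, mul_one] at h1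
  refine h1.trans ?_
  simp only [eq_comm]

theorem integral_poly {ρ : UnitAddTorus (Fin m) → ℂ} (hρ : Integrable ρ (haarT m))
    {n : ℕ} (v : Fin n → Fin m → ℤ) (z : Fin n → ℂ) :
    ∫ θ, ((‖∑ i, z i * mFourier (v i) θ‖ ^ 2 : ℝ) : ℂ) * ρ θ ∂(haarT m) =
      ∑ i, ∑ j, z i * conj (z j) * ∫ θ, mFourier (v i - v j) θ * ρ θ ∂(haarT m) := by
  have hi : ∀ w : Fin m → ℤ, Integrable (fun θ => mFourier w θ * ρ θ) (haarT m) := fun w =>
    hρ.bdd_mul (c := 1) (mFourier w).continuous.aestronglyMeasurable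
      (Eventually.of_forall fun θ => ((mFourier w).norm_coe_le_norm θ).trans mFourier_norm.le)
  have e : ∀ θ, ((‖∑ i, z i * mFourier (v i) θ‖ ^ 2 : ℝ) : ℂ) * ρ θ =
      ∑ i, ∑ j, z i * conj (z j) * (mFourier (v i - v j) θ * ρ θ) := by
    intro θ
    rw [← Complex.normSq_eq_norm_sq, ← Complex.mul_conj, map_sum, Finset.sum_mul_sum,
      Finset.sum_mul]
    refine Finset.sum_congr rfl fun i _ => ?_
    rw [Finset.sum_mul]
    refine Finset.sum_congr rfl fun j _ => ?_
    rw [sub_eq_add_neg, mFourier_add, mFourier_neg, map_mul]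
    ring
  simp only [e]
  rw [integral_finsetSum _ fun i _ => integrable_finsetSum _ fun j _ => (hi _).const_mul _]
  refine Finset.sum_congr rfl fun i _ => ?_
  rw [integral_finsetSum _ fun j _ => (hi _).const_mul _]
  exact Finset.sum_congr rfl fun j _ => integral_const_mul _ _

variable {Ω : Type*} [MeasurableSpace Ω] {μ : Measure Ω} [IsProbabilityMeasure μ]
  {T : (Fin m → ℤ) → Ω → Ω}

theorem integral_sum_sq (hT : IsAction μ T) {f : Ω → ℂ} (hf : Bdd f) {n : ℕ}
    (v : Fin n → Fin m → ℤ) (z : Fin n → ℂ) :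
    ((∫ x, ‖∑ i, z i * f (T (v i) x)‖ ^ 2 ∂μ : ℝ) : ℂ) =
      ∑ i, ∑ j, z i * conj (z j) * cor μ T f (v i - v j) := by
  have hi : ∀ i j, Integrable (fun x => f (T (v i) x) * conj (f (T (v j) x))) μ := fun i j =>
    ((hf.comp (hT.meas _)).mul (hf.comp (hT.meas _)).star).integrable μ
  rw [← integral_mul_conj]
  have e : ∀ x, (∑ i, z i * f (T (v i) x)) * conj (∑ i, z i * f (T (v i) x)) =
      ∑ i, ∑ j, z i * conj (z j) * (f (T (v i) x) * conj (f (T (v j) x))) := by
    intro x
    rw [map_sum, Finset.sum_mul_sum]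
    refine Finset.sum_congr rfl fun i _ => Finset.sum_congr rfl fun j _ => ?_
    rw [map_mul]
    ring
  simp only [e]
  rw [integral_finsetSum _ fun i _ => integrable_finsetSum _ fun j _ => (hi _ _).const_mul _]
  refine Finset.sum_congr rfl fun i _ => ?_
  rw [integral_finsetSum _ fun j _ => (hi _ _).const_mul _]
  refine Finset.sum_congr rfl fun j _ => ?_
  rw [integral_const_mul, hT.cor_eq hf]

theorem exists_density (hT : IsAction μ T) {f : Ω → ℂ} (hf : BesselVector μ T ⊥ f) :
    ∃ ρ : UnitAddTorus (Fin m) → ℝ, Measurable ρ ∧ (∀ θ, 0 ≤ ρ θ ∧ ρ θ ≤ 1) ∧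
      ∀ v, ∫ x, f (T v x) * conj (f x) ∂μ = ∫ θ, mFourier v θ * (ρ θ : ℂ) ∂(haarT m) := by
  classical
  have hb := hf.bdd
  have hB : ∀ (n : ℕ) (v : Fin n → Fin m → ℤ), Function.Injective v → ∀ z : Fin n → ℂ,
      ∫ x, ‖∑ i, z i * f (T (v i) x)‖ ^ 2 ∂μ ≤ ∑ i, ‖z i‖ ^ 2 := fun n v hv z =>
    hf.2.2.2.2.2 n v z fun i j hij h => hij (hv (sub_eq_zero.1 (AddSubgroup.mem_bot.1 h)))
  have hsum : Summable fun v : Fin m → ℤ => ‖cor μ T f (-v)‖ ^ 2 := by
    refine summable_of_sum_le (c := ∫ x, ‖f x‖ ^ 2 ∂μ) (fun v => by positivity) fun s => ?_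
    have h1 := sum_cor_le hT hb (fun i => -(s.equivFin.symm i : Fin m → ℤ)) (hB _ _ (by
      intro i j hij
      exact s.equivFin.symm.injective (Subtype.ext (neg_injective hij))))
    rw [← Finset.sum_coe_sort s, ← Equiv.sum_comp s.equivFin.symm]
    exact h1
  have hmem : Memℓp (fun v : Fin m → ℤ => cor μ T f (-v)) 2 := by
    rw [memℓp_gen_iff (by norm_num)]
    simpa using hsum
  let R := (mFourierBasis (d := Fin m)).repr.symm ⟨_, hmem⟩
  have hRm : Measurable (R : UnitAddTorus (Fin m) → ℂ) := (Lp.stronglyMeasurable R).measurable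
  have hRi : Integrable (R : UnitAddTorus (Fin m) → ℂ) (haarT m) :=
    (show MemLp (R : UnitAddTorus (Fin m) → ℂ) 2 (haarT m) from Lp.memLp R).integrable
      (by norm_num)
  have hR : ∀ v, ∫ θ, mFourier v θ * R θ ∂(haarT m) = cor μ T f v := by
    intro v
    have h1 := mFourierBasis_repr R (-v)
    have h2 : (mFourierBasis (d := Fin m)).repr R (-v) = cor μ T f (- -v) := by
      simp only [R, LinearIsometryEquiv.apply_symm_apply]
    rw [h2, neg_neg] at h1
    rw [h1]
    unfold mFourierCoeff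
    rw [neg_neg]
    rfl
  -- continuous functions
  let Q : C(UnitAddTorus (Fin m), ℂ) → ℂ := fun P => ∫ θ, ((‖P θ‖ ^ 2 : ℝ) : ℂ) * R θ ∂(haarT m)
  let N : C(UnitAddTorus (Fin m), ℂ) → ℂ := fun P => ∫ θ, ((‖P θ‖ ^ 2 : ℝ) : ℂ) * 1 ∂(haarT m)
  have hcont : ∀ ρ : UnitAddTorus (Fin m) → ℂ, Integrable ρ (haarT m) →
      Continuous fun P : C(UnitAddTorus (Fin m), ℂ) =>
        ∫ θ, ((‖P θ‖ ^ 2 : ℝ) : ℂ) * ρ θ ∂(haarT m) := by
    intro ρ hρ
    rw [continuous_iff_continuousAt]
    intro P0
    refine continuousAt_of_dominated (bound := fun θ => (‖P0‖ + 1) ^ 2 * ‖ρ θ‖) ?_ ?_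
      (hρ.norm.const_mul _) ?_
    · refine Eventually.of_forall fun P => AEStronglyMeasurable.mul ?_ hρ.1
      exact Continuous.aestronglyMeasurable (by fun_prop)
    · have h1 : ∀ᶠ P : C(UnitAddTorus (Fin m), ℂ) in 𝓝 P0, ‖P‖ < ‖P0‖ + 1 :=
        (continuous_norm.tendsto P0).eventually_lt_const (lt_add_one _)
      filter_upwards [h1] with P hP
      refine Eventually.of_forall fun θ => ?_
      rw [norm_mul, Complex.norm_real, Real.norm_of_nonneg (by positivity)]
      have h2 := (P.norm_coe_le_norm θ).trans hP.le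
      gcongr
    · refine Eventually.of_forall fun θ => ?_
      have h1 : Continuous fun P : C(UnitAddTorus (Fin m), ℂ) => P θ := continuous_eval_const θ
      exact Continuous.continuousAt (by fun_prop)
  have hall : ∀ P, (Q P).im = 0 ∧ 0 ≤ (Q P).re ∧ (Q P).re ≤ (N P).re := by
    intro P
    have hQ : Continuous Q := hcont _ hRi
    have hN : Continuous N := hcont _ (integrable_const 1)
    have hcl : IsClosed {P | (Q P).im = 0 ∧ 0 ≤ (Q P).re ∧ (Q P).re ≤ (N P).re} :=
      (isClosed_eq (by fun_prop) continuous_const).inter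
        ((isClosed_le continuous_const (Complex.continuous_re.comp hQ)).inter
          (isClosed_le (Complex.continuous_re.comp hQ) (Complex.continuous_re.comp hN)))
    have h1 : P ∈ closure (Submodule.span ℂ (range (mFourier (d := Fin m))) : Set _) := by
      rw [← Submodule.topologicalClosure_coe, span_mFourier_closure_eq_top]
      trivial
    refine closure_minimal ?_ hcl h1
    intro P hP
    obtain ⟨c, hc⟩ := Finsupp.mem_span_range_iff_exists_finsupp.1 hP
    let v : Fin c.support.card → Fin m → ℤ := fun i => c.support.equivFin.symm i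
    have hv : Function.Injective v := fun i j hij =>
      c.support.equivFin.symm.injective (Subtype.ext hij)
    have e : ∀ θ, P θ = ∑ i, c (v i) * mFourier (v i) θ := by
      intro θ
      rw [← hc, Finsupp.sum, ContinuousMap.sum_apply, ← Finset.sum_coe_sort c.support,
        ← Equiv.sum_comp c.support.equivFin.symm]
      rfl
    have e1 : Q P = ((∫ x, ‖∑ i, c (v i) * f (T (v i) x)‖ ^ 2 ∂μ : ℝ) : ℂ) := by
      simp only [Q, e]
      rw [integral_poly hRi, integral_sum_sq hT hb]
      simp only [hR]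
    have e2 : N P = ((∑ i, ‖c (v i)‖ ^ 2 : ℝ) : ℂ) := by
      simp only [N, e]
      rw [integral_poly (integrable_const 1)]
      simp only [mul_one, integral_mFourier, sub_eq_zero, hv.eq_iff, mul_ite, mul_zero,
        Finset.sum_ite_eq, Finset.mem_univ, if_true, Complex.mul_conj, Complex.normSq_eq_norm_sq]
      push_cast
      rfl
    show (Q P).im = 0 ∧ 0 ≤ (Q P).re ∧ (Q P).re ≤ (N P).re
    rw [e1, e2, Complex.ofReal_im, Complex.ofReal_re, Complex.ofReal_re]
    exact ⟨rfl, integral_nonneg fun x => by positivity, hB _ v hv _⟩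
  -- closed sets
  have hclosed : ∀ F : Set (UnitAddTorus (Fin m)), IsClosed F →
      (∫ θ in F, R θ ∂(haarT m)).im = 0 ∧ 0 ≤ (∫ θ in F, R θ ∂(haarT m)).re ∧
        (∫ θ in F, R θ ∂(haarT m)).re ≤ (∫ θ in F, (1 : ℂ) ∂(haarT m)).re := by
    intro F hF
    let P : ℕ → C(UnitAddTorus (Fin m), ℂ) := fun n =>
      ⟨fun θ => ((hF.apprSeq n θ : ℝ) : ℂ), by fun_prop⟩
    have hlim : ∀ ρ : UnitAddTorus (Fin m) → ℂ, Integrable ρ (haarT m) →
        Tendsto (fun n => ∫ θ, ((‖P n θ‖ ^ 2 : ℝ) : ℂ) * ρ θ ∂(haarT m)) atTop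
          (𝓝 (∫ θ in F, ρ θ ∂(haarT m))) := by
      intro ρ hρ
      rw [← integral_indicator hF.measurableSet]
      refine tendsto_integral_of_dominated_convergence (fun θ => ‖ρ θ‖) (fun n => ?_) hρ.norm
        (fun n => Eventually.of_forall fun θ => ?_) (Eventually.of_forall fun θ => ?_)
      · refine AEStronglyMeasurable.mul ?_ hρ.1
        exact Continuous.aestronglyMeasurable (by fun_prop)
      · rw [norm_mul, Complex.norm_real, Real.norm_of_nonneg (by positivity)]
        have h1 : ‖P n θ‖ ≤ 1 := by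
          show ‖((hF.apprSeq n θ : ℝ) : ℂ)‖ ≤ 1
          rw [Complex.norm_real, Real.norm_of_nonneg (NNReal.coe_nonneg _)]
          exact_mod_cast HasOuterApproxClosed.apprSeq_apply_le_one hF n θ
        have h2 : ‖P n θ‖ ^ 2 ≤ 1 := pow_le_one₀ (norm_nonneg _) h1
        exact mul_le_of_le_one_left (norm_nonneg _) h2
      · have h1 := tendsto_pi_nhds.1 (HasOuterApproxClosed.tendsto_apprSeq hF) θ
        have h2 : Continuous fun a : ℝ≥0 => ((‖((a : ℝ) : ℂ)‖ ^ 2 : ℝ) : ℂ) * ρ θ := by fun_prop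
        have h3 := (h2.tendsto _).comp h1
        by_cases hθ : θ ∈ F
        · simpa [hθ, P, Function.comp_def] using h3
        · simpa [hθ, P, Function.comp_def] using h3
    have h1 := hlim _ hRi
    have h2 := hlim _ (integrable_const 1)
    refine ⟨?_, ?_, ?_⟩
    · refine tendsto_nhds_unique ((Complex.continuous_im.tendsto _).comp h1) ?_
      exact tendsto_const_nhds.congr fun n => (hall (P n)).1.symm
    · exact ge_of_tendsto' ((Complex.continuous_re.tendsto _).comp h1) fun n => (hall (P n)).2.1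
    · exact le_of_tendsto_of_tendsto' ((Complex.continuous_re.tendsto _).comp h1)
        ((Complex.continuous_re.tendsto _).comp h2) fun n => (hall (P n)).2.2
  have hre : ∀ F : Set (UnitAddTorus (Fin m)),
      ∫ θ in F, (R θ).re ∂(haarT m) = (∫ θ in F, R θ ∂(haarT m)).re := fun F =>
    integral_re (𝕜 := ℂ) hRi.integrableOn
  have him : ∀ F : Set (UnitAddTorus (Fin m)),
      ∫ θ in F, (R θ).im ∂(haarT m) = (∫ θ in F, R θ ∂(haarT m)).im := fun F =>
    integral_im (𝕜 := ℂ) hRi.integrableOn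
  have a1 : 0 ≤ᵐ[haarT m] fun θ => (R θ).re :=
    ae_nonneg_of_closed hRi.re fun F hF => by rw [hre]; exact (hclosed F hF).2.1
  have a2 : 0 ≤ᵐ[haarT m] fun θ => 1 - (R θ).re :=
    ae_nonneg_of_closed ((integrable_const 1).sub hRi.re) fun F hF => by
      have h1 := (hclosed F hF).2.2
      have h2 : IntegrableOn (fun θ => (R θ).re) F (haarT m) := hRi.re.integrableOn
      rw [integral_sub (integrable_const 1) h2, hre]
      simp only [integral_const, Complex.real_smul, mul_one, Complex.ofReal_re,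
        smul_eq_mul] at h1 ⊢
      linarith
  have a3 : 0 ≤ᵐ[haarT m] fun θ => (R θ).im :=
    ae_nonneg_of_closed hRi.im fun F hF => by rw [him]; exact (hclosed F hF).1.ge
  have a4 : 0 ≤ᵐ[haarT m] fun θ => -(R θ).im :=
    ae_nonneg_of_closed hRi.im.neg fun F hF => by
      rw [integral_neg, him, (hclosed F hF).1, neg_zero]
  refine ⟨fun θ => max 0 (min 1 (R θ).re),
    measurable_const.max (measurable_const.min (Complex.measurable_re.comp hRm)),
    fun θ => ⟨le_max_left _ _, max_le zero_le_one (min_le_left _ _)⟩, fun v => ?_⟩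
  refine (hR v).symm.trans (integral_congr_ae ?_)
  filter_upwards [a1, a2, a3, a4] with θ h1 h2 h3 h4
  simp only [Pi.zero_apply] at h1 h2 h3 h4
  rw [min_eq_right (by linarith), max_eq_right h1]
  congr 1
  exact Complex.ext (by simp) (by simp; linarith)

end spec

end Vale.Agent.N102G
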